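import Vale.Agent.P322N.Sound2

/-! The kernel-checked box certificate for the all-noise Bellman step. -/

namespace Vale.Agent.P322N

open Tr

/-- certificate for `B ≤ 3/8`, `ρ ≤ 29/32`; the tree records the subdivision and the rule at each leaf. -/
noncomputable def treeMain : Tr :=
  (aa (rr (aa (aa (bb (rr (aa (bb s1 (aa s1 s1 ) ) (bb s1 (aa s1 s1 ) ) ) (rr (aa (bb (rr s1 s1 ) (rr (aa s1 s1 ) (aa s1 s1 ) ) ) (bb (rr s1 (aa s1 s1 ) ) (rr (aa s1 s1 ) (aa s1 s1 ) ) ) ) (aa (bb (rr (aa s1 s1 ) (aa s1 s1 ) ) (rr (aa s1 s1 ) (aa (bb s1 s1 ) (bb s1 (rr s1 s1 ) ) ) ) ) (bb (rr (aa s1 s1 ) (aa s1 s1 ) ) (rr (aa (bb s1 s1 ) (bb s1 s1 ) ) (aa (bb (rr s1 s1 ) (rr s1 s1 ) ) (bb (rr s1 s1 ) (rr s1 (aa s1 s1 ) ) ) ) ) ) ) ) ) (rr (aa (bb (aa s1 s1 ) (aa (bb s1 (rr s1 s1 ) ) (bb s1 (rr s1 (rr s1 (aa s1 s1 ) ) ) ) ) ) (bb (aa (bb s1 s1 ) (bb s1 s1 ) ) (aa (bb (rr s1 s1 ) (rr s1 (rr (aa s1 s1 ) (aa s1 s1 ) ) ) ) (bb (rr s1 (rr s1 s1 ) ) (rr (aa s1 s1 ) (rr (aa s1 s1 ) (aa s1 s1 ) ) ) ) ) ) ) (rr (aa (bb (rr (aa s1 s1 ) (aa s1 (bb s1 s1 ) ) ) (rr (aa (bb s1 (aa s1 s1 ) ) (bb s1 (aa s1 s1 ) ) ) (aa (bb s1 (rr (aa s1 s1 ) (aa s1 s1 ) ) ) (bb (rr s1 (aa s1 s1 ) ) (rr (aa s1 s1 ) (aa s1 s1 ) ) ) ) ) ) (bb (rr (aa (bb s1 s1 ) (bb s1 s1 ) ) (aa (bb s1 (rr s1 s1 ) ) (bb s1 (rr s1 s1 ) ) ) ) (rr (aa (bb (aa s1 s1 ) (aa s1 s1 ) ) (bb (aa s1 s1 ) (aa s1 (bb s1 s1 ) ) ) ) (aa (bb (rr (aa s1 s1 ) (aa s1 s1 ) ) (rr (aa s1 s1 ) (aa s1 (bb s1 s1 ) ) ) ) (bb (rr (aa s1 s1 ) (aa s1 s1 ) ) (rr (aa (bb s1 s1 ) (bb s1 s1 ) ) (aa (bb s1 s1 ) (bb s1 s1 ) ) ) ) ) ) ) ) (aa (bb (rr (aa (bb s1 s1 ) (bb s1 (rr s1 s1 ) ) ) (aa (bb (rr s1 s1 ) (rr s1 (aa s1 s1 ) ) ) (bb (rr s1 (aa s1 s1 ) ) (rr (aa s1 s1 ) (aa s1 s1 ) ) ) ) ) (rr (aa (bb (rr s1 (aa s1 s1 ) ) (rr (aa s1 s1 ) (aa s1 s1 ) ) ) (bb (rr (aa s1 s1 ) (aa s1 s1 ) ) (rr (aa s1 (bb s1 s1 ) ) (aa (bb s1 s1 ) (bb s1 s1 ) ) ) ) ) (aa (bb (rr (aa s1 s1 ) (aa s1 (bb s1 s1 ) ) ) (rr (aa (bb s1 s1 ) (bb s1 s1 ) ) (aa (bb s1 s1 ) (bb s1 (rr s1 s1 ) ) ) ) ) (bb (rr (aa s1 (bb s1 s1 ) ) (aa (bb s1 s1 ) (bb s1 s1 ) ) ) (rr (aa (bb s1 s1 ) (bb s1 (rr s1 s1 ) ) ) (aa (bb (rr s1 s1 ) (rr s1 (aa s1 s1 ) ) ) (bb (rr s1 s1 ) (rr (aa s1 s1 ) (aa s1 s1 ) ) ) ) ) ) ) ) ) (bb (rr (aa (bb (rr s1 s1 ) (rr (aa s1 s1 ) (aa s1 s1 ) ) ) (bb (rr s1 s1 ) (rr (aa s1 s1 ) (aa s1 s1 ) ) ) ) (aa (bb (rr (aa s1 s1 ) (aa s1 s1 ) ) (rr (aa s1 s1 ) (aa s1 (bb s1 s1 ) ) ) ) (bb (rr (aa s1 s1 ) (aa s1 s1 ) ) (rr (aa s1 s1 ) (aa (bb s1 s1 ) (bb s1 s1 ) ) ) ) ) ) (rr (aa (bb (rr (aa s1 s1 ) (aa s1 s1 ) ) (rr (aa (bb s1 s1 ) (bb s1 s1 ) ) (aa (bb s1 s1 ) (bb s1 (rr s1 s1 ) ) ) ) ) (bb (rr (aa s1 s1 ) (aa (bb s1 s1 ) (bb s1 s1 ) ) ) (rr (aa (bb s1 s1 ) (bb s1 (rr s1 s1 ) ) ) (aa (bb s1 (rr s1 (aa s1 s1 ) ) ) (bb (rr s1 s1 ) (rr (aa s1 s1 ) (aa s1 s1 ) ) ) ) ) ) ) (aa (bb (rr (aa (bb s1 s1 ) (bb s1 s1 ) ) (aa (bb s1 (rr s1 s1 ) ) (bb s1 (rr s1 s1 ) ) ) ) (rr (aa (bb (rr s1 s1 ) (rr s1 (aa s1 s1 ) ) ) (bb (rr s1 s1 ) (rr (aa s1 s1 ) (aa s1 s1 ) ) ) ) (aa (bb (rr s1 (aa s1 s1 ) ) (rr (aa s1 s1 ) (aa s1 s1 ) ) ) (bb (rr (aa s1 s1 ) (aa s1 s1 ) ) (rr (aa s1 s1 ) (aa (bb s1 s1 ) (bb s1 s1 ) ) ) ) ) ) ) (bb (rr (aa (bb s1 s1 ) (bb s1 (rr s1 s1 ) ) ) (aa (bb (rr s1 s1 ) (rr s1 (aa s1 s1 ) ) ) (bb (rr s1 s1 ) (rr (aa s1 s1 ) (aa s1 s1 ) ) ) ) ) (rr (aa (bb (rr s1 (aa s1 s1 ) ) (rr (aa s1 s1 ) (aa s1 s1 ) ) ) (bb (rr (aa s1 s1 ) (aa s1 s1 ) ) (rr (aa s1 s1 ) (aa s1 s1 ) ) ) ) (aa (bb (rr (aa s1 s1 ) (aa s1 s1 ) ) (rr (aa (bb s1 s1 ) (bb s1 s1 ) ) (aa (bb s1 s1 ) (bb s1 s1 ) ) ) ) (bb (rr (aa s1 s1 ) (aa s1 s1 ) ) (rr (aa (bb s1 s1 ) (bb s1 s1 ) ) (aa (bb s1 s1 ) (bb s1 (s3 293) ) ) ) ) ) ) ) ) ) ) ) ) ) ) (bb (rr (aa (bb (aa s1 s1 ) (aa s1 s1 ) ) (bb (aa s1 s1 ) (aa s1 s1 ) ) ) (rr (aa (bb (rr (aa s1 s1 ) (aa s1 s1 ) ) (rr (aa s1 s1 ) (aa s1 s1 ) ) ) (bb (rr (aa s1 s1 ) (aa s1 s1 ) ) (rr (aa s1 s1 ) (aa s1 s1 ) ) ) ) (aa (bb (rr (aa s1 s1 ) (aa (bb s1 (rr s1 s1 ) ) (bb s1 (rr s1 s1 ) ) ) ) (rr (aa (bb s1 (rr s1 s1 ) ) (bb s1 (rr s1 s1 ) ) ) (aa (bb (rr s1 s1 ) (rr s1 (aa s1 s1 ) ) ) (bb (rr s1 s1 ) (rr (aa s1 s1 ) (aa s1 s1 ) ) ) ) ) ) (bb (rr (aa s1 s1 ) (aa (bb s1 s1 ) s1 ) ) (rr (aa (bb s1 s1 ) (bb s1 s1 ) ) (aa (bb (rr s1 s1 ) (rr s1 (aa s1 s1 ) ) ) (bb (rr s1 s1 ) (rr s1 (aa s1 s1 ) ) ) ) ) ) ) ) ) (rr (aa (bb (aa (bb s1 s1 ) (bb s1 s1 ) ) (aa (bb (rr s1 (rr s1 (aa s1 s1 ) ) ) (rr (aa s1 s1 ) (rr (aa s1 s1 ) (aa s1 s1 ) ) ) ) (bb (rr s1 (rr s1 (aa s1 s1 ) ) ) (rr (aa s1 s1 ) (rr (aa s1 s1 ) (aa s1 s1 ) ) ) ) ) ) (bb (aa (bb s1 s1 ) (bb s1 s1 ) ) (aa (bb (rr s1 (rr s1 (aa s1 s1 ) ) ) (rr (aa s1 s1 ) (rr (aa s1 s1 ) (aa s1 s1 ) ) ) ) (bb (rr s1 (rr s1 (aa s1 s1 ) ) ) (rr (aa s1 s1 ) (rr (aa s1 s1 ) (aa s1 s1 ) ) ) ) ) ) ) (rr (aa (bb (rr (aa (bb s1 s1 ) (bb s1 s1 ) ) (aa (bb s1 (rr s1 (aa s1 s1 ) ) ) (bb s1 (rr s1 (aa s1 s1 ) ) ) ) ) (rr (aa (bb (aa s1 s1 ) (aa (bb s1 s1 ) (bb s1 s1 ) ) ) (bb (aa s1 s1 ) (aa (bb s1 s1 ) (bb s1 s1 ) ) ) ) (aa (bb (rr (aa s1 s1 ) (aa s1 s1 ) ) (rr (aa (bb s1 s1 ) (bb s1 s1 ) ) (aa (bb s1 s1 ) (bb s1 s1 ) ) ) ) (bb (rr (aa s1 s1 ) (aa s1 s1 ) ) (rr (aa (bb s1 s1 ) (bb s1 s1 ) ) (aa (bb s1 s1 ) (bb s1 s1 ) ) ) ) ) ) ) (bb (rr (aa (bb s1 s1 ) (bb s1 s1 ) ) (aa (bb s1 (rr s1 (aa s1 s1 ) ) ) (bb s1 (rr s1 (aa s1 s1 ) ) ) ) ) (rr (aa (bb (aa s1 s1 ) (aa (bb s1 s1 ) (bb s1 s1 ) ) ) (bb (aa s1 s1 ) (aa (bb s1 s1 ) (bb s1 s1 ) ) ) ) (aa (bb (rr (aa s1 s1 ) (aa s1 s1 ) ) (rr (aa (bb s1 s1 ) (bb s1 s1 ) ) (aa (bb s1 s1 ) (bb s1 s1 ) ) ) ) (bb (rr (aa s1 s1 ) (aa s1 s1 ) ) (rr (aa (bb s1 s1 ) (bb s1 s1 ) ) (aa (bb s1 s1 ) (bb s1 s1 ) ) ) ) ) ) ) ) (aa (bb (rr (aa (bb (rr s1 (aa s1 s1 ) ) (rr (aa s1 s1 ) (aa s1 s1 ) ) ) (bb (rr s1 (aa s1 s1 ) ) (rr (aa s1 s1 ) (aa s1 s1 ) ) ) ) (aa (bb (rr (aa s1 s1 ) (aa s1 s1 ) ) (rr (aa s1 s1 ) (aa (bb s1 s1 ) (bb s1 s1 ) ) ) ) (bb (rr (aa s1 s1 ) (aa s1 s1 ) ) (rr (aa (bb s1 s1 ) s1 ) (aa (bb s1 s1 ) (bb s1 s1 ) ) ) ) ) ) (rr (aa (bb (rr (aa s1 (bb s1 s1 ) ) (aa (bb s1 s1 ) (bb s1 s1 ) ) ) (rr (aa (bb s1 (rr s1 s1 ) ) (bb s1 (rr s1 (aa s1 s1 ) ) ) ) (aa (bb (rr s1 s1 ) (rr (aa s1 s1 ) (aa s1 s1 ) ) ) (bb (rr s1 s1 ) (rr (aa s1 s1 ) (aa s1 s1 ) ) ) ) ) ) (bb (rr (aa (bb s1 s1 ) (bb s1 s1 ) ) (aa (bb s1 s1 ) (bb s1 s1 ) ) ) (rr (aa (bb s1 (rr s1 (aa s1 s1 ) ) ) (bb s1 (rr s1 (aa s1 s1 ) ) ) ) (aa (bb (rr s1 (aa s1 s1 ) ) (rr (aa s1 s1 ) (aa s1 s1 ) ) ) (bb (rr s1 (aa s1 s1 ) ) (rr (aa s1 s1 ) (aa s1 s1 ) ) ) ) ) ) ) (aa (bb (rr (aa (bb s1 (rr s1 s1 ) ) (bb s1 (rr s1 s1 ) ) ) (aa (bb (rr s1 s1 ) (rr (aa s1 s1 ) (aa s1 s1 ) ) ) (bb (rr s1 (aa s1 s1 ) ) (rr (aa s1 s1 ) (aa s1 s1 ) ) ) ) ) (rr (aa (bb (rr (aa s1 s1 ) (aa s1 s1 ) ) (rr (aa s1 s1 ) (aa (bb s1 s1 ) (bb s1 s1 ) ) ) ) (bb (rr (aa s1 s1 ) (aa s1 s1 ) ) (rr (aa s1 s1 ) (aa (bb s1 s1 ) (bb s1 s1 ) ) ) ) ) (aa (bb (rr (aa s1 s1 ) (aa (bb s1 s1 ) (bb s1 s1 ) ) ) (rr (aa (bb s1 s1 ) (bb s1 s1 ) ) (aa (bb s1 (s3 294) ) (bb s1 (s3 294) ) ) ) ) (bb (rr (aa s1 s1 ) (aa (bb s1 s1 ) (bb s1 s1 ) ) ) (rr (aa (bb s1 s1 ) (bb s1 s1 ) ) (aa (bb s1 (s3 295) ) (bb s1 (s3 295) ) ) ) ) ) ) ) (bb (rr (aa (bb s1 (rr s1 (aa s1 s1 ) ) ) (bb s1 (rr s1 (aa s1 s1 ) ) ) ) (aa (bb (rr s1 (aa s1 s1 ) ) (rr (aa s1 s1 ) (aa s1 s1 ) ) ) (bb (rr s1 (aa s1 s1 ) ) (rr (aa s1 s1 ) (aa s1 s1 ) ) ) ) ) (rr (aa (bb (rr (aa s1 s1 ) (aa s1 s1 ) ) (rr (aa s1 s1 ) (aa (bb s1 s1 ) (bb s1 s1 ) ) ) ) (bb (rr (aa s1 s1 ) (aa s1 s1 ) ) (rr (aa s1 s1 ) (aa (bb s1 s1 ) (bb s1 s1 ) ) ) ) ) (aa (bb (rr (aa s1 s1 ) (aa (bb s1 s1 ) (bb s1 s1 ) ) ) (rr (aa (bb s1 s1 ) (bb s1 s1 ) ) (aa (bb s1 (rr s1 (s3 297) ) ) (bb (s3 297) (rr s1 (s3 298) ) ) ) ) ) (bb (rr (aa s1 s1 ) (aa (bb s1 s1 ) (bb s1 s1 ) ) ) (rr (aa (bb s1 s1 ) (bb s1 s1 ) ) (aa (bb (s3 297) (rr s1 (s3 298) ) ) (bb s1 (rr s1 (s3 299) ) ) ) ) ) ) ) ) ) ) ) (bb (rr (aa (bb (rr s1 (aa s1 s1 ) ) (rr (aa s1 s1 ) (aa s1 s1 ) ) ) (bb (rr s1 (aa s1 s1 ) ) (rr (aa s1 s1 ) (aa s1 s1 ) ) ) ) (aa (bb (rr (aa s1 s1 ) (aa s1 s1 ) ) (rr (aa s1 s1 ) (aa (bb s1 s1 ) (bb s1 s1 ) ) ) ) (bb (rr (aa s1 s1 ) (aa s1 s1 ) ) (rr (aa s1 s1 ) (aa (bb s1 s1 ) (bb s1 s1 ) ) ) ) ) ) (rr (aa (bb (rr (aa (bb s1 s1 ) s1 ) (aa (bb s1 s1 ) (bb s1 s1 ) ) ) (rr (aa (bb s1 (rr s1 (aa s1 s1 ) ) ) (bb s1 (rr s1 (aa s1 s1 ) ) ) ) (aa (bb (rr s1 (aa s1 s1 ) ) (rr (aa s1 s1 ) (aa s1 s1 ) ) ) (bb (rr s1 s1 ) (rr (aa s1 s1 ) (aa s1 s1 ) ) ) ) ) ) (bb (rr (aa s1 s1 ) (aa (bb s1 s1 ) (bb s1 s1 ) ) ) (rr (aa (bb s1 (rr s1 (aa s1 s1 ) ) ) (bb s1 (rr s1 s1 ) ) ) (aa (bb (rr s1 s1 ) (rr (aa s1 s1 ) (aa s1 s1 ) ) ) (bb (rr s1 s1 ) (rr (aa s1 s1 ) (aa s1 s1 ) ) ) ) ) ) ) (aa (bb (rr (aa (bb s1 (rr s1 s1 ) ) (bb s1 (rr s1 s1 ) ) ) (aa (bb (rr s1 (aa s1 s1 ) ) (rr (aa s1 s1 ) (aa s1 s1 ) ) ) (bb (rr s1 s1 ) (rr (aa s1 s1 ) (aa s1 s1 ) ) ) ) ) (rr (aa (bb (rr (aa s1 s1 ) (aa s1 s1 ) ) (rr (aa s1 s1 ) (aa (bb s1 s1 ) (bb s1 s1 ) ) ) ) (bb (rr (aa s1 s1 ) (aa s1 s1 ) ) (rr (aa s1 s1 ) (aa (bb s1 s1 ) (bb s1 s1 ) ) ) ) ) (aa (bb (rr (aa s1 s1 ) (aa (bb s1 s1 ) (bb s1 s1 ) ) ) (rr (aa (bb s1 s1 ) (bb s1 s1 ) ) (aa (bb s1 (rr s1 (s3 300) ) ) (bb s1 (rr s1 (s3 300) ) ) ) ) ) (bb (rr (aa s1 s1 ) (aa (bb s1 s1 ) (bb s1 s1 ) ) ) (rr (aa (bb s1 s1 ) (bb s1 s1 ) ) (aa (bb s1 (rr s1 (s3 301) ) ) (bb s1 (rr s1 s1 ) ) ) ) ) ) ) ) (bb (rr (aa (bb s1 (rr s1 s1 ) ) (bb s1 s1 ) ) (aa (bb (rr s1 s1 ) (rr (aa s1 s1 ) (aa s1 s1 ) ) ) (bb s1 (rr s1 (aa s1 s1 ) ) ) ) ) (rr (aa (bb (rr (aa s1 s1 ) (aa s1 s1 ) ) (rr (aa s1 s1 ) (aa (bb s1 s1 ) s1 ) ) ) (bb (rr s1 (aa s1 s1 ) ) (rr (aa s1 s1 ) (aa s1 s1 ) ) ) ) (aa (bb (rr (aa s1 s1 ) (aa s1 s1 ) ) (rr (aa (bb s1 s1 ) (bb s1 s1 ) ) (aa (bb s1 (rr s1 s1 ) ) (bb s1 (rr s1 s1 ) ) ) ) ) (bb (rr (aa s1 s1 ) (aa s1 s1 ) ) (rr (aa (bb s1 s1 ) (bb s1 s1 ) ) (aa (bb s1 s1 ) (bb s1 s1 ) ) ) ) ) ) ) ) ) ) ) ) ) ) ) (aa (bb (rr (aa (bb s1 (aa s1 s1 ) ) (bb s1 (aa s1 s1 ) ) ) (rr (aa (bb (rr s1 (aa s1 s1 ) ) (rr (aa s1 s1 ) (aa s1 s1 ) ) ) (bb (rr s1 s1 ) (rr (aa s1 s1 ) (aa s1 s1 ) ) ) ) (aa (bb (rr (aa s1 s1 ) (aa s1 s1 ) ) (rr (aa s1 s1 ) (aa (bb s1 (rr s1 s1 ) ) (bb s1 s1 ) ) ) ) (bb (rr (aa s1 s1 ) (aa s1 s1 ) ) (rr (aa s1 s1 ) (aa s1 s1 ) ) ) ) ) ) (rr (aa (bb (aa (bb s1 s1 ) (bb s1 s1 ) ) (aa (bb (rr s1 (rr s1 s1 ) ) (rr (aa s1 s1 ) (rr (aa s1 s1 ) (aa s1 s1 ) ) ) ) (bb (rr s1 s1 ) (rr (aa s1 s1 ) (rr (aa s1 s1 ) (aa s1 s1 ) ) ) ) ) ) (bb (aa s1 s1 ) (aa (bb s1 (rr s1 (rr s1 (aa s1 s1 ) ) ) ) (bb s1 (rr s1 (rr s1 s1 ) ) ) ) ) ) (rr (aa (bb (rr (aa (bb s1 s1 ) (bb s1 s1 ) ) (aa (bb s1 (rr s1 s1 ) ) (bb s1 s1 ) ) ) (rr (aa (bb (aa s1 s1 ) (aa (bb s1 s1 ) s1 ) ) (bb (aa s1 s1 ) (aa s1 s1 ) ) ) (aa (bb (rr (aa s1 s1 ) (aa s1 s1 ) ) (rr (aa (bb s1 s1 ) s1 ) (aa (bb s1 s1 ) (bb s1 s1 ) ) ) ) (bb (rr (aa s1 s1 ) (aa s1 s1 ) ) (rr (aa s1 s1 ) (aa (bb s1 s1 ) s1 ) ) ) ) ) ) (bb (rr (aa s1 s1 ) (aa (bb s1 s1 ) s1 ) ) (rr (aa (bb s1 (aa s1 s1 ) ) (bb s1 (aa s1 s1 ) ) ) (aa (bb (rr s1 (aa s1 s1 ) ) (rr (aa s1 s1 ) (aa s1 s1 ) ) ) (bb s1 (rr (aa s1 s1 ) (aa s1 s1 ) ) ) ) ) ) ) (aa (bb (rr (aa (bb (rr s1 s1 ) (rr (aa s1 s1 ) (aa s1 s1 ) ) ) (bb s1 (rr s1 (aa s1 s1 ) ) ) ) (aa (bb (rr (aa s1 s1 ) (aa s1 s1 ) ) (rr (aa s1 s1 ) (aa s1 s1 ) ) ) (bb (rr s1 (aa s1 s1 ) ) (rr (aa s1 s1 ) (aa s1 s1 ) ) ) ) ) (rr (aa (bb (rr (aa s1 s1 ) (aa s1 s1 ) ) (rr (aa (bb s1 s1 ) (bb s1 s1 ) ) (aa (bb s1 (rr s1 (aa s1 s1 ) ) ) (bb s1 (rr s1 s1 ) ) ) ) ) (bb (rr (aa s1 s1 ) (aa s1 s1 ) ) (rr (aa (bb s1 s1 ) (bb s1 s1 ) ) (aa (bb s1 (rr s1 s1 ) ) (bb s1 s1 ) ) ) ) ) (aa (bb (rr (aa (bb s1 s1 ) (bb s1 s1 ) ) (aa (bb s1 (rr s1 s1 ) ) (bb s1 (rr s1 s1 ) ) ) ) (rr (aa (bb (rr s1 (aa s1 s1 ) ) (rr (aa s1 s1 ) (aa s1 s1 ) ) ) (bb (rr s1 s1 ) (rr (aa s1 s1 ) (aa s1 s1 ) ) ) ) (aa (bb (rr (aa s1 s1 ) (aa s1 s1 ) ) (rr (aa s1 s1 ) (aa (bb s1 s1 ) (bb s1 s1 ) ) ) ) (bb (rr (aa s1 s1 ) (aa s1 s1 ) ) (rr (aa s1 s1 ) (aa s1 s1 ) ) ) ) ) ) (bb (rr (aa (bb s1 s1 ) s1 ) (aa (bb s1 s1 ) (bb s1 s1 ) ) ) (rr (aa (bb s1 (rr s1 (aa s1 s1 ) ) ) (bb s1 (rr s1 s1 ) ) ) (aa (bb (rr s1 (aa s1 s1 ) ) (rr (aa s1 s1 ) (aa s1 s1 ) ) ) (bb (rr s1 s1 ) (rr (aa s1 s1 ) (aa s1 s1 ) ) ) ) ) ) ) ) ) (bb (rr (aa (bb s1 (rr s1 s1 ) ) (bb s1 s1 ) ) (aa (bb (rr s1 s1 ) (rr (aa s1 s1 ) (aa s1 s1 ) ) ) (bb s1 (rr s1 s1 ) ) ) ) (rr (aa (bb (rr (aa s1 s1 ) (aa s1 s1 ) ) (rr (aa s1 s1 ) (aa (bb s1 s1 ) s1 ) ) ) (bb (rr s1 (aa s1 s1 ) ) (rr (aa s1 s1 ) (aa s1 s1 ) ) ) ) (aa (bb (rr (aa s1 s1 ) (aa s1 s1 ) ) (rr (aa (bb s1 s1 ) (bb s1 s1 ) ) (aa (bb s1 (rr s1 (aa s1 s1 ) ) ) (bb s1 (rr s1 s1 ) ) ) ) ) (bb (rr (aa s1 s1 ) (aa s1 s1 ) ) (rr (aa (bb s1 s1 ) s1 ) (aa (bb s1 s1 ) (bb s1 s1 ) ) ) ) ) ) ) ) ) ) ) (bb (rr (aa s1 s1 ) (rr (aa (bb s1 (rr s1 (aa s1 s1 ) ) ) s1 ) (aa (bb (rr s1 (aa s1 s1 ) ) (rr (aa s1 s1 ) (aa s1 s1 ) ) ) (bb s1 (rr s1 s1 ) ) ) ) ) (rr (aa (bb (aa s1 s1 ) (aa (bb s1 s1 ) (bb s1 s1 ) ) ) (bb (aa s1 s1 ) (aa (bb s1 s1 ) s1 ) ) ) (rr (aa (bb (rr (aa s1 s1 ) (aa s1 s1 ) ) (rr (aa (bb s1 s1 ) (bb s1 s1 ) ) (aa (bb s1 (rr s1 (aa s1 s1 ) ) ) (bb s1 s1 ) ) ) ) (bb (rr (aa s1 s1 ) (aa s1 s1 ) ) (rr (aa (bb s1 s1 ) s1 ) (aa (bb s1 s1 ) (bb s1 s1 ) ) ) ) ) (aa (bb (rr (aa s1 s1 ) (aa (bb s1 s1 ) s1 ) ) (rr (aa (bb s1 (rr (aa s1 s1 ) (aa s1 s1 ) ) ) (bb s1 (rr s1 (aa s1 s1 ) ) ) ) (aa (bb (rr s1 (aa s1 s1 ) ) (rr (aa s1 s1 ) (aa s1 s1 ) ) ) (bb s1 (rr (aa s1 s1 ) (aa s1 s1 ) ) ) ) ) ) (bb (rr (aa s1 s1 ) (aa s1 s1 ) ) (rr (aa (bb s1 s1 ) (bb s1 s1 ) ) (aa (bb s1 (rr s1 (aa s1 s1 ) ) ) (bb s1 s1 ) ) ) ) ) ) ) ) ) ) (rr (aa (rr (aa (bb (aa (bb (rr (aa s1 (bb (rr s1 s1 ) (rr s1 s1 ) ) ) (aa (bb (rr s1 (s3 328) ) (rr s1 (s3 327) ) ) (bb (rr s1 (s3 328) ) (rr (s3 317) (s3 327) ) ) ) ) (rr (aa (bb (rr s1 s1 ) (rr s1 (aa s1 s1 ) ) ) (bb (rr s1 (aa s1 s1 ) ) (rr (aa s1 s1 ) (aa s1 s1 ) ) ) ) (aa (bb (rr (s3 316) (s3 325) ) (rr (aa s1 s1 ) (s3 324) ) ) (bb (rr (s3 316) (s3 326) ) (rr (aa s1 (s3 315) ) (s3 324) ) ) ) ) ) (bb (rr (aa (bb (rr s1 s1 ) (rr s1 (s3 310) ) ) (bb (rr s1 (s3 311) ) (rr s1 (s3 311) ) ) ) (aa (bb (rr (s3 319) (s3 329) ) (rr (s3 318) (s3 328) ) ) (bb (rr (s3 320) (s3 330) ) (rr (s3 319) (s3 329) ) ) ) ) (rr (aa (bb (rr s1 (aa s1 s1 ) ) (rr (aa s1 s1 ) (aa s1 s1 ) ) ) (bb (rr (aa s1 s1 ) (aa s1 s1 ) ) (rr (aa s1 s1 ) (aa s1 (s3 309) ) ) ) ) (aa (bb (rr (s3 317) (s3 326) ) (rr (aa (s3 316) (s3 316) ) (s3 325) ) ) (bb (rr (s3 318) (s3 328) ) (rr (aa (s3 317) (s3 318) ) (s3 326) ) ) ) ) ) ) (aa (bb (rr (aa (bb (rr (aa s1 s1 ) (aa s1 s1 ) ) (rr (aa s1 s1 ) (aa (bb s1 s1 ) (bb s1 s1 ) ) ) ) (bb (rr (aa s1 s1 ) (aa s1 (bb s1 s1 ) ) ) (rr (aa s1 (bb s1 s1 ) ) (aa (bb s1 (rr s1 s1 ) ) (bb s1 (rr s1 s1 ) ) ) ) ) ) (aa (bb (rr (aa s1 (bb s1 s1 ) ) (rr (s3 322) (s3 326) ) ) (rr (aa (bb s1 (s3 310) ) (bb (s3 312) (s3 310) ) ) (rr (aa (s3 319) (s3 319) ) (s3 323) ) ) ) (bb (rr (aa (bb s1 (s3 313) ) (bb (s3 314) (s3 313) ) ) (rr (s3 322) (s3 327) ) ) (rr (aa (bb (s3 312) (s3 311) ) (bb (s3 312) (s3 311) ) ) (rr (aa (s3 319) (s3 320) ) (aa (s3 324) (s3 324) ) ) ) ) ) ) (rr (aa (bb (rr (aa (bb s1 s1 ) (bb s1 s1 ) ) (aa (bb s1 (rr s1 s1 ) ) (bb (rr s1 s1 ) (rr s1 (s3 305) ) ) ) ) (rr (aa (bb s1 (rr s1 (aa s1 s1 ) ) ) (bb (rr s1 s1 ) (rr (aa s1 s1 ) (aa s1 s1 ) ) ) ) (aa (bb (rr s1 (s3 303) ) (rr (aa s1 s1 ) (aa s1 (s3 302) ) ) ) (bb (rr (aa s1 s1 ) (s3 303) ) (rr (aa s1 (bb s1 s1 ) ) (aa (s3 302) (s3 302) ) ) ) ) ) ) (bb (rr (aa (bb s1 (rr s1 s1 ) ) (bb (rr s1 s1 ) (rr s1 (aa s1 s1 ) ) ) ) (aa (bb (rr s1 (s3 306) ) (rr (s3 301) (s3 305) ) ) (bb (rr s1 (s3 306) ) (rr (s3 302) (s3 305) ) ) ) ) (rr (aa (bb (rr s1 (aa s1 s1 ) ) (rr (aa s1 s1 ) (aa s1 (bb s1 s1 ) ) ) ) (bb (rr (aa s1 s1 ) (aa s1 s1 ) ) (rr (aa s1 (bb s1 s1 ) ) (aa (bb s1 s1 ) (bb s1 s1 ) ) ) ) ) (aa (bb (rr (aa s1 s1 ) (s3 304) ) (rr (aa (bb s1 s1 ) (bb s1 s1 ) ) (aa (s3 302) (s3 302) ) ) ) (bb (rr (aa (s3 301) (s3 301) ) (aa (s3 304) (s3 304) ) ) (rr (aa (bb s1 (s3 299) ) (bb s1 (s3 299) ) ) (aa (s3 302) (s3 303) ) ) ) ) ) ) ) (aa (bb (rr (aa (bb (rr s1 (s3 313) ) (rr (s3 308) (s3 312) ) ) (bb (rr (s3 310) (s3 314) ) (rr (s3 308) (s3 312) ) ) ) (rr (aa (bb (s3 318) (s3 316) ) (bb (s3 318) (s3 316) ) ) (aa (bb (s3 322) (s3 320) ) (bb (s3 322) (s3 320) ) ) ) ) (rr (aa (bb (rr (s3 307) (s3 310) ) (rr (aa (s3 305) (s3 305) ) (aa (s3 309) (s3 309) ) ) ) (bb (rr (s3 307) (s3 310) ) (rr (aa (s3 305) (s3 305) ) (aa (s3 309) (s3 309) ) ) ) ) (rr (aa (bb (s3 314) (s3 312) ) (bb (s3 314) (s3 312) ) ) (aa (bb (s3 318) (s3 316) ) (bb (s3 318) (s3 316) ) ) ) ) ) (bb (rr (aa (bb (rr (s3 310) (s3 314) ) (rr (s3 308) (s3 312) ) ) (bb (rr (s3 310) (s3 314) ) (rr (s3 309) (s3 312) ) ) ) (rr (aa (bb (s3 318) (s3 316) ) (bb (s3 318) (s3 316) ) ) (aa (bb (s3 322) (s3 320) ) (bb (s3 322) (s3 321) ) ) ) ) (rr (aa (bb (rr (s3 307) (s3 311) ) (rr (aa (s3 306) (s3 306) ) (aa (s3 309) (s3 309) ) ) ) (bb (rr (s3 307) (s3 311) ) (rr (aa (s3 306) (s3 306) ) (aa (s3 309) (s3 309) ) ) ) ) (rr (aa (bb (s3 314) (s3 313) ) (bb (s3 315) (s3 313) ) ) (aa (bb (s3 319) (s3 317) ) (bb (s3 319) (s3 317) ) ) ) ) ) ) ) ) (bb (rr (aa (bb (rr (aa s1 s1 ) (aa (bb s1 s1 ) (bb s1 (s3 306) ) ) ) (rr (aa (bb s1 s1 ) (bb s1 (rr s1 s1 ) ) ) (aa (bb (rr s1 s1 ) (rr s1 (s3 308) ) ) (bb (rr s1 s1 ) (rr (s3 305) (s3 308) ) ) ) ) ) (bb (rr (aa (bb s1 s1 ) (bb s1 s1 ) ) (aa (bb s1 (s3 307) ) (bb (s3 309) (s3 308) ) ) ) (rr (aa (bb s1 (rr s1 s1 ) ) (bb (rr s1 s1 ) (rr s1 (s3 303) ) ) ) (aa (bb (rr s1 (s3 310) ) (rr (s3 305) (s3 309) ) ) (bb (rr s1 (s3 311) ) (rr (s3 306) (s3 310) ) ) ) ) ) ) (aa (bb (rr (aa (bb (s3 315) (s3 314) ) (bb (s3 315) (s3 314) ) ) (rr (s3 323) (s3 327) ) ) (rr (aa (bb (s3 312) (s3 311) ) (bb (s3 313) (s3 312) ) ) (rr (aa (s3 320) (s3 321) ) (aa (s3 324) (s3 325) ) ) ) ) (bb (rr (aa (bb (s3 316) (s3 315) ) (bb (s3 317) (s3 316) ) ) (rr (s3 324) (s3 329) ) ) (rr (aa (bb (s3 314) (s3 312) ) (bb (s3 314) (rr (s3 314) (s3 318) ) ) ) (rr (aa (s3 321) (s3 322) ) (aa (s3 326) (s3 326) ) ) ) ) ) ) (rr (aa (bb (rr (aa (bb (rr s1 s1 ) (rr (aa s1 s1 ) (aa s1 s1 ) ) ) (bb (rr s1 (s3 300) ) (rr (aa s1 s1 ) (aa s1 s1 ) ) ) ) (aa (bb (rr (s3 303) (s3 307) ) (rr (s3 302) (s3 306) ) ) (bb (rr (s3 304) (s3 307) ) (rr (s3 303) (s3 306) ) ) ) ) (rr (aa (bb (rr (aa s1 s1 ) (aa s1 (s3 298) ) ) (rr (aa (bb s1 s1 ) (bb s1 s1 ) ) (aa (bb s1 s1 ) (bb s1 (s3 297) ) ) ) ) (bb (rr (aa s1 s1 ) (aa (s3 298) (s3 299) ) ) (rr (aa (bb s1 s1 ) (bb s1 (s3 295) ) ) (aa (bb s1 (s3 297) ) (bb (s3 298) (s3 297) ) ) ) ) ) (aa (bb (rr (aa (s3 301) (s3 301) ) (aa (s3 304) (s3 304) ) ) (rr (aa (bb (s3 300) (s3 300) ) (bb (s3 301) (s3 300) ) ) (aa (s3 303) (bb (s3 304) (s3 303) ) ) ) ) (bb (rr (aa (s3 301) (s3 302) ) (aa (s3 305) (s3 305) ) ) (rr (aa (bb (s3 301) (s3 300) ) (bb (s3 301) (s3 300) ) ) (aa (bb (s3 304) (s3 303) ) (bb (s3 304) (s3 304) ) ) ) ) ) ) ) (bb (rr (aa (bb (rr s1 (s3 301) ) (rr (aa s1 s1 ) (aa s1 s1 ) ) ) (bb (rr (aa s1 s1 ) (s3 302) ) (rr (aa s1 s1 ) (aa (s3 301) (s3 301) ) ) ) ) (aa (bb (rr (s3 304) (s3 308) ) (rr (s3 303) (s3 307) ) ) (bb (rr (s3 305) (s3 309) ) (rr (s3 304) (s3 307) ) ) ) ) (rr (aa (bb (rr (aa (bb s1 s1 ) (bb s1 s1 ) ) (aa (s3 299) (bb s1 (s3 299) ) ) ) (rr (aa (bb s1 (s3 295) ) (bb s1 (s3 295) ) ) (aa (bb (s3 298) (s3 298) ) (bb (s3 299) (s3 298) ) ) ) ) (bb (rr (aa (bb s1 s1 ) (bb s1 s1 ) ) (aa (bb s1 (s3 300) ) (bb s1 (s3 300) ) ) ) (rr (aa (bb (s3 296) (s3 296) ) (bb (s3 296) (s3 296) ) ) (aa (bb (s3 299) (s3 298) ) (bb (s3 299) (s3 299) ) ) ) ) ) (aa (bb (rr (aa (s3 302) (s3 302) ) (aa (s3 305) (s3 306) ) ) (rr (aa (bb (s3 301) (s3 301) ) (bb (s3 302) (s3 301) ) ) (aa (bb (s3 305) (s3 304) ) (bb (s3 305) (s3 304) ) ) ) ) (bb (rr (aa (s3 303) (s3 303) ) (aa (s3 306) (s3 306) ) ) (rr (aa (bb (s3 302) (s3 301) ) (bb (s3 302) (s3 302) ) ) (aa (bb (s3 305) (s3 305) ) (bb (s3 306) (s3 305) ) ) ) ) ) ) ) ) (aa (bb (rr (aa (bb (rr (s3 310) (s3 314) ) (rr (s3 309) (s3 313) ) ) (bb (rr (s3 311) (s3 315) ) (rr (s3 310) (s3 313) ) ) ) (rr (aa (bb (s3 318) (s3 317) ) (bb (s3 319) (s3 317) ) ) (aa (bb (s3 323) (s3 321) ) (bb (s3 323) (s3 322) ) ) ) ) (rr (aa (bb (rr (s3 308) (s3 311) ) (rr (aa (s3 306) (s3 306) ) (aa (s3 310) (s3 310) ) ) ) (bb (rr (s3 308) (s3 312) ) (rr (aa (s3 307) (s3 307) ) (aa (s3 310) (s3 310) ) ) ) ) (rr (aa (bb (s3 315) (s3 313) ) (bb (s3 316) (aa (s3 314) (s3 314) ) ) ) (aa (bb (s3 319) (s3 317) ) (bb (s3 320) (s3 318) ) ) ) ) ) (bb (rr (aa (bb (rr (s3 312) (s3 315) ) (rr (s3 310) (s3 314) ) ) (bb (rr (s3 312) (s3 316) ) (rr (s3 311) (s3 315) ) ) ) (rr (aa (bb (s3 320) (s3 318) ) (bb (s3 320) (s3 319) ) ) (aa (bb (s3 324) (s3 322) ) (bb (s3 325) (s3 323) ) ) ) ) (rr (aa (bb (rr (s3 309) (s3 312) ) (rr (aa (s3 307) (s3 308) ) (aa (s3 311) (s3 311) ) ) ) (bb (rr (s3 309) (s3 313) ) (rr (aa (s3 308) (s3 308) ) (aa (s3 311) (s3 312) ) ) ) ) (rr (aa (bb (s3 316) (aa (s3 314) (s3 315) ) ) (bb (s3 317) (aa (s3 315) (s3 316) ) ) ) (aa (bb (s3 320) (s3 318) ) (bb (s3 321) (s3 319) ) ) ) ) ) ) ) ) ) ) (bb (aa (bb (rr (aa (bb (rr s1 (s3 313) ) (rr s1 (s3 313) ) ) (bb (rr s1 (s3 315) ) (rr (aa s1 s1 ) (s3 315) ) ) ) (aa (bb (rr (s3 322) (s3 332) ) (rr (s3 321) (s3 331) ) ) (bb (rr (s3 324) (s3 334) ) (rr (s3 323) (s3 333) ) ) ) ) (rr (aa (bb (rr (aa s1 s1 ) (aa s1 s1 ) ) (rr (aa s1 s1 ) (aa (s3 310) (bb s1 s1 ) ) ) ) (bb (rr (aa s1 s1 ) (aa s1 s1 ) ) (rr (aa s1 s1 ) (aa (bb s1 s1 ) (bb s1 s1 ) ) ) ) ) (aa (bb (rr (s3 320) (s3 329) ) (rr (aa (s3 318) (s3 319) ) (s3 328) ) ) (bb (rr (s3 322) (s3 332) ) (rr (aa (s3 321) (s3 322) ) (s3 330) ) ) ) ) ) (bb (rr (aa (bb (rr s1 (s3 318) ) (rr s1 (s3 317) ) ) (bb (rr s1 s1 ) (rr s1 (s3 321) ) ) ) (aa (bb (rr (s3 327) (s3 337) ) (rr (s3 326) (s3 336) ) ) (bb (rr (s3 330) (s3 340) ) (rr (s3 330) (s3 340) ) ) ) ) (rr (aa (bb (rr (aa s1 s1 ) (aa s1 s1 ) ) (rr (aa s1 s1 ) (aa (bb s1 s1 ) s1 ) ) ) (bb (rr (aa s1 s1 ) (aa s1 s1 ) ) (rr (aa s1 s1 ) (aa s1 s1 ) ) ) ) (aa (bb (rr (s3 325) (s3 335) ) (rr (aa (s3 323) (s3 325) ) (rr (s3 333) (s3 338) ) ) ) (bb (rr (s3 328) (s3 338) ) (rr (aa (s3 327) (s3 328) ) (rr (s3 336) (s3 341) ) ) ) ) ) ) ) (aa (bb (rr (aa (bb (rr (aa (bb s1 s1 ) (bb s1 s1 ) ) (aa (bb (s3 310) (s3 309) ) (bb (s3 311) (s3 310) ) ) ) (rr (aa (bb (rr s1 s1 ) (rr s1 (s3 304) ) ) (bb (rr s1 s1 ) (rr s1 (s3 305) ) ) ) (aa (bb (rr (s3 308) (s3 312) ) (rr (s3 307) (s3 311) ) ) (bb (rr (s3 309) (s3 313) ) (rr (s3 308) (s3 312) ) ) ) ) ) (bb (rr (aa (bb s1 s1 ) (bb s1 s1 ) ) (aa (bb (s3 312) (s3 311) ) (bb (s3 313) (s3 312) ) ) ) (rr (aa (bb (rr s1 s1 ) (rr s1 (s3 306) ) ) (bb (rr s1 s1 ) (rr s1 (s3 307) ) ) ) (aa (bb (rr (s3 310) (s3 314) ) (rr (s3 309) (s3 313) ) ) (bb (rr (s3 311) (s3 315) ) (rr (s3 310) (s3 314) ) ) ) ) ) ) (aa (bb (rr (aa (bb (s3 317) (s3 316) ) (bb (s3 318) (s3 317) ) ) (rr (s3 325) (s3 330) ) ) (rr (aa (bb (s3 315) (rr (s3 314) (s3 319) ) ) (bb (s3 316) (rr (s3 315) (s3 320) ) ) ) (rr (aa (s3 323) (s3 324) ) (aa (s3 327) (s3 328) ) ) ) ) (bb (rr (aa (bb (s3 320) (s3 319) ) (bb (s3 321) (s3 320) ) ) (rr (s3 328) (s3 333) ) ) (rr (aa (bb (s3 317) (rr (s3 317) (s3 321) ) ) (bb (s3 319) (rr (s3 318) (s3 322) ) ) ) (rr (aa (s3 325) (s3 326) ) (aa (s3 330) (s3 331) ) ) ) ) ) ) (rr (aa (bb (rr (aa (bb (rr (aa s1 s1 ) (s3 303) ) (rr (aa s1 s1 ) (aa (s3 302) (s3 302) ) ) ) (bb (rr (aa s1 s1 ) (s3 304) ) (rr (aa s1 s1 ) (aa (s3 302) (s3 303) ) ) ) ) (aa (bb (rr (s3 306) (s3 309) ) (rr (aa (s3 305) (s3 305) ) (s3 308) ) ) (bb (rr (s3 307) (s3 310) ) (rr (aa (s3 306) (s3 306) ) (s3 309) ) ) ) ) (rr (aa (bb (rr (aa (bb s1 s1 ) (bb s1 s1 ) ) (aa (bb s1 (s3 300) ) (bb (s3 301) (s3 301) ) ) ) (rr (aa (bb (s3 297) (s3 296) ) (bb (s3 297) (s3 297) ) ) (aa (bb (s3 300) (s3 299) ) (bb (s3 300) (s3 300) ) ) ) ) (bb (rr (aa (bb s1 s1 ) (bb s1 (s3 299) ) ) (aa (bb (s3 302) (s3 301) ) (bb (s3 302) (s3 302) ) ) ) (rr (aa (bb (s3 298) (s3 297) ) (bb (s3 298) (s3 298) ) ) (aa (bb (s3 301) (s3 300) ) (bb (s3 301) (s3 301) ) ) ) ) ) (aa (bb (rr (aa (s3 304) (s3 304) ) (aa (s3 307) (s3 307) ) ) (rr (aa (bb (s3 303) (s3 302) ) (bb (s3 303) (s3 303) ) ) (aa (bb (s3 306) (s3 305) ) (bb (s3 307) (s3 306) ) ) ) ) (bb (rr (aa (s3 304) (s3 305) ) (aa (s3 308) (s3 308) ) ) (rr (aa (bb (s3 304) (s3 303) ) (bb (s3 304) (s3 304) ) ) (aa (bb (s3 307) (s3 306) ) (bb (s3 308) (s3 307) ) ) ) ) ) ) ) (bb (rr (aa (bb (rr (aa s1 s1 ) (aa s1 s1 ) ) (rr (aa s1 s1 ) (aa (s3 304) (s3 304) ) ) ) (bb (rr (aa s1 s1 ) (aa s1 s1 ) ) (rr (aa s1 s1 ) (aa (s3 305) (s3 305) ) ) ) ) (aa (bb (rr (s3 308) (s3 311) ) (rr (aa (s3 307) (s3 307) ) (s3 310) ) ) (bb (rr (s3 309) (s3 313) ) (rr (aa (s3 308) (s3 309) ) (s3 311) ) ) ) ) (rr (aa (bb (rr (aa (bb s1 (s3 299) ) (bb s1 (s3 300) ) ) (aa (bb (s3 303) (s3 302) ) (bb (s3 304) (s3 303) ) ) ) (rr (aa (bb (s3 299) (s3 298) ) (bb (s3 299) (s3 299) ) ) (aa (bb (s3 302) (s3 301) ) (bb (s3 302) (s3 302) ) ) ) ) (bb (rr (aa (bb s1 (s3 301) ) (bb s1 (s3 301) ) ) (aa (bb (s3 304) (s3 304) ) (bb (s3 305) (s3 304) ) ) ) (rr (aa (bb (s3 300) (s3 299) ) (bb (s3 301) (s3 300) ) ) (aa (bb (s3 303) (s3 302) ) (bb (s3 304) (s3 303) ) ) ) ) ) (aa (bb (rr (aa (bb (s3 306) (s3 306) ) (bb (s3 307) (s3 306) ) ) (aa (s3 309) (s3 309) ) ) (rr (aa (bb (s3 305) (s3 304) ) (bb (s3 305) (s3 305) ) ) (aa (bb (s3 308) (s3 307) ) (bb (s3 309) (s3 308) ) ) ) ) (bb (rr (aa (bb (s3 307) (s3 307) ) (bb (s3 308) (s3 307) ) ) (aa (s3 310) (s3 311) ) ) (rr (aa (bb (s3 306) (s3 305) ) (bb (s3 307) (s3 306) ) ) (aa (bb (s3 309) (s3 309) ) (bb (s3 310) (s3 309) ) ) ) ) ) ) ) ) (aa (bb (rr (aa (bb (rr (s3 313) (s3 317) ) (rr (s3 312) (s3 316) ) ) (bb (rr (s3 314) (s3 318) ) (rr (s3 313) (s3 317) ) ) ) (rr (aa (bb (s3 321) (s3 320) ) (bb (s3 322) (s3 321) ) ) (aa (bb (s3 326) (s3 324) ) (bb (s3 327) (s3 325) ) ) ) ) (rr (aa (bb (rr (aa (s3 310) (s3 311) ) (s3 314) ) (rr (aa (s3 309) (s3 309) ) (aa (s3 312) (s3 313) ) ) ) (bb (rr (aa (s3 311) (s3 312) ) (s3 315) ) (rr (aa (bb (s3 310) (s3 310) ) (bb (s3 311) (s3 310) ) ) (aa (s3 313) (s3 314) ) ) ) ) (rr (aa (bb (s3 318) (aa (s3 316) (s3 316) ) ) (bb (s3 319) (aa (s3 317) (s3 317) ) ) ) (aa (bb (s3 322) (s3 320) ) (bb (s3 323) (s3 321) ) ) ) ) ) (bb (rr (aa (bb (rr (s3 315) (s3 319) ) (rr (s3 314) (s3 318) ) ) (bb (rr (s3 316) (s3 320) ) (rr (s3 315) (s3 319) ) ) ) (rr (aa (bb (s3 323) (s3 322) ) (bb (s3 325) (s3 323) ) ) (aa (bb (s3 328) (s3 326) ) (bb (s3 329) (s3 327) ) ) ) ) (rr (aa (bb (rr (aa (s3 312) (s3 313) ) (s3 316) ) (rr (aa (bb (s3 312) (s3 311) ) (bb (s3 312) (s3 311) ) ) (aa (s3 314) (s3 315) ) ) ) (bb (rr (aa (s3 314) (s3 314) ) (s3 317) ) (rr (aa (bb (s3 313) (s3 312) ) (bb (s3 313) (s3 313) ) ) (aa (s3 315) (s3 316) ) ) ) ) (rr (aa (bb (s3 320) (aa (s3 318) (s3 319) ) ) (bb (s3 321) (aa (s3 319) (s3 320) ) ) ) (aa (bb (s3 324) (rr (s3 322) (s3 324) ) ) (bb (s3 325) (rr (s3 324) (s3 326) ) ) ) ) ) ) ) ) ) (bb (rr (aa (bb (rr (aa (bb s1 s1 ) (bb s1 s1 ) ) (aa (bb (s3 314) (s3 313) ) (bb s1 (s3 315) ) ) ) (rr (aa (bb (rr s1 s1 ) (rr s1 (s3 308) ) ) (bb (rr s1 s1 ) (rr s1 (s3 310) ) ) ) (aa (bb (rr (s3 313) (s3 316) ) (rr (s3 312) (s3 315) ) ) (bb (rr s1 (s3 318) ) (rr (s3 313) (s3 317) ) ) ) ) ) (bb (rr (aa s1 s1 ) (aa (bb s1 (s3 316) ) (bb s1 s1 ) ) ) (rr (aa (bb s1 (rr s1 s1 ) ) (bb s1 (rr s1 s1 ) ) ) (aa (bb (rr s1 (s3 320) ) (rr (s3 315) (s3 318) ) ) (bb (rr s1 s1 ) (rr (s3 316) (s3 320) ) ) ) ) ) ) (aa (bb (rr (aa (bb (s3 322) (s3 321) ) (bb (s3 324) (s3 323) ) ) (rr (s3 330) (s3 335) ) ) (rr (aa (bb (s3 320) (rr (s3 319) (s3 323) ) ) (bb (s3 322) (rr (s3 321) (s3 325) ) ) ) (rr (aa (s3 328) (s3 329) ) (aa (s3 332) (s3 334) ) ) ) ) (bb (rr (aa (bb (s3 326) (s3 324) ) (bb (s3 327) (s3 326) ) ) (rr (s3 334) (s3 339) ) ) (rr (aa (bb (s3 323) (rr (s3 322) (s3 326) ) ) (bb (s3 325) (rr (s3 324) (s3 328) ) ) ) (rr (aa (s3 331) (s3 333) ) (aa (s3 336) (s3 337) ) ) ) ) ) ) (rr (aa (bb (rr (aa (bb (rr (aa s1 s1 ) (aa s1 s1 ) ) (rr (aa s1 s1 ) (aa (s3 306) (s3 307) ) ) ) (bb (rr (aa s1 s1 ) (aa s1 s1 ) ) (rr (aa s1 s1 ) (aa (bb s1 s1 ) (bb s1 s1 ) ) ) ) ) (aa (bb (rr (s3 310) (s3 314) ) (rr (aa (s3 309) (s3 310) ) (aa (s3 313) (s3 313) ) ) ) (bb (rr (s3 312) (s3 315) ) (rr (aa (s3 311) (s3 311) ) (aa (s3 314) (s3 315) ) ) ) ) ) (rr (aa (bb (rr (aa (bb s1 (s3 302) ) (bb s1 s1 ) ) (aa (bb (s3 305) (s3 305) ) (bb (s3 306) (s3 305) ) ) ) (rr (aa (bb (s3 301) (rr (s3 301) (s3 302) ) ) (bb (s3 302) (rr (s3 302) (s3 303) ) ) ) (aa (bb (s3 304) (s3 304) ) (bb (s3 305) (s3 304) ) ) ) ) (bb (rr (aa (bb s1 s1 ) (bb s1 s1 ) ) (aa (bb s1 (s3 306) ) (bb s1 (s3 307) ) ) ) (rr (aa (bb (s3 303) (rr (s3 302) (s3 304) ) ) (bb (s3 303) (rr (s3 303) (s3 304) ) ) ) (aa (bb (s3 306) (s3 305) ) (bb (s3 306) (s3 306) ) ) ) ) ) (aa (bb (rr (aa (bb (s3 309) (s3 308) ) (bb (s3 309) (s3 309) ) ) (aa (s3 311) (s3 312) ) ) (rr (aa (bb (s3 307) (s3 307) ) (bb (s3 308) (s3 307) ) ) (aa (bb (s3 311) (s3 310) ) (bb (s3 311) (s3 310) ) ) ) ) (bb (rr (aa (bb (s3 310) (s3 309) ) (bb (s3 311) (s3 310) ) ) (aa (s3 313) (s3 313) ) ) (rr (aa (bb (s3 309) (s3 308) ) (bb (s3 309) (s3 309) ) ) (aa (bb (s3 312) (s3 311) ) (bb (s3 313) (s3 312) ) ) ) ) ) ) ) (bb (rr (aa (bb (rr (aa s1 s1 ) (aa s1 s1 ) ) (rr (aa s1 s1 ) (aa s1 s1 ) ) ) (bb (rr s1 (aa s1 s1 ) ) (rr (aa s1 s1 ) (aa s1 s1 ) ) ) ) (aa (bb (rr (aa s1 s1 ) (s3 317) ) (rr (aa (s3 312) (s3 313) ) (aa (s3 316) (s3 317) ) ) ) (bb (rr (aa s1 s1 ) (s3 319) ) (rr (aa (s3 314) (s3 315) ) (aa (s3 317) (s3 318) ) ) ) ) ) (rr (aa (bb (rr (aa (bb s1 s1 ) (bb s1 s1 ) ) (aa (bb s1 (s3 308) ) (bb s1 (s3 309) ) ) ) (rr (aa (bb (rr s1 s1 ) (rr (s3 304) (s3 305) ) ) (bb (rr s1 s1 ) (rr s1 (s3 306) ) ) ) (aa (bb (s3 307) (s3 306) ) (bb (s3 308) (rr (s3 308) (s3 309) ) ) ) ) ) (bb (rr (aa (bb s1 s1 ) s1 ) (aa (bb s1 s1 ) (bb s1 s1 ) ) ) (rr (aa (bb s1 (rr s1 (s3 307) ) ) (bb s1 (rr s1 s1 ) ) ) (aa (bb (s3 309) (rr (s3 308) (s3 310) ) ) (bb (s3 310) (rr (s3 309) (s3 311) ) ) ) ) ) ) (aa (bb (rr (aa (bb (s3 312) (s3 311) ) (bb (s3 312) (s3 312) ) ) (aa (bb (s3 315) (s3 314) ) (bb (s3 316) (s3 315) ) ) ) (rr (aa (bb (s3 310) (s3 309) ) (bb (s3 311) (s3 310) ) ) (aa (bb (s3 314) (s3 313) ) (bb (s3 314) (s3 314) ) ) ) ) (bb (rr (aa (bb (s3 313) (s3 313) ) (bb s1 (s3 313) ) ) (aa (bb (s3 317) (s3 316) ) (bb (s3 318) (s3 317) ) ) ) (rr (aa (bb (s3 312) (s3 311) ) (bb (s3 313) (s3 312) ) ) (aa (bb (s3 315) (s3 314) ) (bb (s3 316) (s3 315) ) ) ) ) ) ) ) ) (aa (bb (rr (aa (bb (rr (s3 318) (s3 322) ) (rr (s3 316) (s3 320) ) ) (bb (rr (s3 319) (s3 323) ) (rr (s3 318) (s3 322) ) ) ) (rr (aa (bb (s3 326) (s3 324) ) (bb (s3 328) (s3 326) ) ) (aa (bb (s3 331) (s3 329) ) (bb (s3 332) (s3 330) ) ) ) ) (rr (aa (bb (rr (aa (s3 315) (s3 316) ) (aa (s3 319) (s3 319) ) ) (rr (aa (bb (s3 314) (s3 313) ) (bb (s3 315) (s3 314) ) ) (aa (s3 317) (s3 317) ) ) ) (bb (rr (aa (s3 316) (s3 317) ) (aa (s3 320) (s3 321) ) ) (rr (aa (bb (s3 315) (s3 315) ) (bb (s3 316) (s3 315) ) ) (aa (s3 318) (bb (s3 320) (s3 319) ) ) ) ) ) (rr (aa (bb (s3 322) (aa (s3 321) (s3 321) ) ) (bb (s3 324) (aa (s3 322) (s3 323) ) ) ) (aa (bb (s3 327) (rr (s3 325) (s3 327) ) ) (bb (s3 328) (rr (s3 326) (s3 329) ) ) ) ) ) ) (bb (rr (aa (bb (rr (s3 321) (s3 325) ) (rr (s3 319) (s3 323) ) ) (bb (rr (s3 323) (s3 327) ) (rr (aa (s3 321) (s3 322) ) (s3 325) ) ) ) (rr (aa (bb (s3 329) (s3 327) ) (bb (s3 331) (s3 329) ) ) (aa (bb (s3 334) (s3 332) ) (bb (s3 336) (s3 334) ) ) ) ) (rr (aa (bb (rr (aa (s3 318) (s3 319) ) (aa (s3 322) (s3 322) ) ) (rr (aa (bb (s3 317) (s3 316) ) (bb (s3 318) (s3 317) ) ) (aa (bb (s3 321) (s3 320) ) (bb (s3 322) (s3 321) ) ) ) ) (bb (rr (aa (s3 320) (s3 320) ) (aa (s3 323) (s3 324) ) ) (rr (aa (bb (s3 319) (s3 318) ) (bb (s3 320) (s3 319) ) ) (aa (bb (s3 322) (s3 321) ) (bb (s3 323) (s3 322) ) ) ) ) ) (rr (aa (bb (s3 325) (aa (s3 324) (s3 324) ) ) (bb (s3 327) (aa (s3 325) (s3 326) ) ) ) (aa (bb (s3 330) (rr (s3 328) (s3 330) ) ) (bb (s3 331) (rr (s3 330) (s3 332) ) ) ) ) ) ) ) ) ) ) ) ) (aa (bb (rr (aa (bb (rr (s3 338) (s3 350) ) (rr (aa (bb (s3 336) (s3 334) ) (bb (s3 336) (s3 334) ) ) (aa (s3 345) (s3 346) ) ) ) (bb (rr (s3 339) (s3 351) ) (rr (aa (bb (s3 337) (s3 335) ) (bb (s3 338) (s3 336) ) ) (aa (s3 346) (bb (s3 350) (s3 348) ) ) ) ) ) (aa (bb (rr (s3 364) (s3 381) ) (rr (aa (s3 359) (s3 359) ) (aa (s3 374) (s3 374) ) ) ) (bb (rr (s3 365) (s3 382) ) (rr (aa (s3 360) (s3 361) ) (aa (s3 375) (s3 376) ) ) ) ) ) (rr (aa (bb (rr (aa (bb (rr (s3 331) (s3 337) ) (rr (s3 328) (s3 333) ) ) (bb (rr (s3 332) (s3 337) ) (rr (s3 328) (s3 334) ) ) ) (aa (bb (s3 342) (rr (s3 339) (s3 344) ) ) (bb (s3 342) (rr (s3 339) (s3 345) ) ) ) ) (rr (aa (bb (rr (aa (bb (s3 327) (s3 325) ) (bb (s3 327) (s3 325) ) ) (aa (s3 329) (s3 329) ) ) (rr (aa (bb (s3 323) (s3 320) ) (bb (s3 323) (s3 320) ) ) (aa (bb (s3 327) (s3 325) ) (bb (s3 327) (s3 325) ) ) ) ) (bb (rr (aa (bb (s3 327) (s3 325) ) (bb (s3 327) (s3 325) ) ) (aa (bb (s3 332) (s3 330) ) (bb (s3 332) (s3 330) ) ) ) (rr (aa (bb (s3 323) (s3 321) ) (bb (s3 323) (s3 321) ) ) (aa (bb (s3 327) (s3 325) ) (bb (s3 328) (s3 325) ) ) ) ) ) (aa (bb (rr (aa (s3 334) (s3 334) ) (aa (s3 340) (s3 340) ) ) (rr (aa (bb (s3 332) (s3 329) ) (bb (s3 332) (s3 329) ) ) (aa (bb (s3 337) (s3 334) ) (bb (s3 337) (s3 334) ) ) ) ) (bb (rr (aa (s3 335) (s3 335) ) (aa (s3 340) (s3 340) ) ) (rr (aa (bb (s3 332) (s3 330) ) (bb (s3 332) (s3 330) ) ) (aa (bb (s3 337) (s3 334) ) (bb (s3 338) (s3 335) ) ) ) ) ) ) ) (bb (rr (aa (bb (rr (s3 332) (s3 338) ) (rr (s3 329) (s3 334) ) ) (bb (rr (s3 334) (s3 339) ) (rr (aa (s3 330) (s3 331) ) (s3 335) ) ) ) (aa (bb (s3 343) (rr (s3 340) (s3 345) ) ) (bb (s3 344) (rr (s3 341) (s3 347) ) ) ) ) (rr (aa (bb (rr (aa (bb (s3 327) (s3 326) ) (bb (s3 328) (s3 326) ) ) (aa (bb (s3 332) (s3 330) ) (bb (s3 333) (s3 331) ) ) ) (rr (aa (bb (s3 323) (s3 321) ) (bb (s3 324) (s3 322) ) ) (aa (bb (s3 328) (s3 326) ) (bb (s3 329) (s3 326) ) ) ) ) (bb (rr (aa (bb (s3 329) (s3 327) ) (bb (s3 329) (s3 327) ) ) (aa (bb (s3 334) (s3 331) ) (bb (s3 334) (s3 332) ) ) ) (rr (aa (bb (s3 325) (s3 322) ) (bb (s3 325) (s3 323) ) ) (aa (bb (s3 329) (s3 327) ) (bb (s3 330) (s3 328) ) ) ) ) ) (aa (bb (rr (aa (s3 335) (s3 336) ) (aa (s3 341) (s3 341) ) ) (rr (aa (bb (s3 333) (s3 330) ) (bb (s3 333) (s3 331) ) ) (aa (bb (s3 338) (s3 335) ) (bb (s3 339) (s3 336) ) ) ) ) (bb (rr (aa (s3 337) (s3 337) ) (aa (s3 342) (s3 343) ) ) (rr (aa (bb (s3 334) (s3 331) ) (bb (s3 335) (s3 332) ) ) (aa (bb (s3 339) (s3 336) ) (bb (s3 340) (s3 337) ) ) ) ) ) ) ) ) (aa (bb (rr (aa (bb (s3 355) (rr (s3 351) (s3 357) ) ) (bb (s3 355) (rr (s3 351) (s3 357) ) ) ) (aa (bb (s3 369) (rr (s3 364) (s3 371) ) ) (bb (s3 369) (rr (s3 364) (s3 372) ) ) ) ) (rr (aa (bb (rr (aa (s3 345) (s3 345) ) (s3 351) ) (rr (aa (bb (s3 342) (s3 339) ) (bb (s3 342) (s3 339) ) ) (aa (bb (s3 348) (s3 345) ) (bb (s3 348) (s3 345) ) ) ) ) (bb (rr (aa (s3 346) (s3 346) ) (aa (s3 352) (s3 352) ) ) (rr (aa (bb (s3 343) (s3 340) ) (bb (s3 343) (s3 340) ) ) (aa (bb (s3 348) (s3 345) ) (bb (s3 349) (s3 345) ) ) ) ) ) (aa (bb (rr (s3 358) (s3 364) ) (rr (aa (bb (s3 354) (s3 351) ) (bb (s3 354) (s3 351) ) ) (aa (bb (s3 361) (s3 357) ) (bb (s3 361) (s3 357) ) ) ) ) (bb (rr (s3 358) (s3 365) ) (rr (aa (bb (s3 354) (s3 351) ) (bb (s3 355) (s3 351) ) ) (aa (bb (s3 361) (s3 357) ) (bb (s3 361) (s3 357) ) ) ) ) ) ) ) (bb (rr (aa (bb (s3 356) (rr (s3 352) (s3 358) ) ) (bb (s3 357) (rr (s3 353) (s3 359) ) ) ) (aa (bb (s3 370) (rr (s3 365) (s3 373) ) ) (bb (s3 371) (rr (s3 366) (s3 374) ) ) ) ) (rr (aa (bb (rr (aa (s3 346) (s3 347) ) (aa (s3 352) (s3 353) ) ) (rr (aa (bb (s3 343) (s3 340) ) (bb (s3 344) (s3 341) ) ) (aa (bb (s3 349) (s3 346) ) (bb (s3 350) (s3 346) ) ) ) ) (bb (rr (aa (s3 348) (s3 348) ) (aa (s3 354) (s3 354) ) ) (rr (aa (bb (s3 345) (s3 341) ) (bb (s3 345) (s3 342) ) ) (aa (bb (s3 350) (s3 347) ) (bb (s3 351) (s3 348) ) ) ) ) ) (aa (bb (rr (s3 358) (s3 365) ) (rr (aa (bb (s3 355) (s3 352) ) (bb (s3 356) (s3 352) ) ) (aa (bb (s3 362) (s3 358) ) (bb (s3 362) (s3 358) ) ) ) ) (bb (rr (s3 360) (s3 367) ) (rr (aa (bb (s3 356) (s3 353) ) (bb (s3 357) (s3 353) ) ) (aa (bb (s3 363) (s3 359) ) (bb (s3 364) (s3 360) ) ) ) ) ) ) ) ) ) ) (bb (rr (aa (bb (rr (s3 342) (s3 354) ) (rr (aa (bb (s3 340) (s3 338) ) (bb (s3 343) (s3 340) ) ) (aa (bb (s3 352) (s3 350) ) (s3 352) ) ) ) (bb (rr (aa (s3 347) (s3 351) ) (s3 360) ) (rr (aa (bb (s3 346) (s3 343) ) (bb (s3 349) (s3 347) ) ) (aa (s3 355) (s3 359) ) ) ) ) (aa (bb (rr (s3 369) (s3 386) ) (rr (aa (s3 363) (s3 366) ) (aa (s3 378) (s3 381) ) ) ) (bb (rr (s3 375) (s3 392) ) (rr (aa (s3 369) (s3 373) ) (aa (s3 384) (s3 388) ) ) ) ) ) (rr (aa (bb (rr (aa (bb (rr (s3 335) (s3 341) ) (rr (aa (s3 332) (s3 333) ) (s3 337) ) ) (bb (rr (s3 338) (s3 343) ) (rr (aa (s3 334) (s3 336) ) (s3 339) ) ) ) (aa (bb (s3 346) (rr (s3 343) (s3 348) ) ) (bb (s3 348) (rr (s3 345) (s3 351) ) ) ) ) (rr (aa (bb (rr (aa (bb (s3 330) (s3 328) ) (bb (s3 331) (s3 329) ) ) (aa (bb (s3 335) (s3 333) ) (bb (s3 336) (s3 334) ) ) ) (rr (aa (bb (s3 326) (s3 324) ) (bb (s3 327) (s3 325) ) ) (aa (bb (s3 331) (s3 328) ) (bb (s3 332) (s3 329) ) ) ) ) (bb (rr (aa (bb (s3 333) (s3 331) ) (bb (s3 334) (s3 332) ) ) (aa (bb (s3 338) (s3 335) ) (bb (s3 339) (s3 337) ) ) ) (rr (aa (bb (s3 328) (s3 326) ) (bb (s3 330) (s3 327) ) ) (aa (bb (s3 333) (s3 330) ) (bb (s3 334) (s3 332) ) ) ) ) ) (aa (bb (rr (aa (s3 338) (s3 339) ) (aa (s3 344) (s3 345) ) ) (rr (aa (bb (s3 336) (s3 333) ) (bb (s3 337) (s3 334) ) ) (aa (bb (s3 341) (s3 338) ) (bb (s3 342) (s3 339) ) ) ) ) (bb (rr (aa (s3 340) (s3 342) ) (aa (s3 346) (s3 347) ) ) (rr (aa (bb (s3 338) (s3 335) ) (bb (s3 339) (s3 336) ) ) (aa (bb (s3 343) (s3 340) ) (bb (s3 344) (s3 341) ) ) ) ) ) ) ) (bb (rr (aa (bb (rr (s3 341) (s3 346) ) (rr (aa (s3 337) (s3 339) ) (s3 342) ) ) (bb (rr (s3 344) (s3 350) ) (rr (aa (s3 341) (s3 342) ) (aa (s3 346) (s3 348) ) ) ) ) (aa (bb (s3 351) (rr (s3 348) (s3 354) ) ) (bb (s3 355) (rr (s3 351) (s3 357) ) ) ) ) (rr (aa (bb (rr (aa (bb (s3 335) (s3 333) ) (bb (s3 337) (s3 335) ) ) (aa (bb (s3 340) (s3 338) ) (bb (s3 342) (s3 340) ) ) ) (rr (aa (bb (s3 331) (s3 329) ) (bb (s3 332) (s3 330) ) ) (aa (bb (s3 336) (s3 333) ) (bb (s3 337) (s3 335) ) ) ) ) (bb (rr (aa (bb (s3 339) (s3 336) ) (bb (s3 340) (s3 338) ) ) (aa (bb (s3 344) (s3 341) ) (bb (s3 346) (s3 343) ) ) ) (rr (aa (bb (s3 334) (s3 332) ) (bb (s3 336) (rr (s3 334) (s3 336) ) ) ) (aa (bb (s3 339) (s3 336) ) (bb (s3 341) (s3 338) ) ) ) ) ) (aa (bb (rr (aa (s3 343) (s3 345) ) (aa (s3 349) (s3 350) ) ) (rr (aa (bb (s3 341) (s3 338) ) (bb (s3 342) (s3 339) ) ) (aa (bb (s3 346) (s3 343) ) (bb (s3 347) (s3 344) ) ) ) ) (bb (rr (aa (s3 346) (s3 348) ) (aa (s3 352) (s3 354) ) ) (rr (aa (bb (s3 344) (s3 341) ) (bb (s3 346) (s3 343) ) ) (aa (bb (s3 349) (s3 346) ) (bb (s3 351) (s3 348) ) ) ) ) ) ) ) ) (aa (bb (rr (aa (bb (s3 359) (rr (s3 355) (s3 361) ) ) (bb (s3 361) (rr (s3 357) (s3 364) ) ) ) (aa (bb (s3 373) (rr (s3 368) (s3 376) ) ) (bb (s3 376) (rr (s3 371) (s3 378) ) ) ) ) (rr (aa (bb (rr (aa (s3 349) (s3 350) ) (aa (s3 355) (s3 356) ) ) (rr (aa (bb (s3 346) (s3 343) ) (bb (s3 347) (s3 344) ) ) (aa (bb (s3 352) (s3 349) ) (bb (s3 353) (s3 350) ) ) ) ) (bb (rr (aa (s3 352) (s3 353) ) (aa (s3 358) (s3 359) ) ) (rr (aa (bb (s3 349) (s3 345) ) (bb (s3 350) (s3 347) ) ) (aa (bb (s3 354) (s3 351) ) (bb (s3 356) (s3 352) ) ) ) ) ) (aa (bb (rr (aa (s3 362) (s3 363) ) (s3 368) ) (rr (aa (bb (s3 358) (s3 354) ) (bb (s3 359) (s3 355) ) ) (aa (bb (s3 365) (s3 361) ) (bb (s3 366) (s3 362) ) ) ) ) (bb (rr (aa (s3 364) (s3 366) ) (s3 371) ) (rr (aa (bb (s3 361) (s3 357) ) (bb (s3 362) (s3 358) ) ) (aa (bb (s3 367) (s3 363) ) (bb (s3 368) (s3 364) ) ) ) ) ) ) ) (bb (rr (aa (bb (s3 364) (rr (s3 360) (s3 367) ) ) (bb (s3 368) (rr (s3 364) (s3 370) ) ) ) (aa (bb (s3 379) (rr (s3 374) (s3 381) ) ) (bb (s3 383) (s3 376) ) ) ) (rr (aa (bb (rr (aa (s3 354) (s3 356) ) (aa (s3 361) (s3 362) ) ) (rr (aa (bb (s3 351) (s3 348) ) (bb (s3 353) (s3 349) ) ) (aa (bb (s3 357) (s3 353) ) (bb (s3 359) (s3 355) ) ) ) ) (bb (rr (aa (s3 358) (s3 360) ) (aa (s3 364) (s3 366) ) ) (rr (aa (bb (s3 355) (s3 351) ) (bb (s3 356) (s3 353) ) ) (aa (bb (s3 360) (s3 357) ) (bb (s3 362) (s3 359) ) ) ) ) ) (aa (bb (rr (aa (s3 367) (s3 369) ) (s3 374) ) (rr (aa (bb (s3 363) (s3 359) ) (bb (s3 365) (s3 361) ) ) (aa (bb (s3 370) (s3 366) ) (bb (s3 372) (s3 367) ) ) ) ) (bb (rr (aa (s3 371) (s3 373) ) (s3 377) ) (rr (aa (bb (s3 367) (s3 363) ) (bb (s3 369) (s3 365) ) ) (aa (bb (s3 373) (s3 369) ) (bb (s3 375) (s3 371) ) ) ) ) ) ) ) ) ) ) ) ) (rr (aa (bb (aa (bb (rr (aa (bb (rr s1 s1 ) (rr s1 s1 ) ) (bb s1 (rr s1 s1 ) ) ) (aa (bb (rr (s3 334) (s3 345) ) (rr (s3 334) (s3 344) ) ) (bb (rr s1 (s3 349) ) (rr (s3 338) (s3 349) ) ) ) ) (rr (aa (bb (rr s1 (aa s1 s1 ) ) (rr (aa s1 s1 ) (aa s1 s1 ) ) ) (bb (rr s1 s1 ) (rr s1 (aa s1 s1 ) ) ) ) (aa (bb (rr (s3 332) (s3 342) ) (rr (aa (s3 330) s1 ) (rr (s3 340) (s3 346) ) ) ) (bb (rr (aa s1 s1 ) (s3 347) ) (rr (aa s1 s1 ) (rr (s3 345) (s3 350) ) ) ) ) ) ) (bb (rr (aa s1 s1 ) (aa (bb (rr s1 s1 ) (rr s1 (s3 354) ) ) (bb s1 (rr s1 s1 ) ) ) ) (rr (aa (bb s1 (rr s1 s1 ) ) (bb s1 s1 ) ) (aa (bb (rr s1 (s3 352) ) (rr (aa s1 s1 ) (rr (s3 350) (s3 356) ) ) ) (bb (rr s1 s1 ) (rr s1 (rr s1 s1 ) ) ) ) ) ) ) (aa (bb (rr (aa (bb (rr (aa s1 s1 ) (aa (bb s1 s1 ) s1 ) ) (rr (aa (bb s1 s1 ) (bb s1 s1 ) ) (aa (bb (rr s1 s1 ) (rr s1 (s3 322) ) ) (bb s1 (rr s1 s1 ) ) ) ) ) (bb (rr (aa s1 s1 ) (aa s1 s1 ) ) (rr (aa s1 s1 ) (aa (bb s1 (rr s1 s1 ) ) (bb s1 s1 ) ) ) ) ) (aa (bb (rr (aa (bb (s3 329) (s3 328) ) (bb s1 (s3 330) ) ) (rr (aa (s3 338) (s3 340) ) (s3 343) ) ) (rr (aa (bb (s3 327) (rr (s3 326) (s3 330) ) ) (bb (s3 329) (rr (s3 328) (s3 332) ) ) ) (rr (aa (s3 335) (s3 337) ) (aa (s3 339) (s3 342) ) ) ) ) (bb (rr (aa (bb s1 s1 ) s1 ) (rr (aa (s3 342) s1 ) (s3 347) ) ) (rr (aa (bb (s3 331) (rr s1 (s3 335) ) ) (bb s1 (rr s1 s1 ) ) ) (rr (aa (s3 339) (bb s1 (s3 342) ) ) (aa (s3 344) (s3 346) ) ) ) ) ) ) (rr (aa (bb (rr (aa (bb (rr s1 (aa s1 s1 ) ) (rr (aa s1 s1 ) (aa s1 s1 ) ) ) (bb (rr s1 s1 ) (rr (aa s1 s1 ) (aa s1 s1 ) ) ) ) (aa (bb (rr (aa s1 s1 ) (s3 321) ) (rr (aa s1 s1 ) (aa (s3 319) (s3 320) ) ) ) (bb (rr (aa s1 s1 ) (aa s1 s1 ) ) (rr (aa s1 s1 ) (aa (s3 321) s1 ) ) ) ) ) (rr (aa (bb (rr (aa s1 s1 ) (aa (bb s1 s1 ) (bb s1 s1 ) ) ) (rr (aa (bb s1 (rr s1 s1 ) ) (bb s1 s1 ) ) (aa (bb (rr s1 s1 ) (rr s1 (s3 312) ) ) (bb s1 (rr s1 (s3 313) ) ) ) ) ) (bb (rr (aa s1 s1 ) (aa s1 s1 ) ) (rr (aa (bb s1 s1 ) (bb s1 s1 ) ) (aa (bb s1 (rr s1 s1 ) ) (bb s1 s1 ) ) ) ) ) (aa (bb (rr (aa (bb s1 (s3 314) ) (bb s1 s1 ) ) (aa (bb (s3 319) (s3 318) ) (bb (s3 320) (s3 319) ) ) ) (rr (aa (bb (s3 314) (s3 313) ) (bb (s3 315) (rr (s3 314) (s3 316) ) ) ) (aa (bb (s3 317) (s3 316) ) (bb (s3 318) (s3 317) ) ) ) ) (bb (rr (aa (bb s1 s1 ) (bb s1 s1 ) ) (aa (bb s1 (s3 320) ) (bb s1 (s3 321) ) ) ) (rr (aa (bb (s3 316) (rr (s3 315) (s3 317) ) ) (bb s1 (rr s1 (s3 318) ) ) ) (aa (bb (s3 319) (s3 318) ) (bb (s3 320) (s3 319) ) ) ) ) ) ) ) (bb (rr (aa (bb s1 (rr s1 (aa s1 s1 ) ) ) (bb s1 (rr s1 s1 ) ) ) (aa (bb (rr s1 (aa s1 s1 ) ) (rr (aa s1 s1 ) (aa s1 s1 ) ) ) (bb (rr s1 s1 ) (rr (aa s1 s1 ) (aa s1 s1 ) ) ) ) ) (rr (aa (bb (rr (aa s1 s1 ) (aa s1 s1 ) ) (rr (aa (bb s1 s1 ) s1 ) (aa (bb s1 s1 ) (bb s1 s1 ) ) ) ) (bb (rr (aa s1 s1 ) (aa s1 s1 ) ) (rr (aa s1 s1 ) (aa (bb s1 s1 ) s1 ) ) ) ) (aa (bb (rr (aa s1 s1 ) (aa (bb s1 s1 ) (bb s1 s1 ) ) ) (rr (aa (bb s1 (rr s1 s1 ) ) (bb s1 (rr s1 s1 ) ) ) (aa (bb (s3 321) (s3 320) ) (bb (s3 322) (s3 321) ) ) ) ) (bb (rr (aa s1 s1 ) (aa s1 s1 ) ) (rr (aa (bb s1 s1 ) (bb s1 s1 ) ) (aa (bb s1 (rr s1 s1 ) ) (bb s1 s1 ) ) ) ) ) ) ) ) (aa (bb (rr (aa (bb (rr (s3 325) (s3 329) ) (rr (aa (s3 323) (s3 324) ) (s3 327) ) ) (bb (rr (s3 327) (s3 331) ) (rr (aa (s3 325) (s3 326) ) (s3 329) ) ) ) (rr (aa (bb (s3 333) (s3 331) ) (bb (s3 335) (s3 333) ) ) (aa (bb (s3 338) (s3 336) ) (bb (s3 340) (s3 338) ) ) ) ) (rr (aa (bb (rr (aa (s3 321) (s3 322) ) (aa (s3 325) (s3 326) ) ) (rr (aa (bb (s3 321) (s3 320) ) (bb (s3 322) (s3 321) ) ) (aa (bb (s3 324) (s3 323) ) (bb (s3 325) (s3 324) ) ) ) ) (bb (rr (aa (bb (s3 324) (s3 323) ) (bb (s3 325) (s3 324) ) ) (aa (s3 327) (s3 328) ) ) (rr (aa (bb (s3 323) (s3 322) ) (bb (s3 324) (s3 323) ) ) (aa (bb (s3 326) (s3 325) ) (bb (s3 327) (s3 326) ) ) ) ) ) (rr (aa (bb (aa (s3 329) (s3 330) ) (aa (s3 327) (s3 328) ) ) (bb (aa (s3 331) (s3 332) ) (aa (bb (s3 330) (s3 329) ) (bb (s3 331) (s3 330) ) ) ) ) (aa (bb (s3 333) (rr (s3 332) (s3 334) ) ) (bb (s3 335) (rr (s3 334) (s3 336) ) ) ) ) ) ) (bb (rr (aa (bb (rr (s3 329) (s3 333) ) (rr (aa (s3 327) s1 ) (s3 331) ) ) (bb (rr (s3 331) (s3 335) ) (rr (aa s1 s1 ) (aa (s3 334) s1 ) ) ) ) (rr (aa (bb (s3 337) (s3 335) ) (bb (s3 340) (s3 338) ) ) (aa (bb (s3 342) (s3 340) ) (bb (s3 344) (s3 342) ) ) ) ) (rr (aa (bb (rr (aa (bb s1 (s3 326) ) (bb s1 (s3 327) ) ) (aa (s3 329) (s3 331) ) ) (rr (aa (bb (s3 325) (s3 324) ) (bb (s3 326) (s3 325) ) ) (aa (bb (s3 328) (s3 327) ) (bb (s3 330) (s3 328) ) ) ) ) (bb (rr (aa (bb s1 s1 ) (bb s1 s1 ) ) (aa (s3 332) (s3 333) ) ) (rr (aa (bb (s3 327) (s3 326) ) (bb (s3 328) (s3 327) ) ) (aa (bb (s3 331) (s3 330) ) (bb (s3 332) (s3 331) ) ) ) ) ) (rr (aa (bb (aa (s3 333) (s3 335) ) (aa (bb (s3 332) (s3 331) ) (bb (s3 334) (s3 332) ) ) ) (bb (aa (s3 336) (s3 337) ) (aa (bb (s3 335) (s3 334) ) (bb (s3 336) (s3 335) ) ) ) ) (aa (bb (s3 338) (rr (s3 336) (s3 338) ) ) (bb (s3 340) (rr (aa (s3 338) (s3 339) ) (s3 340) ) ) ) ) ) ) ) ) ) (bb (rr (aa (bb (rr (aa s1 s1 ) (aa s1 s1 ) ) (rr (aa s1 s1 ) (aa s1 s1 ) ) ) (bb (rr s1 s1 ) (rr (aa s1 s1 ) (aa s1 s1 ) ) ) ) (aa (bb (rr (aa s1 s1 ) (rr (aa s1 s1 ) (s3 353) ) ) (rr (aa (bb s1 (rr s1 s1 ) ) (bb s1 s1 ) ) (rr (aa (bb s1 s1 ) (bb s1 s1 ) ) (aa (s3 349) (s3 352) ) ) ) ) (bb (rr (aa s1 s1 ) (rr (aa s1 s1 ) (aa s1 s1 ) ) ) (rr (aa s1 s1 ) (rr (aa s1 s1 ) (aa (s3 355) s1 ) ) ) ) ) ) (rr (aa (bb (rr (aa (bb s1 s1 ) (bb s1 s1 ) ) (aa (bb s1 (rr s1 (aa s1 s1 ) ) ) (bb s1 (rr s1 s1 ) ) ) ) (rr (aa (bb (rr s1 (aa s1 s1 ) ) (rr (aa s1 s1 ) (aa s1 s1 ) ) ) (bb s1 (rr (aa s1 s1 ) (aa s1 s1 ) ) ) ) (aa (bb (rr (aa s1 s1 ) (aa s1 s1 ) ) (rr (aa s1 s1 ) (aa (bb s1 s1 ) (bb s1 s1 ) ) ) ) (bb (rr s1 (aa s1 s1 ) ) (rr (aa s1 s1 ) (aa s1 s1 ) ) ) ) ) ) (bb (rr (aa s1 s1 ) (aa (bb s1 s1 ) s1 ) ) (rr (aa (bb s1 (rr s1 s1 ) ) (bb s1 s1 ) ) (aa (bb (rr s1 s1 ) (rr (aa s1 s1 ) (aa s1 s1 ) ) ) (bb s1 (rr s1 (aa s1 s1 ) ) ) ) ) ) ) (aa (bb (rr (aa (bb (rr s1 (s3 338) ) (rr (aa s1 s1 ) (aa s1 s1 ) ) ) (bb (rr s1 s1 ) (rr s1 (aa s1 s1 ) ) ) ) (rr (aa (bb (s3 342) (s3 340) ) (bb (s3 345) (s3 343) ) ) (aa (bb (s3 347) (s3 345) ) (bb (s3 350) (s3 348) ) ) ) ) (rr (aa (bb (rr (aa s1 s1 ) (aa (bb s1 s1 ) (bb s1 s1 ) ) ) (rr (aa (bb s1 (s3 328) ) (bb s1 s1 ) ) (aa (bb (s3 333) (s3 332) ) (bb s1 (s3 333) ) ) ) ) (bb (rr (aa s1 s1 ) (aa s1 s1 ) ) (rr (aa (bb s1 s1 ) s1 ) (aa (bb s1 (s3 335) ) (bb s1 s1 ) ) ) ) ) (rr (aa (bb (aa (s3 338) (s3 340) ) (aa (bb (s3 337) (s3 336) ) (bb (s3 338) (s3 337) ) ) ) (bb (aa (s3 341) (s3 342) ) (aa (bb (s3 340) (s3 339) ) (bb s1 (s3 340) ) ) ) ) (aa (bb (rr (s3 343) (s3 345) ) (rr (aa (s3 341) (s3 342) ) (aa (s3 343) (s3 344) ) ) ) (bb (rr (s3 346) (s3 348) ) (rr (aa (s3 343) (s3 345) ) (aa (s3 346) (s3 347) ) ) ) ) ) ) ) (bb (rr (aa (bb s1 (rr s1 s1 ) ) (bb s1 s1 ) ) (rr (aa (bb s1 (aa s1 s1 ) ) (bb s1 s1 ) ) (aa (bb s1 (s3 351) ) (bb s1 (s3 354) ) ) ) ) (rr (aa (bb (rr (aa s1 s1 ) (aa s1 s1 ) ) (rr (aa s1 s1 ) (aa (bb s1 s1 ) s1 ) ) ) (bb (rr s1 (aa s1 s1 ) ) (rr (aa s1 s1 ) (aa s1 s1 ) ) ) ) (rr (aa (bb (aa s1 s1 ) (aa (bb s1 s1 ) (bb s1 s1 ) ) ) (bb (aa s1 s1 ) (aa s1 s1 ) ) ) (aa (bb (rr (s3 349) (s3 351) ) (rr (aa (s3 346) (s3 348) ) (aa (s3 348) (s3 350) ) ) ) (bb (rr (aa s1 s1 ) (s3 354) ) (rr (aa s1 s1 ) (aa (s3 351) s1 ) ) ) ) ) ) ) ) ) ) ) ) (bb (aa (bb (rr (aa s1 s1 ) (aa s1 s1 ) ) (rr (aa s1 s1 ) (aa (bb s1 (rr s1 s1 ) ) s1 ) ) ) (bb (rr s1 (aa s1 s1 ) ) (rr (aa s1 s1 ) (aa s1 s1 ) ) ) ) (aa (bb (rr (aa (bb s1 (rr s1 (aa s1 s1 ) ) ) (bb s1 s1 ) ) (aa (bb (rr s1 (rr s1 s1 ) ) (rr (aa s1 s1 ) (rr (aa s1 s1 ) (aa s1 s1 ) ) ) ) (bb (rr s1 s1 ) (rr s1 (rr s1 (aa s1 s1 ) ) ) ) ) ) (rr (aa (bb (rr (aa s1 s1 ) (aa s1 s1 ) ) (rr (aa (bb s1 s1 ) s1 ) (aa (bb s1 s1 ) (bb s1 s1 ) ) ) ) (bb (rr s1 (aa s1 s1 ) ) (rr (aa s1 s1 ) (aa s1 s1 ) ) ) ) (aa (bb (rr (aa (bb s1 s1 ) s1 ) (rr (aa s1 s1 ) (aa (bb s1 s1 ) s1 ) ) ) (rr (aa (bb s1 (rr s1 (aa s1 s1 ) ) ) (bb s1 (rr s1 s1 ) ) ) (rr (aa (bb s1 (aa s1 s1 ) ) (bb s1 (aa s1 s1 ) ) ) (aa (bb (rr s1 s1 ) (rr (aa s1 s1 ) (aa s1 s1 ) ) ) (bb s1 (rr s1 (aa s1 s1 ) ) ) ) ) ) ) (bb (rr (aa s1 s1 ) (rr (aa s1 s1 ) (aa s1 s1 ) ) ) (rr (aa (bb s1 s1 ) s1 ) (rr (aa (bb s1 s1 ) s1 ) (aa (bb s1 s1 ) (bb s1 s1 ) ) ) ) ) ) ) ) (bb (rr (aa s1 s1 ) (aa (bb s1 s1 ) s1 ) ) (rr (aa (bb (rr s1 s1 ) (rr (aa s1 s1 ) (aa s1 s1 ) ) ) (bb s1 (rr s1 (aa s1 s1 ) ) ) ) (aa (bb (rr (aa s1 s1 ) (rr (aa s1 s1 ) (aa s1 s1 ) ) ) (rr (aa s1 s1 ) (rr (aa s1 s1 ) (aa s1 s1 ) ) ) ) (bb (rr s1 s1 ) (rr (aa s1 s1 ) (rr (aa s1 s1 ) (aa s1 s1 ) ) ) ) ) ) ) ) ) ) (aa (bb (rr (aa (bb (rr (aa (s3 355) (s3 360) ) (s3 368) ) (rr (aa (bb (s3 353) (s3 351) ) (bb (s3 358) (s3 356) ) ) (aa (s3 363) (s3 368) ) ) ) (bb (rr (aa (s3 366) (s3 373) ) (s3 380) ) (rr (aa (bb (s3 364) (s3 361) ) (bb (s3 371) (s3 368) ) ) (aa (s3 374) (s3 381) ) ) ) ) (aa (bb (rr (s3 384) (s3 401) ) (rr (aa (s3 377) (s3 382) ) (aa (s3 393) (s3 399) ) ) ) (bb (rr (s3 395) (s3 414) ) (rr (aa (s3 388) (s3 395) ) (aa (s3 405) (s3 412) ) ) ) ) ) (rr (aa (bb (rr (aa (bb (rr (s3 348) (s3 354) ) (rr (aa (s3 344) (s3 347) ) (aa (s3 350) (s3 352) ) ) ) (bb (rr (s3 353) (s3 359) ) (rr (aa (s3 349) (s3 352) ) (aa (s3 354) (s3 357) ) ) ) ) (aa (bb (s3 359) (rr (s3 355) (s3 361) ) ) (bb (s3 364) (rr (s3 360) (s3 366) ) ) ) ) (rr (aa (bb (rr (aa (bb (s3 342) (s3 340) ) (bb (s3 345) (s3 342) ) ) (aa (bb (s3 348) (s3 345) ) (bb (s3 350) (s3 347) ) ) ) (rr (aa (bb (s3 338) (rr (s3 336) (s3 338) ) ) (bb (s3 340) (rr (s3 338) (s3 340) ) ) ) (aa (bb (s3 343) (s3 340) ) (bb (s3 345) (s3 342) ) ) ) ) (bb (rr (aa (bb (s3 347) (s3 345) ) (bb (s3 349) (s3 347) ) ) (aa (bb (s3 352) (s3 350) ) (bb (s3 355) (s3 352) ) ) ) (rr (aa (bb (s3 342) (rr (s3 340) (s3 342) ) ) (bb (s3 345) (rr (s3 342) (s3 345) ) ) ) (aa (bb (s3 347) (s3 344) ) (bb (s3 349) (rr (s3 347) (s3 349) ) ) ) ) ) ) (aa (bb (rr (aa (bb (s3 353) (s3 350) ) (bb (s3 355) (s3 353) ) ) (aa (s3 356) (s3 358) ) ) (rr (aa (bb (s3 348) (s3 345) ) (bb (s3 350) (s3 347) ) ) (aa (bb (s3 353) (s3 350) ) (bb (s3 355) (s3 352) ) ) ) ) (bb (rr (aa (bb (s3 358) (s3 355) ) (bb (s3 360) (s3 357) ) ) (aa (s3 360) (s3 363) ) ) (rr (aa (bb (s3 352) (s3 349) ) (bb (s3 354) (s3 351) ) ) (aa (bb (s3 357) (s3 354) ) (bb (s3 360) (s3 356) ) ) ) ) ) ) ) (bb (rr (aa (bb (rr (s3 358) (s3 364) ) (rr (aa (s3 354) (s3 357) ) (aa (s3 360) (s3 363) ) ) ) (bb (rr (s3 364) (s3 370) ) (rr (aa (s3 360) s1 ) (aa (s3 366) (s3 369) ) ) ) ) (aa (bb (s3 370) (rr (s3 365) (s3 372) ) ) (bb (s3 376) (rr (aa (s3 372) (s3 375) ) (s3 378) ) ) ) ) (rr (aa (bb (rr (aa (bb (s3 352) (s3 350) ) (bb (s3 355) (s3 352) ) ) (aa (bb (s3 357) (s3 355) ) (bb (s3 360) (s3 358) ) ) ) (rr (aa (bb (s3 347) (rr (s3 345) (s3 347) ) ) (bb (s3 350) (rr (aa (s3 348) (s3 349) ) (s3 350) ) ) ) (aa (bb (s3 352) (rr (s3 350) (s3 352) ) ) (bb (s3 355) (rr (s3 352) (s3 355) ) ) ) ) ) (bb (rr (aa (bb (s3 358) (s3 355) ) (bb s1 (s3 359) ) ) (aa (bb (s3 363) (s3 361) ) (bb (s3 367) (s3 364) ) ) ) (rr (aa (bb (s3 353) (rr (aa (s3 351) (s3 352) ) (aa (s3 353) (s3 355) ) ) ) (bb (rr (s3 356) (s3 359) ) (rr (aa (s3 354) (s3 355) ) (aa (s3 356) (s3 358) ) ) ) ) (aa (bb (s3 358) (rr (s3 355) (s3 358) ) ) (bb (s3 361) (rr (s3 358) (s3 361) ) ) ) ) ) ) (aa (bb (rr (aa (bb (s3 363) (s3 360) ) (bb (s3 366) (s3 363) ) ) (aa (s3 366) (s3 369) ) ) (rr (aa (bb (s3 357) (s3 354) ) (bb (s3 360) (s3 356) ) ) (aa (bb (s3 362) (s3 359) ) (bb (s3 365) (s3 362) ) ) ) ) (bb (rr (aa (bb (s3 369) (s3 366) ) (bb (s3 372) (s3 369) ) ) (aa (bb (s3 375) (s3 372) ) (bb (s3 379) (s3 375) ) ) ) (rr (aa (bb (s3 363) (rr (s3 360) (s3 363) ) ) (bb (s3 366) (rr (s3 363) (s3 366) ) ) ) (aa (bb (s3 368) (s3 365) ) (bb (s3 371) (s3 368) ) ) ) ) ) ) ) ) (aa (bb (rr (aa (bb (s3 372) (rr (s3 368) (s3 375) ) ) (bb (s3 377) (rr (s3 373) (s3 380) ) ) ) (aa (bb (s3 387) (s3 381) ) (bb (s3 393) (s3 386) ) ) ) (rr (aa (bb (rr (aa (s3 362) (s3 364) ) (aa (s3 368) (s3 370) ) ) (rr (aa (bb (s3 358) (s3 355) ) (bb (s3 361) (s3 357) ) ) (aa (bb (s3 364) (s3 361) ) (bb (s3 367) (s3 363) ) ) ) ) (bb (rr (aa (s3 366) (s3 369) ) (aa (s3 373) (s3 375) ) ) (rr (aa (bb (s3 363) (s3 359) ) (bb (s3 366) (s3 362) ) ) (aa (bb (s3 369) (s3 365) ) (bb (s3 372) (s3 367) ) ) ) ) ) (aa (bb (rr (aa (s3 375) (s3 377) ) (s3 381) ) (rr (aa (bb (s3 371) (s3 367) ) (bb (s3 373) (s3 369) ) ) (aa (bb (s3 377) (s3 373) ) (bb (s3 380) (s3 375) ) ) ) ) (bb (rr (aa (s3 380) (s3 382) ) (s3 386) ) (rr (aa (bb (s3 375) (s3 371) ) (bb (s3 378) (s3 373) ) ) (aa (bb (s3 382) (s3 377) ) (bb (s3 385) (s3 380) ) ) ) ) ) ) ) (bb (rr (aa (bb (s3 383) (rr (s3 378) (s3 385) ) ) (bb (s3 390) (rr (s3 385) (s3 392) ) ) ) (aa (bb (s3 399) (s3 391) ) (bb (s3 406) (s3 398) ) ) ) (rr (aa (bb (rr (aa (s3 372) (s3 375) ) (aa (s3 378) (s3 381) ) ) (rr (aa (bb (s3 368) (s3 364) ) (bb (s3 371) (s3 367) ) ) (aa (bb (s3 374) (s3 370) ) (bb (s3 377) (s3 373) ) ) ) ) (bb (rr (aa (s3 378) (s3 381) ) (aa (s3 384) (s3 388) ) ) (rr (aa (bb (s3 374) (s3 370) ) (bb (s3 377) (s3 373) ) ) (aa (bb (s3 380) (s3 376) ) (bb (s3 384) (s3 379) ) ) ) ) ) (aa (bb (rr (aa (s3 385) (s3 388) ) (s3 392) ) (rr (aa (bb (s3 381) (s3 376) ) (bb (s3 384) (s3 379) ) ) (aa (bb (s3 388) (s3 383) ) (bb (s3 391) (s3 385) ) ) ) ) (bb (rr (aa (s3 391) (s3 395) ) (aa (s3 399) (s3 402) ) ) (rr (aa (bb (s3 387) (s3 382) ) (bb (s3 390) (s3 385) ) ) (aa (bb (s3 394) (s3 388) ) (bb (s3 397) (s3 392) ) ) ) ) ) ) ) ) ) ) (bb (rr (aa (bb (rr (aa s1 s1 ) (s3 395) ) (rr (aa (bb s1 (s3 375) ) s1 ) (aa (s3 388) (s3 397) ) ) ) (bb (rr (aa s1 s1 ) (s3 414) ) (rr (aa s1 s1 ) (aa s1 s1 ) ) ) ) (aa (bb (rr (s3 411) (s3 430) ) (rr (aa (s3 403) (s3 412) ) (aa (s3 421) (s3 430) ) ) ) (bb (rr (s3 432) (s3 452) ) (rr (aa (s3 423) s1 ) (aa (s3 441) s1 ) ) ) ) ) (rr (aa (bb (rr (aa (bb (rr (s3 372) (s3 378) ) (rr (aa s1 s1 ) (aa s1 s1 ) ) ) (bb (rr s1 s1 ) (rr (aa s1 s1 ) (aa s1 s1 ) ) ) ) (aa (bb (s3 383) (rr (aa (s3 379) s1 ) (s3 385) ) ) (bb (s3 392) (rr (aa s1 s1 ) (aa s1 s1 ) ) ) ) ) (rr (aa (bb (rr (aa (bb s1 s1 ) (bb s1 s1 ) ) (aa (bb s1 (s3 367) ) (bb s1 s1 ) ) ) (rr (aa (bb (rr (s3 360) (s3 362) ) (rr (aa s1 s1 ) (aa s1 s1 ) ) ) (bb (rr s1 s1 ) (rr (aa s1 s1 ) (aa s1 s1 ) ) ) ) (aa (bb (s3 364) (rr (aa (s3 362) s1 ) (s3 364) ) ) (bb (rr s1 (s3 371) ) (rr (aa s1 s1 ) (aa s1 s1 ) ) ) ) ) ) (bb (rr (aa s1 s1 ) (aa s1 s1 ) ) (rr (aa (bb s1 (rr s1 s1 ) ) (bb s1 s1 ) ) (aa (bb s1 (rr (aa s1 s1 ) (aa s1 s1 ) ) ) (bb s1 s1 ) ) ) ) ) (aa (bb (rr (aa (bb (s3 376) (s3 373) ) (bb s1 (s3 376) ) ) (aa (bb (s3 382) (s3 379) ) (bb s1 (s3 382) ) ) ) (rr (aa (bb (s3 369) (rr (s3 366) (s3 369) ) ) (bb (s3 373) (rr (s3 370) (s3 373) ) ) ) (aa (bb (s3 375) (s3 371) ) (bb (s3 378) (rr (s3 375) (s3 378) ) ) ) ) ) (bb (rr (aa (bb s1 s1 ) s1 ) (aa (bb s1 s1 ) (bb s1 s1 ) ) ) (rr (aa (bb (s3 377) (rr (aa s1 s1 ) (aa s1 s1 ) ) ) (bb s1 (rr s1 (aa s1 s1 ) ) ) ) (aa (bb (s3 382) (rr (s3 379) (s3 382) ) ) (bb s1 (rr (aa s1 s1 ) (s3 386) ) ) ) ) ) ) ) ) (bb (rr (aa (bb s1 s1 ) s1 ) (aa (bb s1 (rr s1 (aa s1 s1 ) ) ) (bb s1 s1 ) ) ) (rr (aa (bb (rr (aa s1 s1 ) (aa s1 s1 ) ) (rr (aa s1 s1 ) (aa (bb s1 s1 ) s1 ) ) ) (bb (rr s1 s1 ) (rr (aa s1 s1 ) (aa s1 s1 ) ) ) ) (aa (bb (rr (aa s1 s1 ) (aa s1 s1 ) ) (rr (aa (bb s1 s1 ) (bb s1 s1 ) ) (aa (bb s1 (rr s1 s1 ) ) (bb s1 s1 ) ) ) ) (bb (rr (aa s1 s1 ) (aa s1 s1 ) ) (rr (aa s1 s1 ) (aa s1 s1 ) ) ) ) ) ) ) (aa (bb (rr (aa (bb (s3 398) (rr (s3 392) (s3 399) ) ) (bb (s3 406) (rr (s3 400) (s3 408) ) ) ) (aa (bb (s3 414) (s3 405) ) (bb (s3 423) (s3 414) ) ) ) (rr (aa (bb (rr (aa (s3 385) (s3 389) ) (aa (s3 391) (s3 395) ) ) (rr (aa (bb (s3 381) (s3 376) ) (bb (s3 384) (s3 380) ) ) (aa (bb (s3 387) (s3 382) ) (bb (s3 391) (s3 386) ) ) ) ) (bb (rr (aa (bb s1 (s3 393) ) (bb s1 s1 ) ) (aa (s3 399) (s3 404) ) ) (rr (aa (bb (s3 388) (s3 384) ) (bb (s3 392) (rr (s3 389) (s3 392) ) ) ) (aa (bb (s3 395) (s3 390) ) (bb (s3 399) (s3 393) ) ) ) ) ) (aa (bb (rr (aa (s3 398) (s3 402) ) (aa (s3 406) (s3 410) ) ) (rr (aa (bb (s3 394) (s3 388) ) (bb (s3 397) (s3 392) ) ) (aa (bb (s3 401) (s3 395) ) (bb (s3 404) (s3 399) ) ) ) ) (bb (rr (aa (s3 406) (s3 411) ) (aa (s3 414) (s3 418) ) ) (rr (aa (bb (s3 401) (s3 396) ) (bb (s3 405) (s3 400) ) ) (aa (bb (s3 408) (s3 402) ) (bb (s3 413) (s3 406) ) ) ) ) ) ) ) (bb (rr (aa (bb (s3 416) (rr (aa s1 s1 ) (s3 417) ) ) (bb s1 (rr s1 s1 ) ) ) (aa (bb (s3 433) (rr (s3 425) (s3 434) ) ) (bb s1 (rr (s3 436) (s3 445) ) ) ) ) (rr (aa (bb (rr (aa s1 s1 ) (aa (bb s1 s1 ) s1 ) ) (rr (aa (bb s1 (rr s1 (s3 396) ) ) (bb s1 s1 ) ) (aa (bb (s3 403) (s3 398) ) (bb s1 (rr s1 s1 ) ) ) ) ) (bb (rr (aa s1 s1 ) (aa s1 s1 ) ) (rr (aa (bb s1 s1 ) s1 ) (aa (bb s1 s1 ) s1 ) ) ) ) (aa (bb (rr (aa (s3 415) (s3 420) ) (aa (s3 423) (s3 428) ) ) (rr (aa (bb (s3 410) (s3 404) ) (bb s1 (s3 408) ) ) (aa (bb (s3 417) (s3 411) ) (bb (s3 422) (s3 415) ) ) ) ) (bb (rr (aa s1 s1 ) (aa s1 s1 ) ) (rr (aa (bb s1 s1 ) (bb s1 s1 ) ) (aa (bb s1 (s3 420) ) (bb s1 s1 ) ) ) ) ) ) ) ) ) ) ) ) ) (aa (rr (aa (bb (rr (aa (bb (rr (s3 400) (s3 423) ) (rr (s3 391) (s3 412) ) ) (bb (rr (s3 401) (s3 424) ) (rr (s3 392) (s3 413) ) ) ) (aa (bb (s3 449) (rr (s3 436) (s3 465) ) ) (bb (s3 451) (rr (s3 437) (s3 467) ) ) ) ) (rr (aa (bb (rr (aa (bb (s3 385) (s3 378) ) (bb (s3 386) (s3 378) ) ) (aa (bb (s3 404) (s3 395) ) (bb (s3 405) (s3 396) ) ) ) (rr (aa (bb (rr (s3 372) (s3 379) ) (rr (aa (bb (s3 368) (s3 363) ) (bb (s3 368) (s3 363) ) ) (aa (bb (s3 375) (s3 370) ) (bb (s3 375) (s3 370) ) ) ) ) (bb (rr (s3 372) (s3 380) ) (rr (aa (bb (s3 368) (s3 363) ) (bb (s3 368) (s3 364) ) ) (aa (bb (s3 375) (s3 370) ) (bb (s3 376) (s3 371) ) ) ) ) ) (aa (bb (rr (s3 388) (s3 396) ) (rr (aa (bb (s3 383) (s3 377) ) (bb (s3 383) (s3 377) ) ) (aa (bb (s3 391) (s3 385) ) (bb (s3 391) (s3 385) ) ) ) ) (bb (rr (s3 388) (s3 397) ) (rr (aa (bb (s3 383) (s3 378) ) (bb (s3 383) (s3 378) ) ) (aa (bb (s3 391) (s3 385) ) (bb (s3 392) (s3 386) ) ) ) ) ) ) ) (bb (rr (aa (bb (s3 386) (s3 379) ) (bb (s3 388) (s3 380) ) ) (aa (bb (s3 406) (s3 397) ) (bb (s3 407) (s3 398) ) ) ) (rr (aa (bb (rr (s3 373) (s3 380) ) (rr (aa (bb (s3 369) (s3 364) ) (bb (s3 369) (s3 365) ) ) (aa (bb (s3 376) (s3 371) ) (bb (s3 377) (s3 372) ) ) ) ) (bb (rr (s3 374) (s3 382) ) (rr (aa (bb (s3 370) (s3 365) ) (bb (s3 371) (s3 366) ) ) (aa (bb (s3 377) (s3 372) ) (bb (s3 378) (s3 373) ) ) ) ) ) (aa (bb (rr (s3 389) (s3 398) ) (rr (aa (bb (s3 384) (s3 378) ) (bb (s3 384) (s3 379) ) ) (aa (bb (s3 392) (s3 386) ) (bb (s3 393) (s3 387) ) ) ) ) (bb (rr (s3 390) (s3 399) ) (rr (aa (bb (s3 385) (s3 380) ) (bb (s3 386) (s3 381) ) ) (aa (bb (s3 394) (s3 388) ) (bb (s3 394) (s3 388) ) ) ) ) ) ) ) ) (aa (bb (rr (aa (bb (s3 427) (s3 416) ) (bb (s3 427) (s3 416) ) ) (aa (bb (s3 453) (s3 439) ) (bb (s3 454) (s3 440) ) ) ) (rr (aa (bb (rr (s3 406) (s3 416) ) (rr (aa (bb (s3 400) (s3 394) ) (bb (s3 400) (s3 394) ) ) (aa (bb (s3 410) (s3 402) ) (bb (s3 410) (s3 403) ) ) ) ) (bb (rr (s3 406) (s3 417) ) (rr (aa (bb (s3 400) (s3 394) ) (bb (s3 401) (s3 394) ) ) (aa (bb (s3 410) (s3 403) ) (bb (s3 410) (s3 403) ) ) ) ) ) (aa (bb (rr (s3 427) (s3 439) ) (rr (aa (bb (s3 420) (s3 412) ) (bb (s3 420) (s3 412) ) ) (aa (bb (s3 431) (s3 422) ) (bb (s3 431) (s3 422) ) ) ) ) (bb (rr (s3 428) (s3 440) ) (rr (aa (bb (s3 420) (s3 412) ) (bb (s3 421) (s3 413) ) ) (aa (bb (s3 431) (s3 422) ) (bb (s3 432) (s3 423) ) ) ) ) ) ) ) (bb (rr (aa (bb (s3 428) (s3 417) ) (bb (s3 430) (s3 418) ) ) (aa (bb (s3 455) (s3 440) ) (bb (s3 457) (s3 442) ) ) ) (rr (aa (bb (rr (s3 407) (s3 417) ) (rr (aa (bb (s3 401) (s3 395) ) (bb (s3 402) (s3 395) ) ) (aa (bb (s3 411) (s3 404) ) (bb (s3 411) (s3 404) ) ) ) ) (bb (rr (s3 408) (s3 419) ) (rr (aa (bb (s3 403) (s3 396) ) (bb (s3 403) (s3 397) ) ) (aa (bb (s3 412) (s3 405) ) (bb (s3 413) (s3 406) ) ) ) ) ) (aa (bb (rr (s3 428) (s3 440) ) (rr (aa (bb (s3 421) (s3 413) ) (bb (s3 422) (s3 414) ) ) (aa (bb (s3 432) (s3 423) ) (bb (s3 433) (s3 424) ) ) ) ) (bb (rr (s3 430) (s3 442) ) (rr (aa (bb (s3 423) (s3 414) ) (bb (s3 424) (s3 415) ) ) (aa (bb (s3 434) (s3 425) ) (bb (s3 435) (s3 425) ) ) ) ) ) ) ) ) ) ) (bb (rr (aa (bb (rr (s3 405) (s3 428) ) (rr (s3 396) (s3 417) ) ) (bb (rr (s3 412) (s3 435) ) (rr (s3 402) (s3 424) ) ) ) (aa (bb (s3 455) (rr (s3 442) (s3 471) ) ) (bb (s3 463) (rr (s3 449) (s3 479) ) ) ) ) (rr (aa (bb (rr (aa (bb (s3 390) (s3 382) ) (bb (s3 393) (s3 385) ) ) (aa (bb (s3 409) (s3 400) ) (bb (s3 412) (s3 403) ) ) ) (rr (aa (bb (rr (s3 376) (s3 384) ) (rr (aa (bb (s3 372) (s3 367) ) (bb (s3 373) (s3 368) ) ) (aa (bb (s3 379) (s3 374) ) (bb (s3 380) (s3 375) ) ) ) ) (bb (rr (s3 378) (s3 386) ) (rr (aa (bb (s3 374) (s3 369) ) (bb (s3 375) (s3 371) ) ) (aa (bb (s3 382) (s3 376) ) (bb (s3 383) (s3 378) ) ) ) ) ) (aa (bb (rr (s3 392) (s3 401) ) (rr (aa (bb (s3 387) (s3 381) ) (bb (s3 388) (s3 383) ) ) (aa (bb (s3 395) (s3 389) ) (bb (s3 397) (s3 390) ) ) ) ) (bb (rr (s3 394) (s3 403) ) (rr (aa (bb (s3 389) (s3 384) ) (bb (s3 391) (s3 385) ) ) (aa (bb (s3 398) (s3 392) ) (bb (s3 399) (s3 393) ) ) ) ) ) ) ) (bb (rr (aa (bb (s3 396) (s3 388) ) (bb (s3 400) (s3 392) ) ) (aa (bb (s3 416) (s3 406) ) (bb (s3 420) (s3 410) ) ) ) (rr (aa (bb (rr (s3 381) (s3 389) ) (rr (aa (bb (s3 377) (s3 372) ) (bb (s3 379) (s3 374) ) ) (aa (bb (s3 384) (s3 379) ) (bb (s3 386) (s3 381) ) ) ) ) (bb (rr (s3 385) (s3 393) ) (rr (aa (bb (s3 381) (s3 376) ) (bb (s3 382) (s3 378) ) ) (aa (bb (s3 388) (s3 383) ) (bb (s3 390) (s3 385) ) ) ) ) ) (aa (bb (rr (s3 397) (s3 407) ) (rr (aa (bb (s3 392) (s3 387) ) (bb (s3 394) (s3 388) ) ) (aa (bb (s3 401) (s3 395) ) (bb (s3 403) (s3 396) ) ) ) ) (bb (rr (s3 401) (s3 410) ) (rr (aa (bb (s3 396) (s3 390) ) (bb (s3 398) (s3 392) ) ) (aa (bb (s3 405) (s3 398) ) (bb (s3 407) (s3 400) ) ) ) ) ) ) ) ) (aa (bb (rr (aa (bb (s3 432) (s3 420) ) (bb (s3 435) (s3 423) ) ) (aa (bb (s3 459) (s3 444) ) (bb (s3 462) (s3 447) ) ) ) (rr (aa (bb (rr (s3 410) (s3 421) ) (rr (aa (bb (s3 405) (s3 398) ) (bb (s3 406) (s3 399) ) ) (aa (bb (s3 414) (s3 407) ) (bb (s3 415) (s3 408) ) ) ) ) (bb (rr (s3 413) (s3 423) ) (rr (aa (bb (s3 407) (s3 400) ) (bb (s3 409) (s3 402) ) ) (aa (bb (s3 417) (s3 409) ) (bb (s3 418) (s3 411) ) ) ) ) ) (aa (bb (rr (s3 432) (s3 444) ) (rr (aa (bb (s3 425) (s3 416) ) (bb (s3 426) (s3 417) ) ) (aa (bb (s3 436) (s3 426) ) (bb (s3 437) (s3 428) ) ) ) ) (bb (rr (s3 435) (s3 447) ) (rr (aa (bb (s3 427) (s3 419) ) (bb (s3 429) (s3 420) ) ) (aa (bb (s3 438) (s3 429) ) (bb (s3 440) (s3 431) ) ) ) ) ) ) ) (bb (rr (aa (bb (s3 439) (s3 427) ) (bb (s3 443) (s3 431) ) ) (aa (bb (s3 466) (s3 451) ) (bb (s3 471) (s3 455) ) ) ) (rr (aa (bb (rr (s3 416) (s3 427) ) (rr (aa (bb (s3 410) (s3 403) ) (bb (s3 412) (s3 405) ) ) (aa (bb (s3 420) (s3 412) ) (bb (s3 422) (s3 414) ) ) ) ) (bb (rr (s3 420) (s3 431) ) (rr (aa (bb (s3 414) (s3 407) ) (bb (s3 416) (s3 409) ) ) (aa (bb (s3 424) (s3 416) ) (bb (s3 426) (s3 418) ) ) ) ) ) (aa (bb (rr (s3 438) (s3 450) ) (rr (aa (bb (s3 431) (s3 422) ) (bb (s3 432) (s3 424) ) ) (aa (bb (s3 442) (s3 432) ) (bb (s3 444) (s3 434) ) ) ) ) (bb (rr (s3 442) (s3 454) ) (rr (aa (bb (s3 434) (s3 426) ) (bb (s3 437) (s3 428) ) ) (aa (bb (s3 446) (s3 436) ) (bb (s3 448) (s3 438) ) ) ) ) ) ) ) ) ) ) ) (aa (bb (rr (aa (bb (s3 523) (rr (s3 501) (s3 545) ) ) (bb (s3 525) (rr (s3 502) (s3 547) ) ) ) (aa (bb (rr (s3 647) (s3 745) ) (rr (s3 601) (s3 674) ) ) (bb (rr (s3 650) (s3 747) ) (rr (s3 603) (s3 676) ) ) ) ) (rr (aa (bb (rr (aa (bb (s3 485) (s3 467) ) (bb (s3 486) (s3 467) ) ) (aa (bb (s3 524) (s3 500) ) (bb (s3 525) (s3 500) ) ) ) (rr (aa (bb (rr (s3 452) (s3 466) ) (rr (aa (bb (s3 443) (s3 433) ) (bb (s3 443) (s3 433) ) ) (aa (bb (s3 456) (s3 445) ) (bb (s3 456) (s3 445) ) ) ) ) (bb (rr (s3 452) (s3 466) ) (rr (aa (bb (s3 443) (s3 433) ) (bb (s3 444) (s3 434) ) ) (aa (bb (s3 456) (s3 445) ) (bb (s3 457) (s3 445) ) ) ) ) ) (aa (bb (rr (s3 481) (s3 498) ) (rr (aa (bb (s3 470) (s3 457) ) (bb (s3 470) (s3 457) ) ) (aa (bb (s3 485) (s3 470) ) (bb (s3 485) (s3 470) ) ) ) ) (bb (rr (s3 482) (s3 498) ) (rr (aa (bb (s3 470) (s3 457) ) (bb (s3 470) (s3 458) ) ) (aa (bb (s3 485) (s3 470) ) (bb (s3 485) (s3 471) ) ) ) ) ) ) ) (bb (rr (aa (bb (s3 487) (s3 468) ) (bb (s3 489) (s3 470) ) ) (aa (bb (s3 526) (s3 501) ) (bb (s3 528) (s3 503) ) ) ) (rr (aa (bb (rr (s3 453) (s3 467) ) (rr (aa (bb (s3 444) (s3 434) ) (bb (s3 445) (s3 435) ) ) (aa (bb (s3 457) (s3 446) ) (bb (s3 458) (s3 446) ) ) ) ) (bb (rr (s3 455) (s3 469) ) (rr (aa (bb (s3 446) (s3 435) ) (bb (s3 447) (s3 436) ) ) (aa (bb (s3 459) (s3 447) ) (bb (s3 460) (s3 448) ) ) ) ) ) (aa (bb (rr (s3 483) (s3 499) ) (rr (aa (bb (s3 471) (s3 458) ) (bb (s3 472) (s3 459) ) ) (aa (bb (s3 486) (s3 471) ) (bb (s3 487) (s3 472) ) ) ) ) (bb (rr (s3 484) (s3 501) ) (rr (aa (bb (s3 472) (s3 459) ) (bb (s3 473) (s3 460) ) ) (aa (bb (s3 487) (s3 473) ) (bb (s3 488) (s3 474) ) ) ) ) ) ) ) ) (aa (bb (rr (aa (bb (s3 572) (rr (s3 548) (s3 573) ) ) (bb (s3 572) (rr (s3 549) (s3 574) ) ) ) (aa (bb (s3 631) (rr (s3 601) (s3 631) ) ) (bb (s3 632) (rr (s3 601) (s3 631) ) ) ) ) (rr (aa (bb (rr (s3 516) (aa (s3 536) (s3 536) ) ) (rr (aa (bb (s3 501) (s3 484) ) (bb (s3 501) (s3 484) ) ) (aa (bb (s3 518) (s3 499) ) (bb (s3 518) (s3 499) ) ) ) ) (bb (rr (s3 516) (aa (s3 537) (s3 537) ) ) (rr (aa (bb (s3 501) (s3 484) ) (bb (s3 501) (s3 485) ) ) (aa (bb (s3 518) (s3 499) ) (bb (s3 518) (s3 499) ) ) ) ) ) (aa (bb (rr (aa (bb (s3 580) (s3 558) ) (bb (s3 580) (s3 558) ) ) (aa (bb (s3 606) (s3 580) ) (bb (s3 607) (s3 580) ) ) ) (rr (aa (bb (s3 536) (rr (s3 523) (s3 532) ) ) (bb (s3 536) (rr (s3 523) (s3 532) ) ) ) (aa (bb (s3 555) (rr (s3 541) (s3 550) ) ) (bb (s3 555) (rr (s3 541) (s3 550) ) ) ) ) ) (bb (rr (aa (bb (s3 580) (s3 558) ) (bb (s3 581) (s3 559) ) ) (aa (bb (s3 607) (s3 581) ) (bb (s3 607) (s3 581) ) ) ) (rr (aa (bb (s3 536) (rr (s3 523) (s3 532) ) ) (bb (s3 536) (rr (s3 524) (s3 533) ) ) ) (aa (bb (s3 555) (rr (s3 541) (s3 551) ) ) (bb (s3 555) (rr (s3 542) (s3 551) ) ) ) ) ) ) ) ) (bb (rr (aa (bb (s3 574) (rr (s3 550) (s3 575) ) ) (bb (s3 576) (rr (s3 552) (s3 577) ) ) ) (aa (bb (s3 633) (rr (s3 602) (s3 633) ) ) (bb (s3 635) (rr (s3 604) (s3 635) ) ) ) ) (rr (aa (bb (rr (s3 517) (aa (s3 538) (s3 538) ) ) (rr (aa (bb (s3 502) (s3 485) ) (bb (s3 503) (s3 486) ) ) (aa (bb (s3 519) (s3 500) ) (bb (s3 520) (s3 501) ) ) ) ) (bb (rr (s3 519) (aa (s3 539) (s3 541) ) ) (rr (aa (bb (s3 503) (s3 487) ) (bb (s3 504) (s3 488) ) ) (aa (bb (s3 521) (s3 501) ) (bb (s3 522) (s3 502) ) ) ) ) ) (aa (bb (rr (aa (bb (s3 581) (s3 559) ) (bb (s3 582) (s3 560) ) ) (aa (bb (s3 608) (s3 582) ) (bb (s3 609) (s3 583) ) ) ) (rr (aa (bb (s3 537) (rr (s3 524) (s3 533) ) ) (bb (s3 538) (rr (s3 525) (s3 534) ) ) ) (aa (bb (s3 556) (rr (s3 542) (s3 552) ) ) (bb (s3 557) (rr (s3 543) (s3 552) ) ) ) ) ) (bb (rr (aa (bb (s3 583) (s3 561) ) (bb (s3 585) (s3 562) ) ) (aa (bb (s3 610) (s3 584) ) (bb (s3 611) (s3 585) ) ) ) (rr (aa (bb (s3 539) (rr (s3 526) (s3 535) ) ) (bb (s3 540) (rr (s3 527) (s3 536) ) ) ) (aa (bb (s3 558) (rr (s3 544) (s3 553) ) ) (bb (s3 559) (rr (s3 545) (s3 554) ) ) ) ) ) ) ) ) ) ) ) (bb (rr (aa (bb (s3 530) (rr (s3 507) (s3 552) ) ) (bb (s3 539) (rr (s3 515) (s3 561) ) ) ) (aa (bb (s3 652) (rr (s3 608) (s3 682) ) ) (bb (s3 664) (rr (s3 618) (s3 693) ) ) ) ) (rr (aa (bb (rr (aa (bb (s3 491) (s3 472) ) (bb (s3 495) (s3 475) ) ) (aa (bb (s3 530) (s3 505) ) (bb (s3 534) (s3 509) ) ) ) (rr (aa (bb (rr (s3 457) (s3 471) ) (rr (aa (bb (s3 448) (s3 437) ) (bb (s3 449) (s3 439) ) ) (aa (bb (s3 461) (s3 449) ) (bb (s3 462) (s3 450) ) ) ) ) (bb (rr (s3 460) (s3 474) ) (rr (aa (bb (s3 451) (s3 440) ) (bb (s3 452) (s3 441) ) ) (aa (bb (s3 464) (s3 452) ) (bb (s3 465) (s3 453) ) ) ) ) ) (aa (bb (rr (s3 486) (s3 503) ) (rr (aa (bb (s3 475) (s3 461) ) (bb (s3 476) (s3 463) ) ) (aa (bb (s3 490) (s3 475) ) (bb (s3 491) (s3 476) ) ) ) ) (bb (rr (s3 489) (s3 506) ) (rr (aa (bb (s3 477) (s3 464) ) (bb (s3 479) (s3 466) ) ) (aa (bb (s3 493) (s3 477) ) (bb (s3 494) (s3 479) ) ) ) ) ) ) ) (bb (rr (aa (bb (s3 499) (s3 479) ) (bb (s3 504) (s3 484) ) ) (aa (bb (s3 539) (s3 513) ) (bb (s3 544) (s3 518) ) ) ) (rr (aa (bb (rr (s3 463) (s3 478) ) (rr (aa (bb (s3 454) (s3 443) ) (bb (s3 456) (s3 445) ) ) (aa (bb (s3 467) (s3 455) ) (bb (s3 469) (s3 457) ) ) ) ) (bb (rr (s3 468) (s3 482) ) (rr (aa (bb (s3 458) (s3 447) ) (bb (s3 460) (s3 449) ) ) (aa (bb (s3 471) (s3 459) ) (bb (s3 473) (s3 461) ) ) ) ) ) (aa (bb (rr (s3 493) (s3 510) ) (rr (aa (bb (s3 481) (s3 467) ) (bb (s3 483) (s3 469) ) ) (aa (bb (s3 496) (s3 481) ) (bb (s3 498) (s3 483) ) ) ) ) (bb (rr (s3 497) (s3 514) ) (rr (aa (bb (s3 485) (s3 471) ) (bb (s3 488) (s3 474) ) ) (aa (bb (s3 500) (s3 485) ) (bb (s3 503) (s3 487) ) ) ) ) ) ) ) ) (aa (bb (rr (aa (bb (s3 579) (rr (s3 555) (s3 579) ) ) (bb (s3 583) (s3 548) ) ) (aa (bb (s3 639) (rr (s3 607) (s3 638) ) ) (bb (s3 643) (rr (s3 611) (s3 642) ) ) ) ) (rr (aa (bb (rr (s3 521) (aa (s3 542) (s3 543) ) ) (rr (aa (bb (s3 506) (s3 489) ) (bb (s3 507) (s3 490) ) ) (aa (bb (s3 523) (s3 504) ) (bb (s3 524) (s3 505) ) ) ) ) (bb (rr (s3 524) (aa (s3 545) (s3 547) ) ) (rr (aa (bb (s3 509) (s3 492) ) (bb (s3 510) (s3 493) ) ) (aa (bb (s3 526) (s3 506) ) (bb (s3 528) (s3 508) ) ) ) ) ) (aa (bb (rr (aa (bb (s3 586) (s3 564) ) (bb (s3 588) (s3 565) ) ) (aa (bb (s3 613) (s3 586) ) (bb (s3 615) (s3 588) ) ) ) (rr (aa (bb (s3 541) (rr (s3 528) (s3 537) ) ) (bb (s3 543) (s3 520) ) ) (aa (bb (s3 560) (rr (s3 546) (s3 555) ) ) (bb (s3 561) (rr (s3 547) (s3 557) ) ) ) ) ) (bb (rr (aa (bb (s3 590) (s3 567) ) (bb (s3 592) (s3 569) ) ) (aa (bb (s3 617) (s3 590) ) (bb (s3 619) (s3 592) ) ) ) (rr (aa (bb (s3 544) (s3 522) ) (bb (s3 546) (s3 523) ) ) (aa (bb (s3 563) (rr (s3 549) (s3 558) ) ) (bb (s3 565) (rr (s3 551) (s3 560) ) ) ) ) ) ) ) ) (bb (rr (aa (bb (s3 588) (s3 553) ) (bb (s3 594) (s3 558) ) ) (aa (bb (s3 649) (rr (s3 616) (s3 647) ) ) (bb (s3 655) (rr (s3 621) (s3 653) ) ) ) ) (rr (aa (bb (rr (s3 528) (aa (s3 549) (s3 552) ) ) (rr (aa (bb (s3 512) (s3 495) ) (bb (s3 514) (s3 497) ) ) (aa (bb (s3 530) (s3 510) ) (bb (s3 532) (s3 512) ) ) ) ) (bb (rr (s3 532) (s3 552) ) (rr (aa (bb (s3 517) (s3 499) ) (bb (s3 519) (s3 501) ) ) (aa (bb (s3 534) (s3 514) ) (bb (s3 537) (s3 516) ) ) ) ) ) (aa (bb (rr (aa (bb (s3 595) (s3 571) ) (bb (s3 597) (s3 574) ) ) (aa (bb (s3 621) (s3 594) ) (bb (s3 624) (s3 597) ) ) ) (rr (aa (bb (s3 548) (s3 525) ) (bb (s3 550) (s3 527) ) ) (aa (bb (s3 567) (rr (s3 553) (s3 562) ) ) (bb (s3 569) (rr (s3 555) (s3 564) ) ) ) ) ) (bb (rr (aa (bb (s3 600) (s3 576) ) (bb (s3 603) (s3 579) ) ) (aa (bb (s3 627) (s3 599) ) (bb (s3 630) (s3 602) ) ) ) (rr (aa (bb (s3 553) (s3 529) ) (bb (s3 555) (s3 532) ) ) (aa (bb (s3 572) (rr (s3 557) (s3 566) ) ) (bb (s3 574) (rr (s3 559) (s3 569) ) ) ) ) ) ) ) ) ) ) ) ) ) (rr (aa (bb (rr (aa (bb (s3 421) (rr (s3 412) (s3 433) ) ) (bb (s3 435) (rr (s3 424) (s3 446) ) ) ) (aa (bb (s3 474) (rr (s3 459) (s3 490) ) ) (bb (s3 490) (rr (s3 473) (s3 505) ) ) ) ) (rr (aa (bb (rr (aa (bb (s3 405) (s3 396) ) (bb (s3 410) (s3 402) ) ) (aa (bb (s3 425) (s3 415) ) (bb (s3 431) (s3 420) ) ) ) (rr (aa (bb (rr (s3 389) (s3 397) ) (rr (aa (bb (s3 385) (s3 380) ) (bb (s3 387) (s3 382) ) ) (aa (bb (s3 392) (s3 387) ) (bb (s3 395) (s3 389) ) ) ) ) (bb (rr (s3 394) (s3 402) ) (rr (aa (bb (s3 389) (s3 384) ) (bb (s3 392) (s3 387) ) ) (aa (bb (s3 397) (s3 391) ) (bb (s3 400) (s3 394) ) ) ) ) ) (aa (bb (rr (s3 406) (s3 415) ) (rr (aa (bb (s3 400) (s3 394) ) (bb (s3 403) (s3 397) ) ) (aa (bb (s3 409) (s3 402) ) (bb (s3 412) (s3 405) ) ) ) ) (bb (rr (s3 411) (s3 420) ) (rr (aa (bb (s3 405) (s3 399) ) (bb (s3 408) (s3 402) ) ) (aa (bb (s3 414) (s3 407) ) (bb (s3 417) (s3 410) ) ) ) ) ) ) ) (bb (rr (aa (bb (s3 417) (s3 408) ) (bb (s3 424) (s3 415) ) ) (aa (bb (s3 438) (s3 426) ) (bb (s3 445) (s3 434) ) ) ) (rr (aa (bb (rr (s3 399) (s3 408) ) (rr (aa (bb (s3 395) (s3 389) ) (bb (s3 398) (s3 392) ) ) (aa (bb (s3 403) (s3 397) ) (bb (s3 406) (s3 400) ) ) ) ) (bb (rr (s3 406) (s3 414) ) (rr (aa (bb (s3 401) (s3 395) ) (bb (s3 405) (s3 399) ) ) (aa (bb (s3 409) (s3 403) ) (bb (s3 412) (s3 406) ) ) ) ) ) (aa (bb (rr (s3 416) (s3 426) ) (rr (aa (bb (s3 411) (s3 404) ) (bb (s3 414) (s3 407) ) ) (aa (bb (s3 420) (s3 413) ) (bb (s3 423) (s3 416) ) ) ) ) (bb (rr (s3 423) (s3 433) ) (rr (aa (bb (s3 417) (s3 410) ) (bb (s3 421) (s3 414) ) ) (aa (bb (s3 426) (s3 419) ) (bb (s3 430) (s3 422) ) ) ) ) ) ) ) ) (aa (bb (rr (aa (bb (s3 449) (s3 436) ) (bb (s3 455) (s3 442) ) ) (aa (bb (s3 477) (s3 460) ) (bb (s3 483) (s3 466) ) ) ) (rr (aa (bb (rr (s3 425) (s3 435) ) (rr (aa (bb (s3 418) (s3 411) ) (s3 413) ) (aa (bb (s3 428) (s3 420) ) (s3 422) ) ) ) (bb (rr (s3 430) (s3 441) ) (rr (aa (s3 416) (s3 418) ) (aa (s3 425) (s3 427) ) ) ) ) (aa (bb (rr (s3 447) (s3 459) ) (rr (aa (bb (s3 439) (s3 430) ) (s3 432) ) (aa (bb (s3 450) (s3 440) ) (bb (s3 453) (s3 443) ) ) ) ) (bb (rr (s3 452) (s3 465) ) (rr (aa (s3 435) (s3 437) ) (aa (s3 445) (s3 448) ) ) ) ) ) ) (bb (rr (aa (bb (s3 462) (s3 448) ) (bb (s3 470) (s3 456) ) ) (aa (bb (s3 491) (s3 473) ) (bb (s3 499) (s3 481) ) ) ) (rr (aa (bb (rr (s3 436) (s3 447) ) (rr (aa (s3 421) (s3 424) ) (aa (s3 430) (s3 433) ) ) ) (bb (rr (s3 443) (s3 454) ) (rr (aa (s3 427) (bb (s3 440) (s3 431) ) ) (aa (s3 437) (s3 440) ) ) ) ) (aa (bb (rr (s3 458) (s3 471) ) (rr (aa (s3 440) (s3 443) ) (aa (s3 451) (s3 454) ) ) ) (bb (rr (s3 466) (s3 478) ) (rr (aa (s3 447) (s3 450) ) (aa (s3 457) (s3 461) ) ) ) ) ) ) ) ) ) (bb (rr (aa (bb (s3 452) (rr (s3 440) (s3 464) ) ) (bb (s3 475) (rr (aa (s3 462) (s3 475) ) (s3 486) ) ) ) (aa (bb (s3 510) (rr (s3 491) (s3 525) ) ) (bb (s3 536) (rr (s3 515) (s3 550) ) ) ) ) (rr (aa (bb (rr (aa (bb (s3 432) (s3 422) ) (bb (s3 442) (s3 431) ) ) (aa (bb (s3 454) (s3 442) ) (bb (s3 464) (s3 451) ) ) ) (rr (aa (bb (rr (s3 413) (s3 421) ) (rr (aa (bb (s3 408) (s3 402) ) (bb (s3 412) (s3 406) ) ) (aa (bb (s3 416) (s3 409) ) (bb (s3 420) (s3 413) ) ) ) ) (bb (rr (aa (s3 422) (s3 427) ) (s3 430) ) (rr (aa (bb (s3 416) (s3 409) ) (bb (s3 420) (s3 413) ) ) (aa (bb (s3 424) (s3 417) ) (bb (s3 428) (s3 421) ) ) ) ) ) (aa (bb (rr (s3 430) (s3 440) ) (rr (aa (bb (s3 425) (s3 417) ) (bb (s3 429) (s3 421) ) ) (aa (bb (s3 434) (s3 426) ) (bb (s3 438) (s3 429) ) ) ) ) (bb (rr (s3 439) (s3 449) ) (rr (aa (bb (s3 433) (s3 425) ) (bb (s3 437) (s3 429) ) ) (aa (bb (s3 442) (s3 433) ) (bb (s3 446) (s3 437) ) ) ) ) ) ) ) (bb (rr (aa (bb (s3 453) (s3 441) ) (bb (s3 465) (s3 452) ) ) (aa (bb (s3 475) (s3 461) ) (bb (s3 488) (s3 472) ) ) ) (rr (aa (bb (rr (aa (s3 431) (s3 436) ) (aa (s3 440) (s3 445) ) ) (rr (aa (bb (s3 425) (s3 418) ) (bb (s3 430) (s3 422) ) ) (aa (bb (s3 433) (s3 425) ) (bb (s3 438) (s3 430) ) ) ) ) (bb (rr (aa (s3 442) s1 ) (aa (s3 451) s1 ) ) (rr (aa (bb s1 (s3 427) ) (bb s1 s1 ) ) (aa (bb (s3 443) (s3 434) ) (bb s1 (s3 439) ) ) ) ) ) (aa (bb (rr (s3 448) (s3 458) ) (rr (aa (bb (s3 442) (s3 433) ) (bb (s3 446) (s3 438) ) ) (aa (bb (s3 451) (s3 442) ) (bb (s3 456) (s3 446) ) ) ) ) (bb (rr (aa (s3 460) (s3 466) ) (s3 468) ) (rr (aa (bb (s3 452) (s3 442) ) (bb (s3 457) (s3 447) ) ) (aa (bb (s3 461) (s3 451) ) (bb (s3 466) (s3 456) ) ) ) ) ) ) ) ) (aa (bb (rr (aa (bb (s3 479) (s3 464) ) (bb (s3 490) (s3 474) ) ) (aa (bb (s3 509) (s3 490) ) (bb (s3 520) (s3 500) ) ) ) (rr (aa (bb (rr (s3 450) (s3 462) ) (rr (aa (bb (s3 443) (s3 434) ) (bb (s3 447) (s3 438) ) ) (aa (s3 444) (s3 447) ) ) ) (bb (rr (s3 459) (s3 470) ) (rr (aa (bb (s3 452) (s3 442) ) (bb (s3 456) (s3 446) ) ) (aa (bb (s3 462) (s3 452) ) (bb (s3 467) (s3 456) ) ) ) ) ) (aa (bb (rr (s3 473) (s3 486) ) (rr (aa (s3 454) (s3 457) ) (aa (s3 464) (s3 468) ) ) ) (bb (rr (s3 482) (s3 495) ) (rr (aa (bb (s3 473) (s3 462) ) (bb (s3 478) (s3 466) ) ) (aa (bb (s3 485) (s3 473) ) (bb (s3 490) (s3 477) ) ) ) ) ) ) ) (bb (rr (aa (bb (s3 502) (s3 484) ) (bb (s3 515) (s3 496) ) ) (aa (bb (s3 533) (s3 511) ) (bb (s3 547) (s3 523) ) ) ) (rr (aa (bb (rr (s3 468) (s3 480) ) (rr (aa (bb (s3 461) (s3 451) ) (bb (s3 466) (s3 455) ) ) (aa (bb (s3 471) (s3 460) ) (bb (s3 476) (s3 465) ) ) ) ) (bb (rr (s3 479) (s3 490) ) (rr (aa (bb (s3 471) (s3 460) ) (bb (s3 476) (s3 465) ) ) (aa (bb (s3 482) (s3 470) ) (bb (s3 487) (s3 474) ) ) ) ) ) (aa (bb (rr (s3 492) (s3 505) ) (rr (aa (bb (s3 483) (s3 471) ) (bb (s3 488) (s3 475) ) ) (aa (bb (s3 495) (s3 481) ) (bb (s3 500) (s3 486) ) ) ) ) (bb (rr (s3 503) (s3 516) ) (rr (aa (bb (s3 493) (s3 480) ) (bb (s3 499) (s3 485) ) ) (aa (bb (s3 505) (s3 491) ) (bb (s3 511) (s3 496) ) ) ) ) ) ) ) ) ) ) ) (aa (bb (rr (aa (bb (s3 553) (rr (s3 527) (s3 574) ) ) (bb (s3 571) (rr (s3 544) (s3 591) ) ) ) (aa (bb (s3 681) (rr (s3 633) (s3 709) ) ) (bb (s3 704) (rr (s3 652) (s3 731) ) ) ) ) (rr (aa (bb (rr (aa (bb (s3 510) (s3 489) ) (bb (s3 517) (s3 496) ) ) (aa (bb (s3 551) (s3 524) ) (bb (s3 558) (s3 530) ) ) ) (rr (aa (bb (rr (s3 472) (s3 487) ) (rr (aa (bb (s3 463) (s3 451) ) (bb (s3 465) (s3 454) ) ) (aa (bb (s3 476) (s3 463) ) (bb (s3 479) (s3 466) ) ) ) ) (bb (rr (s3 478) (s3 493) ) (rr (aa (bb (s3 468) (s3 457) ) (bb (s3 471) (s3 459) ) ) (aa (bb (s3 482) (s3 469) ) (bb (s3 485) (s3 471) ) ) ) ) ) (aa (bb (rr (s3 502) (s3 519) ) (rr (aa (bb (s3 490) (s3 476) ) (bb (s3 493) (s3 479) ) ) (aa (bb (s3 506) (s3 489) ) (bb (s3 508) (s3 492) ) ) ) ) (bb (rr (s3 508) (s3 525) ) (rr (aa (bb (s3 496) (s3 481) ) (bb (s3 499) (s3 484) ) ) (aa (bb (s3 511) (s3 495) ) (bb (s3 515) (s3 498) ) ) ) ) ) ) ) (bb (rr (aa (bb (s3 525) (s3 503) ) (bb (s3 535) (s3 511) ) ) (aa (bb (s3 567) (s3 538) ) (bb (s3 577) (s3 547) ) ) ) (rr (aa (bb (rr (s3 485) (s3 499) ) (rr (aa (bb (s3 475) (s3 462) ) (s3 465) ) (aa (bb (s3 488) (s3 474) ) (bb (s3 491) (s3 478) ) ) ) ) (bb (rr (s3 492) (s3 507) ) (rr (aa (bb (s3 482) (s3 469) ) (bb (s3 485) (s3 473) ) ) (aa (bb (s3 495) (s3 481) ) (bb (s3 499) (s3 485) ) ) ) ) ) (aa (bb (rr (s3 515) (s3 532) ) (rr (aa (bb (s3 502) (s3 487) ) (bb (s3 506) (s3 491) ) ) (aa (bb (s3 518) (s3 501) ) (bb (s3 522) (s3 504) ) ) ) ) (bb (rr (s3 523) (s3 540) ) (rr (aa (bb (s3 510) (s3 494) ) (bb (s3 514) (s3 498) ) ) (aa (bb (s3 525) (s3 508) ) (bb (s3 530) (s3 511) ) ) ) ) ) ) ) ) (aa (bb (rr (aa (bb (s3 601) (s3 564) ) (bb (s3 609) (s3 571) ) ) (aa (bb (s3 663) (rr (s3 628) (s3 660) ) ) (bb (s3 672) (rr (s3 636) (s3 668) ) ) ) ) (rr (aa (bb (rr (s3 538) (s3 558) ) (rr (aa (bb (s3 522) (s3 504) ) (bb (s3 525) (s3 506) ) ) (aa (bb (s3 539) (s3 519) ) (bb (s3 542) (s3 521) ) ) ) ) (bb (rr (s3 544) (s3 564) ) (rr (aa (bb (s3 528) (s3 509) ) (bb (s3 531) (s3 512) ) ) (aa (bb (s3 546) (s3 524) ) (bb (s3 549) (s3 527) ) ) ) ) ) (aa (bb (rr (aa (bb (s3 606) (s3 582) ) (bb (s3 610) (s3 585) ) ) (aa (bb (s3 634) (s3 605) ) (bb (s3 638) (s3 609) ) ) ) (rr (aa (bb (s3 558) (s3 534) ) (bb (s3 561) (s3 537) ) ) (aa (bb (s3 577) (rr (s3 562) (s3 571) ) ) (bb (s3 580) (rr (s3 565) (s3 574) ) ) ) ) ) (bb (rr (aa (s3 588) (s3 592) ) (aa (bb (s3 642) (s3 612) ) (bb (s3 646) (s3 616) ) ) ) (rr (aa (bb (s3 564) (s3 540) ) (bb (s3 568) (s3 543) ) ) (aa (bb (s3 584) (rr (s3 568) (s3 577) ) ) (bb (s3 587) (rr (s3 571) (s3 580) ) ) ) ) ) ) ) ) (bb (rr (aa (bb (s3 619) (s3 579) ) (bb (s3 630) (s3 589) ) ) (aa (bb (s3 682) (rr (s3 645) (s3 677) ) ) (bb (s3 694) (s3 637) ) ) ) (rr (aa (bb (rr (s3 551) (s3 571) ) (rr (aa (bb (s3 535) (s3 515) ) (bb (s3 538) (s3 519) ) ) (aa (bb (s3 553) (s3 531) ) (bb (s3 556) (s3 534) ) ) ) ) (bb (rr (s3 559) (s3 579) ) (rr (aa (bb (s3 542) (s3 522) ) (bb (s3 546) (s3 526) ) ) (aa (bb (s3 560) (s3 538) ) (bb (s3 565) (s3 541) ) ) ) ) ) (aa (bb (rr (aa (s3 596) (s3 600) ) (aa (bb (s3 650) (s3 620) ) (bb (s3 655) (s3 625) ) ) ) (rr (aa (bb (s3 571) (s3 546) ) (bb (s3 575) (s3 550) ) ) (aa (bb (s3 591) (s3 562) ) (bb (s3 595) (s3 566) ) ) ) ) (bb (rr (aa (s3 605) (s3 609) ) (aa (bb (s3 660) (s3 629) ) (bb (s3 666) (s3 634) ) ) ) (rr (aa (bb (s3 579) (s3 554) ) (bb (s3 584) (s3 557) ) ) (aa (bb (s3 599) (s3 570) ) (bb (s3 603) (s3 574) ) ) ) ) ) ) ) ) ) ) (bb (rr (aa (bb (s3 596) (rr (s3 565) (s3 615) ) ) (bb (s3 627) (rr (s3 592) (s3 644) ) ) ) (aa (bb (s3 735) (rr (s3 678) (s3 759) ) ) (bb (s3 775) (rr (s3 710) (s3 795) ) ) ) ) (rr (aa (bb (rr (aa (bb (s3 545) (s3 521) ) (bb (s3 557) (s3 531) ) ) (aa (bb (s3 588) (s3 557) ) (bb (s3 601) (s3 568) ) ) ) (rr (aa (bb (rr (s3 500) (s3 515) ) (rr (aa (bb (s3 490) (s3 476) ) (bb (s3 494) (s3 480) ) ) (aa (bb (s3 503) (s3 488) ) (bb (s3 508) (s3 492) ) ) ) ) (bb (rr (s3 509) (s3 524) ) (rr (aa (bb (s3 498) (s3 484) ) (bb (s3 503) (s3 489) ) ) (aa (bb (s3 512) (s3 497) ) (bb (s3 517) (s3 501) ) ) ) ) ) (aa (bb (rr (s3 531) (s3 549) ) (rr (aa (bb (s3 518) (s3 501) ) (bb (s3 522) (s3 506) ) ) (aa (bb (s3 534) (s3 515) ) (bb (s3 538) (s3 519) ) ) ) ) (bb (rr (s3 541) (s3 558) ) (rr (aa (bb (s3 527) (s3 510) ) (bb (s3 532) (s3 514) ) ) (aa (bb (s3 543) (s3 524) ) (bb (s3 548) (s3 528) ) ) ) ) ) ) ) (bb (rr (aa (bb (s3 570) (s3 543) ) (bb (s3 585) (s3 556) ) ) (aa (bb (s3 615) (s3 580) ) (bb (s3 631) (s3 593) ) ) ) (rr (aa (bb (rr (s3 519) (s3 534) ) (rr (aa (bb (s3 508) (s3 493) ) (bb (s3 513) (s3 498) ) ) (aa (bb (s3 522) (s3 505) ) (bb (s3 527) (s3 510) ) ) ) ) (bb (rr (s3 530) (s3 545) ) (rr (aa (bb (s3 518) (s3 502) ) (bb (s3 524) (s3 507) ) ) (aa (bb (s3 533) (s3 515) ) (bb (s3 538) (s3 520) ) ) ) ) ) (aa (bb (rr (s3 551) (s3 569) ) (rr (aa (bb (s3 537) (s3 519) ) (bb (s3 542) (s3 523) ) ) (aa (bb (s3 553) (s3 533) ) (bb (s3 558) (s3 537) ) ) ) ) (bb (rr (s3 562) (s3 580) ) (rr (aa (bb (s3 548) (s3 528) ) (bb (s3 553) (s3 533) ) ) (aa (bb (s3 564) (s3 542) ) (bb (s3 570) (s3 547) ) ) ) ) ) ) ) ) (aa (bb (rr (aa (bb (s3 642) (s3 599) ) (bb (s3 656) (s3 611) ) ) (aa (bb (s3 708) (s3 649) ) (bb (s3 723) (s3 661) ) ) ) (rr (aa (bb (rr (s3 568) (s3 588) ) (rr (aa (bb (s3 551) (s3 530) ) (bb (s3 555) (s3 534) ) ) (aa (bb (s3 569) (s3 545) ) (bb (s3 574) (s3 550) ) ) ) ) (bb (rr (s3 577) (s3 598) ) (rr (aa (bb (s3 560) (s3 538) ) (bb (s3 565) (s3 543) ) ) (aa (bb (s3 578) (s3 554) ) (bb (s3 584) (s3 558) ) ) ) ) ) (aa (bb (rr (aa (s3 614) (bb (s3 649) (s3 621) ) ) (aa (bb (s3 672) (s3 639) ) (bb (s3 678) (s3 645) ) ) ) (rr (aa (bb (s3 588) (s3 561) ) (bb (s3 593) (s3 566) ) ) (aa (bb (s3 608) (s3 578) ) (bb (s3 613) (s3 582) ) ) ) ) (bb (rr (aa (bb (s3 655) (s3 626) ) (bb (s3 662) (s3 632) ) ) (aa (bb (s3 684) (s3 651) ) (bb (s3 691) (s3 657) ) ) ) (rr (aa (bb (s3 598) (s3 570) ) (bb (s3 603) (s3 575) ) ) (aa (bb (s3 618) (s3 586) ) (bb (s3 623) (s3 591) ) ) ) ) ) ) ) (bb (rr (aa (bb (s3 671) (s3 624) ) (bb (s3 688) (s3 638) ) ) (aa (bb (s3 739) (s3 675) ) (bb (s3 758) (s3 690) ) ) ) (rr (aa (bb (rr (s3 588) (aa (s3 614) (s3 620) ) ) (rr (aa (bb (s3 570) (s3 547) ) (bb (s3 576) (s3 552) ) ) (aa (bb (s3 589) (s3 563) ) (bb (s3 594) (s3 568) ) ) ) ) (bb (rr (s3 599) (aa (s3 626) (bb (s3 663) (s3 634) ) ) ) (rr (aa (bb (s3 581) (s3 557) ) (bb (s3 587) (s3 562) ) ) (aa (bb (s3 600) (s3 573) ) (bb (s3 606) (s3 577) ) ) ) ) ) (aa (bb (rr (aa (bb (s3 668) (s3 638) ) (bb (s3 675) (s3 644) ) ) (aa (bb (s3 698) (s3 663) ) (bb (s3 705) (s3 669) ) ) ) (rr (aa (bb (s3 608) (s3 579) ) (bb (s3 614) (s3 584) ) ) (aa (bb (s3 629) (rr (s3 608) (aa (bb (s3 640) (s3 623) ) (bb (s3 643) (s3 625) ) ) ) ) (bb (s3 634) (rr (aa (bb (s3 634) (s3 618) ) (bb (s3 637) (s3 621) ) ) (aa (bb (s3 646) (s3 628) ) (bb (s3 649) (s3 631) ) ) ) ) ) ) ) (bb (rr (aa (bb (s3 683) (s3 651) ) (bb (s3 691) (s3 658) ) ) (aa (bb (s3 713) (s3 676) ) (bb (s3 721) (s3 683) ) ) ) (rr (aa (bb (s3 620) (s3 589) ) (bb (s3 626) (s3 594) ) ) (aa (bb (s3 640) (rr (aa (bb (s3 640) (s3 623) ) (bb (s3 643) (s3 626) ) ) (aa (bb (s3 652) (s3 634) ) (bb (s3 655) (s3 636) ) ) ) ) (bb (s3 646) (rr (aa (bb (s3 646) (s3 629) ) (bb (s3 649) (s3 632) ) ) (aa (bb (s3 658) (s3 639) ) (bb (s3 661) (s3 642) ) ) ) ) ) ) ) ) ) ) ) ) ) ) ) ) ) ) (rr (aa (aa (bb (rr (aa s1 s1 ) (rr (aa s1 s1 ) (aa s1 s1 ) ) ) (rr (aa (bb s1 (aa s1 s1 ) ) (bb s1 (aa s1 (bb s1 s1 ) ) ) ) (rr (aa (bb (rr s1 s1 ) (rr (aa s1 s1 ) (aa s1 s1 ) ) ) (bb s1 (rr (aa s1 (bb s1 s1 ) ) (aa s1 (bb s1 (rr s1 s1 ) ) ) ) ) ) (aa (bb (rr (aa s1 s1 ) (aa s1 s1 ) ) (rr (aa (bb s1 s1 ) s1 ) (aa (bb s1 s1 ) (bb s1 s1 ) ) ) ) (bb (rr s1 (aa s1 s1 ) ) (rr (aa (bb s1 s1 ) (bb s1 (rr (aa s1 s1 ) (aa s1 s1 ) ) ) ) (aa (bb s1 s1 ) (bb s1 (rr (aa s1 s1 ) (aa s1 s1 ) ) ) ) ) ) ) ) ) ) (bb (rr (aa s1 s1 ) (rr (aa s1 s1 ) (aa s1 s1 ) ) ) (rr (aa (bb s1 (aa (bb s1 s1 ) s1 ) ) (bb (aa s1 s1 ) (aa s1 s1 ) ) ) (rr (aa (bb (rr s1 s1 ) (rr (aa (bb s1 s1 ) s1 ) (aa (bb s1 s1 ) s1 ) ) ) (bb (rr (aa s1 s1 ) (aa s1 s1 ) ) (rr (aa s1 s1 ) (aa s1 s1 ) ) ) ) (aa (bb (rr (aa s1 s1 ) (aa s1 s1 ) ) (rr (aa (bb s1 s1 ) s1 ) (aa (bb s1 s1 ) s1 ) ) ) (bb (rr (aa s1 s1 ) (aa s1 s1 ) ) (rr (aa s1 s1 ) (aa s1 s1 ) ) ) ) ) ) ) ) (aa (bb (rr (aa (bb s1 s1 ) (bb s1 (aa s1 s1 ) ) ) (rr (aa (bb s1 (rr s1 (aa s1 s1 ) ) ) (bb s1 (rr (aa s1 s1 ) (aa s1 s1 ) ) ) ) (aa (bb s1 (rr (aa s1 s1 ) (aa s1 s1 ) ) ) (bb s1 (rr (aa s1 s1 ) (aa s1 s1 ) ) ) ) ) ) (rr (aa (bb (aa s1 s1 ) em ) (bb (aa s1 em ) em ) ) (rr (aa (bb (rr (aa s1 s1 ) (aa s1 s1 ) ) em ) (bb (rr (aa s1 em ) (aa s1 em ) ) em ) ) (aa (bb (rr (aa s1 s1 ) (aa s1 s1 ) ) em ) (bb (rr (aa s1 em ) (aa s1 em ) ) em ) ) ) ) ) hi ) ) (rr (aa (rr (aa (bb (aa (bb s1 (rr s1 (aa s1 s1 ) ) ) s1 ) (aa (bb (rr (aa s1 s1 ) (aa s1 s1 ) ) (rr (aa (bb s1 s1 ) (bb s1 s1 ) ) (aa (bb s1 (rr s1 (rr s1 (aa s1 s1 ) ) ) ) (bb s1 (rr s1 s1 ) ) ) ) ) (bb (rr (aa s1 s1 ) (aa s1 s1 ) ) (rr (aa (bb s1 s1 ) (bb s1 (rr (aa s1 s1 ) (aa s1 s1 ) ) ) ) (aa (bb s1 (rr s1 s1 ) ) (bb s1 (rr (aa s1 s1 ) (rr (aa s1 s1 ) (aa s1 s1 ) ) ) ) ) ) ) ) ) (bb (aa s1 s1 ) (aa (bb (rr (aa s1 s1 ) (aa s1 s1 ) ) (rr (aa (bb s1 s1 ) (bb s1 s1 ) ) (aa (bb s1 s1 ) (bb s1 s1 ) ) ) ) (bb (rr (aa s1 s1 ) (aa s1 s1 ) ) (rr (aa s1 s1 ) (aa s1 s1 ) ) ) ) ) ) (aa (bb (rr (aa (bb s1 (rr (aa s1 s1 ) (aa s1 s1 ) ) ) s1 ) (aa (bb (rr s1 (s3 480) ) (rr (aa s1 s1 ) (aa s1 s1 ) ) ) (bb s1 (rr s1 s1 ) ) ) ) (rr (aa (bb (rr (aa s1 s1 ) (aa s1 s1 ) ) (rr (aa (bb s1 (rr (aa s1 s1 ) (aa s1 s1 ) ) ) (bb s1 (rr s1 (aa s1 s1 ) ) ) ) (aa (bb s1 (rr (aa s1 s1 ) (aa s1 s1 ) ) ) (bb s1 (rr (aa s1 s1 ) (aa s1 s1 ) ) ) ) ) ) (bb (rr (aa s1 s1 ) (aa s1 s1 ) ) (rr (aa (bb s1 (rr s1 s1 ) ) (bb s1 (rr (aa s1 s1 ) (aa s1 s1 ) ) ) ) (aa (bb s1 (rr (aa s1 s1 ) (aa s1 s1 ) ) ) (bb s1 (rr (aa s1 s1 ) (aa s1 s1 ) ) ) ) ) ) ) (aa (bb (rr (aa (bb s1 s1 ) s1 ) (aa (bb s1 s1 ) s1 ) ) (rr (aa (bb (rr s1 (aa s1 s1 ) ) (rr (aa s1 s1 ) (aa s1 s1 ) ) ) (bb s1 (rr (aa s1 s1 ) (aa s1 s1 ) ) ) ) (aa (bb (rr (aa s1 s1 ) (aa s1 s1 ) ) (rr (aa s1 s1 ) (aa (bb s1 s1 ) s1 ) ) ) (bb s1 (rr (aa s1 s1 ) (aa s1 s1 ) ) ) ) ) ) (bb (rr (aa s1 s1 ) (aa s1 s1 ) ) (rr (aa (bb s1 (rr (aa s1 s1 ) (aa s1 s1 ) ) ) (bb s1 (rr (aa s1 s1 ) (aa s1 s1 ) ) ) ) (aa (bb s1 (rr (aa s1 s1 ) (aa s1 s1 ) ) ) (bb s1 (rr (aa s1 s1 ) (aa s1 s1 ) ) ) ) ) ) ) ) ) (bb (rr (aa s1 s1 ) (aa s1 s1 ) ) (rr (aa (bb (rr (aa s1 s1 ) (aa s1 s1 ) ) (rr (aa (bb s1 s1 ) (bb s1 s1 ) ) (aa (bb s1 (rr s1 s1 ) ) (bb s1 s1 ) ) ) ) (bb (rr (aa s1 s1 ) (aa s1 s1 ) ) (rr (aa s1 s1 ) (aa s1 s1 ) ) ) ) (aa (bb (rr (aa s1 s1 ) (aa s1 s1 ) ) (rr (aa (bb s1 (rr (aa s1 s1 ) (aa s1 s1 ) ) ) (bb s1 s1 ) ) (aa (bb s1 (rr (aa s1 s1 ) (aa s1 s1 ) ) ) (bb s1 s1 ) ) ) ) (bb (rr (aa s1 s1 ) (aa s1 s1 ) ) (rr (aa s1 s1 ) (aa s1 s1 ) ) ) ) ) ) ) ) (rr (aa (bb (aa (bb s1 (rr (aa s1 s1 ) (aa s1 s1 ) ) ) (bb s1 (rr (aa s1 s1 ) (aa s1 s1 ) ) ) ) (aa (bb (rr (aa s1 s1 ) (aa s1 s1 ) ) em ) (bb (rr (aa s1 em ) (aa s1 em ) ) em ) ) ) hi ) (aa (bb (rr (aa (bb s1 (rr (aa s1 s1 ) (aa s1 s1 ) ) ) (bb s1 (rr (aa s1 s1 ) (aa s1 s1 ) ) ) ) (aa (bb s1 (rr (aa s1 s1 ) (aa s1 s1 ) ) ) (bb s1 (rr (aa s1 s1 ) (aa s1 s1 ) ) ) ) ) (rr (aa (bb (rr (aa s1 s1 ) (aa s1 s1 ) ) em ) (bb (rr (aa s1 em ) (aa s1 em ) ) em ) ) (aa (bb (rr (aa s1 s1 ) (aa s1 s1 ) ) em ) (bb (rr (aa s1 em ) (aa s1 em ) ) em ) ) ) ) hi ) ) ) (aa (rr (aa (bb (rr (aa (bb (s3 505) (rr (aa s1 s1 ) (s3 515) ) ) (bb (s3 544) (rr (aa s1 s1 ) (aa s1 s1 ) ) ) ) (aa (bb (s3 571) (rr (s3 545) (s3 582) ) ) (bb (s3 616) (rr (s3 584) (s3 623) ) ) ) ) (rr (aa (bb (rr (aa (bb s1 (s3 464) ) (bb s1 s1 ) ) (aa (bb (s3 502) (s3 485) ) (bb s1 (s3 499) ) ) ) (rr (aa (bb (rr (aa s1 s1 ) (aa s1 s1 ) ) (rr (aa (bb s1 s1 ) s1 ) (aa (bb s1 s1 ) (bb s1 s1 ) ) ) ) (bb (rr s1 (aa s1 s1 ) ) (rr (aa s1 s1 ) (aa s1 s1 ) ) ) ) (aa (bb (rr (aa s1 s1 ) (aa (s3 482) s1 ) ) (rr (aa (bb s1 (s3 452) ) (bb s1 s1 ) ) (aa (bb s1 (s3 461) ) (bb s1 s1 ) ) ) ) (bb (rr (aa s1 s1 ) (aa s1 s1 ) ) (rr (aa s1 s1 ) (aa (bb s1 s1 ) s1 ) ) ) ) ) ) (bb (rr (aa s1 s1 ) (aa s1 s1 ) ) (rr (aa (bb s1 (rr (aa s1 s1 ) (aa s1 s1 ) ) ) (bb s1 (rr (aa s1 s1 ) (aa s1 (bb s1 s1 ) ) ) ) ) (aa (bb (rr s1 s1 ) (rr (aa s1 s1 ) (aa s1 s1 ) ) ) (bb s1 (rr (aa s1 (bb s1 s1 ) ) (aa s1 (bb s1 s1 ) ) ) ) ) ) ) ) (aa (bb (rr (aa (bb (s3 530) (s3 509) ) (bb s1 (s3 524) ) ) (aa (bb (s3 563) (s3 537) ) (bb (s3 580) (s3 552) ) ) ) (rr (aa (bb (rr (aa (s3 493) s1 ) (s3 502) ) (rr (aa (bb (s3 482) (s3 470) ) (bb s1 (s3 475) ) ) (aa (bb (s3 493) (s3 479) ) (bb (s3 498) (s3 485) ) ) ) ) (bb (rr (aa s1 s1 ) (aa s1 s1 ) ) (rr (aa (bb s1 s1 ) (bb s1 s1 ) ) (aa (bb s1 s1 ) (bb s1 s1 ) ) ) ) ) (aa (bb (rr (s3 514) (s3 527) ) (rr (aa (bb (s3 504) (s3 490) ) (bb (s3 510) (s3 495) ) ) (aa (bb (s3 516) (s3 501) ) (bb (s3 522) (s3 506) ) ) ) ) (bb (rr (aa (s3 531) s1 ) (aa (s3 544) s1 ) ) (rr (aa (bb s1 (s3 500) ) (bb s1 s1 ) ) (aa (bb (s3 528) (s3 511) ) (bb s1 (s3 515) ) ) ) ) ) ) ) (bb (rr (aa (bb s1 s1 ) s1 ) (aa (bb s1 (s3 569) ) (bb s1 s1 ) ) ) (rr (aa (bb (rr (aa s1 s1 ) (aa s1 s1 ) ) (rr (aa s1 s1 ) (aa (bb s1 s1 ) s1 ) ) ) (bb (rr s1 s1 ) (rr (aa s1 (bb s1 s1 ) ) (aa s1 (bb s1 s1 ) ) ) ) ) (aa (bb (rr (aa s1 s1 ) (aa s1 s1 ) ) (rr (aa (bb s1 s1 ) (bb s1 s1 ) ) (aa (bb s1 s1 ) (bb s1 s1 ) ) ) ) (bb (rr (aa s1 s1 ) (aa s1 s1 ) ) (rr (aa (bb s1 s1 ) (bb s1 s1 ) ) (aa (bb s1 s1 ) (bb s1 s1 ) ) ) ) ) ) ) ) ) ) (bb (rr (aa (bb s1 s1 ) s1 ) (aa (bb s1 (rr (aa s1 s1 ) (aa s1 s1 ) ) ) (bb s1 (rr s1 s1 ) ) ) ) (rr (aa (bb (rr (aa s1 s1 ) (aa s1 s1 ) ) (rr (aa (bb s1 (rr (aa s1 s1 ) (aa s1 s1 ) ) ) (bb s1 s1 ) ) (aa (bb s1 (rr (aa s1 s1 ) (aa s1 s1 ) ) ) (bb (rr s1 s1 ) s1 ) ) ) ) (bb (rr (aa (bb s1 s1 ) s1 ) (aa (bb s1 s1 ) s1 ) ) (rr (aa s1 s1 ) (aa s1 s1 ) ) ) ) (aa (bb (rr (aa s1 s1 ) (aa s1 s1 ) ) (rr (aa (bb (rr s1 (aa s1 s1 ) ) (rr (aa s1 s1 ) (aa s1 s1 ) ) ) (bb (rr (aa s1 s1 ) (aa s1 s1 ) ) s1 ) ) (aa (bb (rr (aa s1 s1 ) (aa s1 s1 ) ) (rr (aa s1 s1 ) (aa (bb s1 s1 ) s1 ) ) ) (bb (rr (aa s1 s1 ) (aa s1 s1 ) ) s1 ) ) ) ) (bb (rr (aa (bb s1 s1 ) s1 ) (aa (bb s1 s1 ) s1 ) ) (rr (aa s1 s1 ) (aa s1 s1 ) ) ) ) ) ) ) (aa (bb (rr (aa (bb (s3 668) (rr (s3 626) (s3 681) ) ) (bb (s3 722) (rr (s3 670) (s3 728) ) ) ) (aa (bb (s3 827) (rr (s3 751) (s3 839) ) ) (bb (s3 896) (rr (s3 801) (s3 894) ) ) ) ) (rr (aa (bb (rr (aa (bb (s3 602) (s3 570) ) (bb (s3 621) (s3 585) ) ) (aa (bb (s3 649) (s3 608) ) (bb (s3 669) (s3 624) ) ) ) (rr (aa (bb (rr (s3 542) (s3 557) ) (rr (aa (bb (s3 530) (s3 512) ) (bb (s3 536) (s3 517) ) ) (aa (bb (s3 544) (s3 525) ) (bb (s3 550) (s3 530) ) ) ) ) (bb (rr (aa (s3 559) (s3 566) ) (aa (s3 575) (s3 582) ) ) (rr (aa (bb (s3 542) (s3 522) ) (bb s1 (s3 527) ) ) (aa (bb (s3 556) (s3 534) ) (bb (s3 562) (s3 539) ) ) ) ) ) (aa (bb (rr (s3 574) (s3 592) ) (rr (aa (bb (s3 559) (s3 538) ) (bb (s3 565) (s3 543) ) ) (aa (bb (s3 575) (s3 552) ) (bb (s3 581) (s3 557) ) ) ) ) (bb (rr (aa (s3 593) (s3 600) ) (aa (s3 611) (s3 618) ) ) (rr (aa (bb (s3 571) (s3 547) ) (bb (s3 577) (s3 552) ) ) (aa (bb (s3 587) (s3 561) ) (bb (s3 593) (s3 566) ) ) ) ) ) ) ) (bb (rr (aa (bb (s3 641) (s3 602) ) (bb s1 (s3 620) ) ) (aa (bb (s3 691) (s3 641) ) (bb (s3 715) (s3 659) ) ) ) (rr (aa (bb (rr (aa s1 s1 ) (aa (s3 589) s1 ) ) (rr (aa (bb s1 s1 ) (bb s1 s1 ) ) (aa (bb s1 (s3 543) ) (bb s1 s1 ) ) ) ) (bb (rr (aa s1 s1 ) (aa s1 s1 ) ) (rr (aa (bb s1 s1 ) (bb s1 (rr s1 s1 ) ) ) (aa (bb s1 s1 ) (bb s1 (rr (aa s1 s1 ) (aa s1 s1 ) ) ) ) ) ) ) (aa (bb (rr (aa (s3 606) s1 ) (aa (bb s1 (s3 627) ) (bb s1 s1 ) ) ) (rr (aa (bb (s3 582) (s3 556) ) (bb s1 (rr s1 (aa s1 s1 ) ) ) ) (aa (bb (s3 599) (s3 569) ) (bb s1 (rr (aa s1 s1 ) (aa s1 s1 ) ) ) ) ) ) (bb (rr (aa s1 s1 ) (aa s1 s1 ) ) (rr (aa (bb s1 (rr s1 s1 ) ) (bb s1 (rr (aa s1 s1 ) (aa s1 s1 ) ) ) ) (aa (bb s1 (rr s1 (aa s1 s1 ) ) ) (bb s1 (rr (aa s1 s1 ) (aa s1 s1 ) ) ) ) ) ) ) ) ) ) (aa (bb (rr (aa (bb (s3 707) (s3 653) ) (bb (s3 729) (s3 670) ) ) (aa (bb (s3 779) (s3 706) ) (bb (s3 802) (rr (s3 742) (aa (bb (s3 833) (s3 790) ) (bb (s3 845) (s3 800) ) ) ) ) ) ) (rr (aa (bb (rr (aa (s3 618) (s3 625) ) (aa (bb (s3 671) (s3 641) ) (bb (s3 679) (s3 648) ) ) ) (rr (aa (bb (s3 593) (s3 567) ) (bb (s3 599) (s3 571) ) ) (aa (bb (s3 612) (s3 582) ) (bb (s3 618) (s3 587) ) ) ) ) (bb (rr (aa (bb (s3 662) (s3 633) ) (bb (s3 670) (s3 641) ) ) (aa (bb (s3 688) (s3 656) ) (bb (s3 696) (s3 663) ) ) ) (rr (aa (bb (s3 605) (s3 576) ) (bb (s3 611) (s3 580) ) ) (aa (bb (s3 623) (s3 591) ) (bb (s3 629) (rr (aa (s3 610) (s3 612) ) (aa (bb (s3 638) (s3 621) ) (bb (s3 641) (s3 623) ) ) ) ) ) ) ) ) (aa (bb (rr (aa (bb (s3 699) (s3 665) ) (bb (s3 707) (s3 672) ) ) (aa (bb (s3 729) (s3 690) ) (bb (s3 738) (s3 698) ) ) ) (rr (aa (bb (s3 631) (s3 599) ) (bb (s3 637) (rr (aa (bb (s3 637) (s3 620) ) (bb (s3 640) (s3 623) ) ) (aa (bb (s3 647) (s3 630) ) (bb (s3 650) (s3 633) ) ) ) ) ) (aa (bb (s3 652) (rr (aa (bb (s3 652) (s3 635) ) (bb (s3 656) (s3 637) ) ) (aa (bb (s3 664) (s3 645) ) (bb (s3 667) (s3 648) ) ) ) ) (bb (rr (aa (bb (s3 696) (s3 677) ) (bb (s3 700) (s3 681) ) ) (aa (bb (s3 711) (s3 690) ) (bb (s3 714) (s3 694) ) ) ) (rr (aa (bb (s3 659) (s3 640) ) (bb (s3 662) (s3 643) ) ) (aa (bb (s3 670) (s3 650) ) (bb (s3 673) (rr (aa (bb (s3 674) (s3 664) ) (bb (s3 675) (s3 665) ) ) (aa (bb (s3 679) (s3 669) ) (bb (s3 679) (s3 669) ) ) ) ) ) ) ) ) ) ) (bb (rr (aa (bb (s3 716) (s3 679) ) (bb (s3 725) (s3 687) ) ) (aa (bb (s3 747) (s3 705) ) (bb (s3 756) (rr (aa (bb (s3 753) (s3 732) ) (bb (s3 758) (s3 736) ) ) (aa (bb (s3 770) (s3 748) ) (bb (s3 775) (rr (aa (bb s1 s1 ) s1 ) (aa (bb (s3 778) (s3 764) ) (bb s1 s1 ) ) ) ) ) ) ) ) ) (rr (aa (bb (s3 643) (rr (aa (bb (s3 643) (s3 625) ) (bb (s3 646) (s3 628) ) ) (aa (bb (s3 653) (s3 635) ) (bb (s3 656) (s3 638) ) ) ) ) (bb (s3 649) (rr (aa (bb (s3 648) (s3 630) ) (bb (s3 651) (s3 633) ) ) (aa (bb (s3 659) (s3 640) ) (bb (s3 662) (s3 642) ) ) ) ) ) (aa (bb (rr (aa (bb (s3 704) (s3 684) ) (bb (s3 708) (s3 688) ) ) (aa (bb (s3 718) (s3 697) ) (bb (s3 722) (rr (aa (bb (s3 722) (s3 711) ) (bb (s3 724) (s3 713) ) ) (aa (bb (s3 725) (s3 713) ) (bb (s3 725) (s3 713) ) ) ) ) ) ) (rr (aa (bb (s3 665) (s3 645) ) (bb (s3 668) (s3 648) ) ) (aa (bb (rr (aa (bb (s3 697) (s3 687) ) (bb (s3 699) (s3 689) ) ) (aa (bb (s3 701) (s3 690) ) (bb (s3 701) (s3 690) ) ) ) (rr (aa (bb (s3 677) (s3 667) ) (bb (s3 678) (s3 668) ) ) (aa (bb (s3 679) (s3 669) ) (bb (s3 679) (s3 669) ) ) ) ) (bb (rr (aa (bb (s3 701) (s3 690) ) (bb (s3 701) (s3 690) ) ) (aa (bb (s3 701) (s3 690) ) (bb (s3 701) (s3 690) ) ) ) (rr (aa (bb (s3 679) (s3 669) ) (bb (s3 679) (s3 669) ) ) (aa (bb (s3 679) (s3 669) ) (bb (s3 679) (s3 669) ) ) ) ) ) ) ) (bb (rr (aa (bb (s3 711) (s3 691) ) (bb (s3 715) (s3 694) ) ) (aa (bb (rr (aa (bb (s3 747) (s3 736) ) (bb (s3 750) (s3 738) ) ) (aa (bb (s3 751) (s3 738) ) (bb (s3 751) (s3 738) ) ) ) (rr (aa (bb (s3 725) (s3 713) ) (bb (s3 725) (s3 713) ) ) (aa (bb (s3 725) (s3 713) ) (bb (s3 725) (s3 713) ) ) ) ) (bb (rr (aa (bb s1 (s3 738) ) (bb s1 s1 ) ) (aa (bb (s3 751) (s3 738) ) (bb s1 s1 ) ) ) (rr (aa (bb (s3 725) (s3 713) ) (bb s1 s1 ) ) (aa (bb (s3 725) (s3 713) ) (bb s1 (s3 713) ) ) ) ) ) ) (rr (aa (bb (s3 671) (s3 650) ) (bb (s3 673) (rr (aa (bb s1 s1 ) (bb s1 s1 ) ) (aa (bb (s3 679) (rr s1 (s3 669) ) ) (bb s1 s1 ) ) ) ) ) (aa (bb (rr (aa (bb (s3 701) (s3 690) ) (bb (s3 701) (s3 690) ) ) (aa (bb (s3 701) (s3 690) ) (bb (s3 701) (s3 690) ) ) ) (rr (aa (bb (s3 679) (s3 669) ) (bb (s3 679) (s3 669) ) ) (aa (bb (s3 679) (s3 669) ) (bb (s3 679) (s3 669) ) ) ) ) (bb (rr (aa (bb (s3 701) (s3 690) ) (bb s1 s1 ) ) (aa (bb (s3 701) (s3 690) ) (bb (s3 701) (s3 690) ) ) ) (rr (aa (bb (s3 679) (s3 669) ) (bb (s3 679) (s3 669) ) ) (aa (bb (s3 679) (s3 669) ) (bb (s3 679) (s3 669) ) ) ) ) ) ) ) ) ) ) ) ) ) (bb (rr (aa (bb (s3 752) (s3 688) ) (bb (s3 778) (rr (s3 718) (aa s1 s1 ) ) ) ) (aa (bb (s3 827) (rr (aa (s3 771) (bb (s3 827) (s3 785) ) ) (aa (bb (s3 858) (s3 811) ) (bb (s3 871) (s3 823) ) ) ) ) (bb (s3 855) (rr (aa (bb s1 s1 ) s1 ) (aa (bb s1 (s3 834) ) (bb s1 s1 ) ) ) ) ) ) (rr (aa (bb (rr (aa (bb (s3 679) (s3 648) ) (bb s1 s1 ) ) (aa (bb (s3 705) (s3 670) ) (bb (s3 714) (s3 677) ) ) ) (rr (aa (bb (s3 616) (rr (s3 590) (aa (s3 605) s1 ) ) ) (bb (s3 621) (rr (aa s1 s1 ) (aa s1 s1 ) ) ) ) (aa (bb (s3 634) (rr (aa (bb s1 s1 ) (bb s1 s1 ) ) (aa (bb s1 (s3 625) ) (bb s1 s1 ) ) ) ) (bb (s3 639) (rr (aa s1 s1 ) (aa s1 s1 ) ) ) ) ) ) (bb (rr (aa (bb s1 s1 ) s1 ) (aa (bb s1 s1 ) (bb s1 s1 ) ) ) (rr (aa (bb s1 (rr (aa s1 s1 ) (aa s1 s1 ) ) ) (bb s1 (rr (aa s1 s1 ) (aa s1 s1 ) ) ) ) (aa (bb (rr s1 s1 ) (rr (aa s1 s1 ) (aa s1 s1 ) ) ) (bb s1 (rr (aa s1 s1 ) (aa s1 s1 ) ) ) ) ) ) ) (aa (bb (rr (aa (bb (s3 734) (s3 694) ) (bb (s3 743) (s3 701) ) ) (aa (bb (s3 765) (rr (aa (bb (s3 763) (s3 741) ) (bb s1 s1 ) ) (aa (bb (rr (aa s1 s1 ) (aa s1 s1 ) ) (rr (aa s1 s1 ) (aa s1 s1 ) ) ) (bb (rr s1 s1 ) (rr s1 s1 ) ) ) ) ) (bb (rr (aa s1 s1 ) (aa s1 s1 ) ) (rr (aa s1 s1 ) (aa (bb s1 s1 ) s1 ) ) ) ) ) (rr (aa (bb (rr (aa (bb s1 s1 ) (bb s1 s1 ) ) (aa (bb (s3 705) (s3 685) ) (bb s1 s1 ) ) ) (rr (aa (bb (s3 654) (s3 635) ) (bb s1 s1 ) ) (aa (bb (s3 665) (s3 644) ) (bb s1 (s3 646) ) ) ) ) (bb (rr (aa s1 s1 ) (aa s1 s1 ) ) (rr (aa (bb s1 s1 ) s1 ) (aa (bb s1 s1 ) (bb s1 s1 ) ) ) ) ) (aa (bb (rr (aa (bb (s3 719) (s3 697) ) (bb s1 (rr s1 s1 ) ) ) (aa (bb (rr (aa s1 s1 ) (aa s1 s1 ) ) (rr (aa s1 s1 ) (aa (bb s1 s1 ) s1 ) ) ) (bb (rr s1 (aa s1 s1 ) ) (rr s1 (aa s1 s1 ) ) ) ) ) (rr (aa (bb (rr (aa s1 s1 ) (aa s1 s1 ) ) (rr (aa s1 s1 ) (aa (bb s1 s1 ) s1 ) ) ) (bb (rr s1 (aa s1 s1 ) ) (rr (aa s1 s1 ) (aa s1 s1 ) ) ) ) (aa (bb (rr (aa (bb s1 s1 ) s1 ) (aa (bb s1 s1 ) s1 ) ) (rr (aa (bb s1 s1 ) s1 ) (aa (bb s1 s1 ) (bb s1 s1 ) ) ) ) (bb (rr (aa s1 s1 ) (aa s1 s1 ) ) (rr (aa s1 s1 ) (aa s1 s1 ) ) ) ) ) ) (bb (rr (aa (bb s1 s1 ) s1 ) (aa (bb s1 s1 ) (bb s1 s1 ) ) ) (rr (aa (bb s1 (rr s1 s1 ) ) (bb s1 s1 ) ) (aa (bb (rr s1 s1 ) (rr s1 (aa s1 s1 ) ) ) (bb s1 s1 ) ) ) ) ) ) ) (bb (rr (aa (bb s1 (rr s1 s1 ) ) (bb s1 s1 ) ) (aa (bb (rr s1 (aa s1 s1 ) ) (rr (aa s1 s1 ) (aa s1 s1 ) ) ) (bb s1 (rr s1 s1 ) ) ) ) (rr (aa (bb (rr (aa s1 s1 ) (aa s1 s1 ) ) (rr (aa s1 s1 ) (aa s1 s1 ) ) ) (bb (rr s1 s1 ) (rr (aa s1 s1 ) (aa s1 (bb s1 s1 ) ) ) ) ) (aa (bb (rr (aa s1 s1 ) (aa s1 s1 ) ) (rr (aa (bb s1 s1 ) s1 ) (aa (bb s1 s1 ) (bb s1 s1 ) ) ) ) (bb (rr (aa s1 s1 ) (aa s1 s1 ) ) (rr (aa s1 (bb s1 s1 ) ) (aa (bb s1 s1 ) (bb s1 s1 ) ) ) ) ) ) ) ) ) ) ) ) ) (bb (rr (aa (bb (s3 794) (rr (s3 724) (s3 785) ) ) (bb s1 (rr (aa s1 s1 ) (aa s1 s1 ) ) ) ) (aa (bb (s3 986) (rr (s3 862) (aa (s3 984) s1 ) ) ) (bb (s3 1108) (rr (aa s1 s1 ) (aa s1 s1 ) ) ) ) ) (rr (aa (bb (rr (aa (bb s1 s1 ) (bb s1 s1 ) ) (aa (bb s1 (rr s1 s1 ) ) (bb s1 s1 ) ) ) (rr (aa (bb (rr (aa s1 s1 ) (aa s1 s1 ) ) (rr (aa (bb s1 s1 ) s1 ) (aa (bb s1 s1 ) s1 ) ) ) (bb (rr (aa s1 s1 ) (aa s1 s1 ) ) s1 ) ) (aa (bb (rr (aa s1 s1 ) (aa s1 s1 ) ) (rr (aa (bb s1 s1 ) s1 ) (aa (bb s1 s1 ) s1 ) ) ) (bb (rr (aa s1 s1 ) (aa s1 s1 ) ) s1 ) ) ) ) (bb (rr (aa (bb s1 (rr s1 (aa s1 s1 ) ) ) (bb s1 s1 ) ) (aa (bb s1 (rr (aa s1 s1 ) (aa s1 s1 ) ) ) (bb s1 s1 ) ) ) (rr (aa (bb s1 em ) s1 ) (aa (bb s1 em ) s1 ) ) ) ) (aa (bb (rr (aa (bb s1 (rr s1 (aa s1 s1 ) ) ) (bb s1 (rr s1 s1 ) ) ) (aa (bb (s3 883) (rr (aa s1 s1 ) (aa s1 s1 ) ) ) (bb s1 (rr (aa s1 s1 ) (aa s1 s1 ) ) ) ) ) (rr (aa (bb (rr (aa s1 s1 ) (aa s1 s1 ) ) (rr (aa (bb s1 s1 ) s1 ) (aa (bb s1 s1 ) (bb s1 s1 ) ) ) ) (bb (rr (aa (bb s1 s1 ) s1 ) (aa (bb s1 s1 ) s1 ) ) (rr s1 (aa s1 s1 ) ) ) ) (aa (bb (rr (aa (bb s1 s1 ) (bb s1 s1 ) ) (aa (bb s1 s1 ) (bb s1 s1 ) ) ) (rr (aa (bb (rr s1 s1 ) (rr s1 (aa s1 s1 ) ) ) (bb s1 s1 ) ) (aa (bb (rr (aa s1 s1 ) (aa s1 s1 ) ) (rr (aa s1 s1 ) (aa s1 s1 ) ) ) (bb (rr s1 (aa s1 s1 ) ) s1 ) ) ) ) (bb (rr (aa (bb s1 s1 ) s1 ) (aa (bb s1 s1 ) s1 ) ) (rr (aa s1 s1 ) (aa s1 s1 ) ) ) ) ) ) (bb (rr (aa (bb s1 (rr (aa s1 s1 ) (aa s1 s1 ) ) ) (bb s1 s1 ) ) (aa (bb s1 (rr (aa s1 s1 ) (aa s1 s1 ) ) ) (bb s1 s1 ) ) ) (rr (aa (bb s1 em ) s1 ) (aa (bb (rr s1 (aa s1 s1 ) ) em ) s1 ) ) ) ) ) ) ) ) (rr (aa (bb (rr (aa (bb s1 (rr (aa s1 s1 ) (aa s1 s1 ) ) ) (bb s1 (rr (aa s1 s1 ) (aa s1 s1 ) ) ) ) (aa (bb s1 (rr (aa s1 s1 ) (aa s1 s1 ) ) ) (bb s1 (rr (aa s1 s1 ) (aa s1 s1 ) ) ) ) ) (rr (aa (bb (rr (aa s1 s1 ) (aa s1 s1 ) ) em ) (bb (rr (aa s1 em ) (aa s1 em ) ) em ) ) (aa (bb (rr (aa s1 s1 ) (aa s1 s1 ) ) em ) (bb (rr (aa s1 em ) (aa s1 em ) ) em ) ) ) ) hi ) (aa (bb (rr (aa (bb s1 (rr (aa s1 s1 ) (aa s1 s1 ) ) ) (bb s1 (rr (aa s1 s1 ) (aa s1 s1 ) ) ) ) (aa (bb s1 (rr (aa s1 s1 ) (aa s1 s1 ) ) ) (bb s1 (rr (aa s1 s1 ) (aa s1 s1 ) ) ) ) ) (rr (aa (bb (rr (aa s1 s1 ) (aa s1 s1 ) ) em ) (bb (rr (aa s1 em ) (aa s1 em ) ) em ) ) (aa (bb (rr (aa s1 s1 ) (aa s1 s1 ) ) em ) (bb (rr (aa s1 em ) (aa s1 em ) ) em ) ) ) ) hi ) ) ) ) ) )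

/-- certificate for `(A,B) = (0,1/2)`. -/
noncomputable def treeP0 : Tr :=
  (rr (rr s1 (rr s1 (rr s1 (rr s1 s1 ) ) ) ) (rr (rr (rr (rr (rr s1 s1 ) (rr (s3 291) (s3 293) ) ) (rr (rr (s3 296) (s3 299) ) (rr (s3 301) (s3 304) ) ) ) (rr (rr (rr (s3 307) (s3 311) ) (rr (s3 314) (s3 317) ) ) (rr (rr (s3 321) (s3 325) ) (rr (s3 329) (s3 333) ) ) ) ) (rr (rr (rr (rr (s3 337) (s3 342) ) (rr (s3 347) (s3 352) ) ) (rr (rr (s3 357) (s3 362) ) (rr (s3 367) (s3 373) ) ) ) (rr (rr (rr (s3 379) (rr (s3 389) (s3 392) ) ) (rr (rr (s3 395) (s3 399) ) (rr (s3 402) (s3 405) ) ) ) (rr (rr (rr (s3 408) (s3 412) ) (rr (rr (s3 419) (s3 420) ) (rr (s3 422) (s3 424) ) ) ) (rr (rr (rr (s3 425) (s3 427) ) (rr (s3 429) (rr (s3 433) (s3 434) ) ) ) (rr (rr (rr (s3 434) (s3 435) ) (rr (s3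 436) (s3 437) ) ) (rr (rr (s3 438) (rr (s3 440) (s3 440) ) ) (rr (rr (s3 441) (s3 441) ) (rr (s3 441) (s3 442) ) ) ) ) ) ) ) ) ) )

/-- certificate for `(A,B) = (1/2,1/2)`, `ρ ≤ 3/4`. -/
noncomputable def treeP1 : Tr :=
  (rr s1 (rr s1 (rr (rr s1 s1 ) (rr (rr s1 s1 ) (rr (rr s1 s1 ) (rr s1 (rr s1 (rr s1 s1 ) ) ) ) ) ) ) )

theorem verify_main : verify treeMain 0 (29 / 32) 0 1 0 (3 / 8) = true := by decide +kernel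
theorem verify_p0 : verify treeP0 0 (29 / 32) 0 0 (1 / 2) (1 / 2) = true := by decide +kernel
theorem verify_p1 : verify treeP1 0 (3 / 4) (1 / 2) (1 / 2) (1 / 2) (1 / 2) = true := by decide +kernel

/-- The numerical Bellman step: on the whole range, one of the two certificates closes the step. -/
theorem numeric_step {ρ A B : ℝ} (hρ : 0 < ρ) (hρ1 : ρ ≤ 29 / 32) (hA : 0 ≤ A) (hB : 0 < B)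
    (hab : A + B ≤ 1)
    (hcase : B ≤ 3 / 8 ∨ (A = 0 ∧ B = 1 / 2) ∨ (A = 1 / 2 ∧ B = 1 / 2 ∧ ρ ≤ 3 / 4)) :
    StepS1 ρ A B ∨ ∃ p, StepS3 ρ A B p := by
  have hρ2 : ρ < 1 := by linarith
  rcases hcase with h | ⟨rfl, rfl⟩ | ⟨rfl, rfl, h⟩
  · exact verify_sound _ _ _ _ _ _ _ verify_main (by simpa using hρ.le) (by push_cast; linarith) hρ hρ2 hA
      (by simpa using hA) (by push_cast; linarith) (by simpa using hB.le) (by push_cast; linarith) hB hab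
  · exact verify_sound _ _ _ _ _ _ _ verify_p0 (by simpa using hρ.le) (by push_cast; linarith) hρ hρ2 hA
      (by simp) (by simp) (by norm_num) (by norm_num) hB hab
  · exact verify_sound _ _ _ _ _ _ _ verify_p1 (by simpa using hρ.le) (by push_cast; linarith) hρ hρ2 hA
      (by norm_num) (by norm_num) (by norm_num) (by norm_num) hB hab

end Vale.Agent.P322N
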