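import Mathlib

/-! Kernel-evaluated rational enclosures of logarithms and of the quantities in the
Bellman step for the Courtade-Kumar inequality. -/

namespace Vale.Agent.P322N

/-- fixed-point scale `2^64` -/
def S : ℕ := 18446744073709551616

/-- strict application: makes the kernel evaluate the argument first -/
noncomputable def sapp {α : Type} (f : ℕ → α) (x : ℕ) : α :=
  Nat.rec (motive := fun _ => α) (f 0) (fun n _ => f (Nat.succ n)) x

noncomputable def sumLo (t2 n : ℕ) : ℕ → ℕ → ℕ :=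
  Nat.rec (fun _ _ => 0)
    (fun _ ih p d => sapp (fun q => p / d + q) (sapp (fun p' => ih p' (d + 2)) (p * t2 / S))) n

noncomputable def sumHi (t2 n : ℕ) : ℕ → ℕ → ℕ :=
  Nat.rec (fun _ _ => 0)
    (fun _ ih p d => sapp (fun q => p / d + 1 + q) (sapp (fun p' => ih p' (d + 2)) (p * t2 / S + 1))) n

/-- number of series terms -/
def NN : ℕ := 21

/-- lower bound (scaled by `S`) for `log (a/b)`, `b ≤ a ≤ 2 b` -/
noncomputable def coreLo (a b : ℕ) : ℕ :=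
  sapp (fun t => 2 * sumLo (t * t / S) NN t 1) ((a - b) * S / (a + b))

/-- upper bound (scaled by `S`) for `log (a/b)`, `b ≤ a ≤ 2 b` -/
noncomputable def coreHi (a b : ℕ) : ℕ :=
  sapp (fun t => 2 * sumHi (t * t / S + 1) NN t 1 + 1) ((a - b) * S / (a + b) + 1)

def ellLo : ℚ := 12786308645202655646 / 18446744073709551616
def ellHi : ℚ := 12786308645202655693 / 18446744073709551616

noncomputable def logLo1 (a b : ℕ) : ℚ :=
  sapp (fun e =>
    sapp (fun b' =>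
      if b' ≤ a ∧ a ≤ 2 * b' then ((coreLo a b' : ℕ) : ℚ) / (S : ℚ) + (e : ℚ) * ellLo else 0)
      (b * 2 ^ e)) (Nat.log2 (a / b))

noncomputable def logHi1 (a b : ℕ) : ℚ :=
  sapp (fun e =>
    sapp (fun b' =>
      if b' ≤ a ∧ a ≤ 2 * b' then ((coreHi a b' : ℕ) : ℚ) / (S : ℚ) + (e : ℚ) * ellHi
      else (a : ℚ) / (b : ℚ) - 1)
      (b * 2 ^ e)) (Nat.log2 (a / b))

/-- lower bound for `log y`, `y > 0` -/
noncomputable def logLo (y : ℚ) : ℚ :=
  if 1 ≤ y then logLo1 y.num.toNat y.den else - logHi1 y.den y.num.toNat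

/-- upper bound for `log y`, `y > 0` -/
noncomputable def logHi (y : ℚ) : ℚ :=
  if 1 ≤ y then logHi1 y.num.toNat y.den else - logLo1 y.den y.num.toNat

/-- lower bound for `D p = log 2 - psi p`, `0 ≤ p < 1`  -/
noncomputable def DLo (p : ℚ) : ℚ :=
  if p = 1 then ellLo else (1 + p) / 2 * logLo (1 + p) + (1 - p) / 2 * logLo (1 - p)

noncomputable def DHi (p : ℚ) : ℚ :=
  if p = 1 then ellHi else (1 + p) / 2 * logHi (1 + p) + (1 - p) / 2 * logHi (1 - p)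

def absQ (z : ℚ) : ℚ := if 0 ≤ z then z else -z

noncomputable def psiLo (z : ℚ) : ℚ := ellLo - DHi (absQ z)
noncomputable def psiHi (z : ℚ) : ℚ := ellHi - DLo (absQ z)

/-- lower bound for `E y = D y / y^2` on `(0,1]`; `E 0` read as `1/2` -/
noncomputable def ELo (y : ℚ) : ℚ :=
  if y = 0 then 1 / 2 else DLo y / (y * y)

noncomputable def EHi (y : ℚ) : ℚ :=
  if 1 ≤ y then ellHi else DHi y / (y * y)

noncomputable def nuLo (y : ℚ) : ℚ := -(1 / 2) * logHi (1 - y * y)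
noncomputable def nuHi (y : ℚ) : ℚ := -(1 / 2) * logLo (1 - y * y)
noncomputable def nuHatLo (y : ℚ) : ℚ := if y = 0 then 1 / 2 else nuLo y / (y * y)
noncomputable def nuHatHi (y : ℚ) : ℚ := nuHi y / (y * y)
noncomputable def athLo (y : ℚ) : ℚ := (1 / 2) * (logLo (1 + y) - logHi (1 - y))
noncomputable def athHatLo (y : ℚ) : ℚ := if y = 0 then 1 else athLo y / y

/-- upper bound for the normalised defect `(psi A - avg psi (A +- B)) / (B^2 log 2)` -/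
noncomputable def dUp (A0 A1 B1 : ℚ) : ℚ :=
  ((if 1 ≤ A1 + B1 then ellHi else EHi (B1 / (1 - A1))) / (2 * (1 - A1))
    + EHi (B1 / (1 + A0)) / (2 * (1 + A0))) / ellLo

noncomputable def dLow (A0 A1 B0 : ℚ) : ℚ :=
  max 0 (if B0 = 0 then 0 else
    (ELo (B0 / (1 - A0)) / (2 * (1 - A0)) + ELo (B0 / (1 + A1)) / (2 * (1 + A1))) / ellHi)

noncomputable def gLow (A0 B0 : ℚ) : ℚ :=
  max 0 (if B0 = 0 then athLo A0 / ellHi
    else (psiLo (A0 - B0) - psiHi (A0 + B0)) / (2 * B0) / ellHi)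

noncomputable def xHi (A0 : ℚ) : ℚ := min 1 (psiHi A0 / ellLo)
noncomputable def xLow (A1 : ℚ) : ℚ := psiLo A1 / ellHi

noncomputable def tUp (A0 A1 B0 B1 : ℚ) : ℚ :=
  max 0 (2 * xHi A0 * dUp A0 A1 B1 - B0 * B0 * (dLow A0 A1 B0 * dLow A0 A1 B0)
    - gLow A0 B0 * gLow A0 B0)

noncomputable def etaLow (A0 A1 B0 B1 : ℚ) : ℚ :=
  (nuHatLo (B0 / (1 + A1)) / ((1 + A1) * (1 + A1)))
    / (logHi (2 / (1 + A0)) + nuHi (min B1 (1 - A0) / (1 + A0)))

noncomputable def wUp (r0 : ℚ) : ℚ := 1 - ELo r0 / ellHi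

/-- the two-way rule S1 on a box -/
noncomputable def leafS1 (r0 r1 A0 A1 B0 B1 : ℚ) : Bool :=
  let e := 1 - r1 * r1
  let w := wUp r0
  let eh := etaLow A0 A1 B0 B1
  let x := xLow A1
  let d := dUp A0 A1 B1
  let X := x - w * (x * x) - B1 * B1 * d
  decide (0 ≤ r0) && decide (r0 ≤ r1) && decide (r1 < 1) && decide (0 ≤ A0) && decide (A1 < 1)
    && decide (0 ≤ B0) && decide (B1 < 1) && decide (A0 + B0 ≤ 1) && decide (0 ≤ x) && decide (0 ≤ X)
    && decide (0 ≤ eh)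
    && decide (w * (1 - e * (B0 * B0 * eh)) * tUp A0 A1 B0 B1 ≤ e * eh * X)

noncomputable def DLz (r0 : ℚ) : ℚ := if r0 = 0 then 0 else DLo r0

noncomputable def luQ (r0 r1 A0 A1 B0 B1 : ℚ) : ℚ :=
  dUp A0 A1 B1 + r1 * r1 * wUp r0 / (1 - r1 * r1) * tUp A0 A1 B0 B1

noncomputable def quQ (r0 r1 A0 A1 B0 B1 : ℚ) : ℚ :=
  xHi A0 - r0 * r0 * (xHi A0 * (1 - xHi A0)) - xHi A0 * xHi A0 * DLz r0 / ellHi
    + r1 * r1 * (B1 * B1) * luQ r0 r1 A0 A1 B0 B1

noncomputable def leafS3 (k : ℕ) (r0 r1 A0 A1 B0 B1 : ℚ) : Bool :=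
  decide (0 ≤ r0) && decide (r0 ≤ r1) && decide (r1 < 1) && decide (0 ≤ A0) && decide (A1 < 1)
    && decide (0 ≤ B0) && decide (B1 < 1) && decide (A0 + B0 ≤ 1)
    && decide (0 ≤ quQ r0 r1 A0 A1 B0 B1) && decide (0 < k)
    && decide ((k : ℚ) / 256 * B1 < 1) && decide (0 < B1)
    && decide (ellHi * luQ r0 r1 A0 A1 B0 B1 + quQ r0 r1 A0 A1 B0 B1 * ((k : ℚ) / 256 * ((k : ℚ) / 256))
          * nuHatHi ((k : ℚ) / 256 * B1) ≤ (k : ℚ) / 256 * athHatLo ((k : ℚ) / 256 * B0))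

/-- certificate trees -/
inductive Tr where
  | hi | em | s1 | s3 (k : ℕ) | rr (l r : Tr) | aa (l r : Tr) | bb (l r : Tr)

noncomputable def verify : Tr → ℚ → ℚ → ℚ → ℚ → ℚ → ℚ → Bool
  | .hi, _, _, A0, _, _, _ => decide (7 / 8 ≤ A0)
  | .em, _, _, A0, _, B0, _ => decide (1 < A0 + B0)
  | .s1, r0, r1, A0, A1, B0, B1 => leafS1 r0 r1 A0 A1 B0 B1
  | .s3 k, r0, r1, A0, A1, B0, B1 => leafS3 k r0 r1 A0 A1 B0 B1
  | .rr l r, r0, r1, A0, A1, B0, B1 =>
      verify l r0 ((r0 + r1) / 2) A0 A1 B0 B1 && verify r ((r0 + r1) / 2) r1 A0 A1 B0 B1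
  | .aa l r, r0, r1, A0, A1, B0, B1 =>
      verify l r0 r1 A0 ((A0 + A1) / 2) B0 B1 && verify r r0 r1 ((A0 + A1) / 2) A1 B0 B1
  | .bb l r, r0, r1, A0, A1, B0, B1 =>
      verify l r0 r1 A0 A1 B0 ((B0 + B1) / 2) && verify r r0 r1 A0 A1 ((B0 + B1) / 2) B1

end Vale.Agent.P322N
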