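import Vale.Agent.P322N.Reals3

/-! The normalised real quantities and their enclosures on boxes. -/

namespace Vale.Agent.P322N

open Real Vale.Agent.P322V Set

noncomputable def xx (z : ℝ) : ℝ := psi z / Real.log 2
noncomputable def dh (A B : ℝ) : ℝ :=
  (psi A - (psi (A + B) + psi (A - B)) / 2) / B ^ 2 / Real.log 2
noncomputable def gh (A B : ℝ) : ℝ := (psi (A - B) - psi (A + B)) / (2 * B) / Real.log 2
noncomputable def tt (A B : ℝ) : ℝ := 2 * xx A * dh A B - B ^ 2 * dh A B ^ 2 - gh A B ^ 2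
noncomputable def nn (A : ℝ) : ℝ := Real.log (2 / (1 + A))
noncomputable def eh (A B : ℝ) : ℝ :=
  nu (B / (1 + A)) / (nn A + nu (B / (1 + A))) / B ^ 2
noncomputable def ww (ρ : ℝ) : ℝ := 1 - EE ρ / Real.log 2

/-- points in a box -/
structure InBox (A0 A1 B0 B1 : ℚ) (A B : ℝ) : Prop where
  a0 : (0 : ℝ) ≤ A0
  a1 : (A0 : ℝ) ≤ A
  a2 : A ≤ A1
  a3 : (A1 : ℝ) < 1
  b0 : (0 : ℝ) ≤ B0
  b1 : (B0 : ℝ) ≤ B
  b2 : B ≤ B1
  b3 : 0 < B
  b4 : (B1 : ℝ) < 1
  ab : A + B ≤ 1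

variable {A0 A1 B0 B1 : ℚ} {A B : ℝ}

lemma InBox.A_nonneg (h : InBox A0 A1 B0 B1 A B) : 0 ≤ A := h.a0.trans h.a1
lemma InBox.A_lt (h : InBox A0 A1 B0 B1 A B) : A < 1 := h.a2.trans_lt h.a3

lemma dh_eq (h : InBox A0 A1 B0 B1 A B) :
    dh A B = (EE (B / (1 - A)) / (2 * (1 - A)) + EE (B / (1 + A)) / (2 * (1 + A))) / Real.log 2 := by
  unfold dh
  rw [defect_eq h.A_nonneg h.A_lt h.b3 h.ab]
  have : B ≠ 0 := h.b3.ne'
  field_simp

lemma y1_facts (h : InBox A0 A1 B0 B1 A B) :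
    0 < B / (1 - A) ∧ B / (1 - A) ≤ 1 := by
  have h1 : 0 < 1 - A := by linarith [h.A_lt]
  refine ⟨div_pos h.b3 h1, ?_⟩
  rw [div_le_one h1]
  linarith [h.ab]

lemma y2_facts (h : InBox A0 A1 B0 B1 A B) :
    0 < B / (1 + A) ∧ B / (1 + A) ≤ 1 := by
  have h1 : 0 < 1 + A := by linarith [h.A_nonneg]
  refine ⟨div_pos h.b3 h1, ?_⟩
  rw [div_le_one h1]
  linarith [h.ab, h.A_nonneg, h.A_lt]

lemma dh_terms_nonneg (h : InBox A0 A1 B0 B1 A B) :
    0 ≤ EE (B / (1 - A)) ∧ 0 ≤ EE (B / (1 + A)) := by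
  obtain ⟨a, b⟩ := y1_facts h
  obtain ⟨c, d⟩ := y2_facts h
  exact ⟨(by norm_num : (0 : ℝ) ≤ 1 / 2).trans (half_le_EE a b),
    (by norm_num : (0 : ℝ) ≤ 1 / 2).trans (half_le_EE c d)⟩

lemma dh_nonneg (h : InBox A0 A1 B0 B1 A B) : 0 ≤ dh A B := by
  rw [dh_eq h]
  obtain ⟨a, b⟩ := dh_terms_nonneg h
  have h1 : 0 < 1 - A := by linarith [h.A_lt]
  have h2 : 0 < 1 + A := by linarith [h.A_nonneg]
  have := log_two_pos'
  positivity

lemma dh_le_dUp (h : InBox A0 A1 B0 B1 A B) : dh A B ≤ ((dUp A0 A1 B1 : ℚ) : ℝ) := by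
  rw [dh_eq h]
  obtain ⟨n1, n2⟩ := dh_terms_nonneg h
  obtain ⟨a, b⟩ := y1_facts h
  obtain ⟨c, d⟩ := y2_facts h
  have hA := h.A_nonneg
  have h1 : 0 < 1 - A := by linarith [h.A_lt]
  have h2 : 0 < 1 + A := by linarith
  have h3 : (0 : ℝ) < 1 - A1 := by linarith [h.a3]
  have h4 : (0 : ℝ) < 1 + A0 := by linarith [h.a0]
  have a2 := h.a2
  have a1 := h.a1
  have b2 := h.b2
  have hB := h.b3
  have key1 : ∃ top : ℝ, EE (B / (1 - A)) ≤ top ∧ (top = ((if 1 ≤ A1 + B1 then ellHi else EHi (B1 / (1 - A1)) : ℚ) : ℝ)) := by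
    refine ⟨_, ?_, rfl⟩
    split_ifs with hc
    · exact (EE_le_log_two a b).trans le_ellHi
    · apply le_EHi _ a b
      push_cast
      exact div_le_div₀ (by linarith) b2 h3 (by linarith)
  obtain ⟨top, ht1, ht2⟩ := key1
  have key2 : EE (B / (1 + A)) ≤ ((EHi (B1 / (1 + A0)) : ℚ) : ℝ) := by
    apply le_EHi _ c d
    push_cast
    exact div_le_div₀ (by linarith) b2 h4 (by linarith)
  have t1 : EE (B / (1 - A)) / (2 * (1 - A)) ≤ top / (2 * (1 - A1)) :=
    div_le_div₀ (n1.trans ht1) ht1 (by linarith) (by linarith)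
  have t2 : EE (B / (1 + A)) / (2 * (1 + A)) ≤ ((EHi (B1 / (1 + A0)) : ℚ) : ℝ) / (2 * (1 + A0)) :=
    div_le_div₀ (n2.trans key2) key2 (by linarith) (by linarith)
  have hsum : EE (B / (1 - A)) / (2 * (1 - A)) + EE (B / (1 + A)) / (2 * (1 + A)) ≤
      top / (2 * (1 - A1)) + ((EHi (B1 / (1 + A0)) : ℚ) : ℝ) / (2 * (1 + A0)) := add_le_add t1 t2
  have hn : 0 ≤ top / (2 * (1 - A1)) + ((EHi (B1 / (1 + A0)) : ℚ) : ℝ) / (2 * (1 + A0)) := by
    have : 0 ≤ top := n1.trans ht1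
    have : 0 ≤ ((EHi (B1 / (1 + A0)) : ℚ) : ℝ) := n2.trans key2
    positivity
  have hf : (EE (B / (1 - A)) / (2 * (1 - A)) + EE (B / (1 + A)) / (2 * (1 + A))) / Real.log 2 ≤
      (top / (2 * (1 - A1)) + ((EHi (B1 / (1 + A0)) : ℚ) : ℝ) / (2 * (1 + A0))) / ((ellLo : ℚ) : ℝ) :=
    div_le_div₀ hn hsum ellLo_pos ellLo_le
  refine hf.trans (le_of_eq ?_)
  rw [ht2]
  unfold dUp
  push_cast
  rfl

lemma dLow_nonneg : (0 : ℝ) ≤ ((dLow A0 A1 B0 : ℚ) : ℝ) := by
  unfold dLow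
  rw [Rat.cast_max]
  simp

lemma dLow_le (h : InBox A0 A1 B0 B1 A B) : ((dLow A0 A1 B0 : ℚ) : ℝ) ≤ dh A B := by
  unfold dLow
  rw [Rat.cast_max]
  apply max_le
  · simpa using dh_nonneg h
  · split_ifs with h0
    · simpa using dh_nonneg h
    · rw [dh_eq h]
      obtain ⟨n1, n2⟩ := dh_terms_nonneg h
      obtain ⟨a, b⟩ := y1_facts h
      obtain ⟨c, d⟩ := y2_facts h
      have hA := h.A_nonneg
      have h1 : 0 < 1 - A := by linarith [h.A_lt]
      have h2 : 0 < 1 + A := by linarith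
      have h3 : (0 : ℝ) < 1 - A1 := by linarith [h.a3]
      have h4 : (0 : ℝ) < 1 + A1 := by linarith [h.a2]
      have h5 : (0 : ℝ) < 1 - A0 := by linarith [h.a1]
      have a0 := h.a0
      have a2 := h.a2
      have a1 := h.a1
      have b1 := h.b1
      have b0' := h.b0
      have hq : (0 : ℚ) ≤ B0 := by exact_mod_cast b0'
      have hq1 : (0 : ℚ) < 1 - A0 := by
        have : (A0 : ℝ) < 1 := by linarith
        have : A0 < 1 := by exact_mod_cast this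
        linarith
      have hq2 : (0 : ℚ) < 1 + A1 := by
        have : (0 : ℝ) ≤ A1 := by linarith
        have : (0 : ℚ) ≤ A1 := by exact_mod_cast this
        linarith
      have e1 := ELo_le (y0 := B0 / (1 - A0)) (y := B / (1 - A)) (div_nonneg hq hq1.le)
        (by push_cast; exact div_le_div₀ h.b3.le b1 h1 (by linarith)) a b
      have e2 := ELo_le (y0 := B0 / (1 + A1)) (y := B / (1 + A)) (div_nonneg hq hq2.le)
        (by push_cast; exact div_le_div₀ h.b3.le b1 h2 (by linarith)) c d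
      have t1 := div_le_div_gen e1 n1 (c := 2 * (1 - A)) (c' := 2 * (1 - (A0 : ℝ))) (by linarith) (by linarith)
      have t2 := div_le_div_gen e2 n2 (c := 2 * (1 + A)) (c' := 2 * (1 + (A1 : ℝ))) (by linarith) (by linarith)
      have hn : 0 ≤ EE (B / (1 - A)) / (2 * (1 - A)) + EE (B / (1 + A)) / (2 * (1 + A)) := by
        positivity
      have := div_le_div_gen (add_le_add t1 t2) hn log_two_pos' le_ellHi
      refine le_trans (le_of_eq ?_) this
      push_cast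
      rfl

lemma F_nonneg (h : InBox A0 A1 B0 B1 A B) : 0 ≤ psi (A - B) - psi (A + B) := by
  have h1 := F_ge h.A_nonneg h.b3.le h.ab h.A_lt
  have h2 := ath_nonneg h.A_nonneg h.A_lt
  have h3 : 0 ≤ 2 * B * ath A := by
    have := h.b3
    positivity
  linarith

lemma gh_nonneg (h : InBox A0 A1 B0 B1 A B) : 0 ≤ gh A B := by
  unfold gh
  have h1 := F_nonneg h
  have h2 := log_two_pos'
  have h3 := h.b3
  positivity

lemma gLow_nonneg : (0 : ℝ) ≤ ((gLow A0 B0 : ℚ) : ℝ) := by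
  unfold gLow
  rw [Rat.cast_max]
  simp

lemma gLow_le (h : InBox A0 A1 B0 B1 A B) : ((gLow A0 B0 : ℚ) : ℝ) ≤ gh A B := by
  unfold gLow
  rw [Rat.cast_max]
  apply max_le
  · simpa using gh_nonneg h
  · have hA := h.A_nonneg
    have a0 := h.a0
    have a1 := h.a1
    have a2 := h.a2
    have a3 := h.a3
    have b0' := h.b0
    have b1 := h.b1
    have b2 := h.b2
    have hB := h.b3
    have hF := F_nonneg h
    have hlog := log_two_pos'
    have hA0q : (0 : ℚ) ≤ A0 := by exact_mod_cast a0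
    have hA0q1 : A0 < 1 := by
      have : (A0 : ℝ) < 1 := by linarith
      exact_mod_cast this
    split_ifs with h0
    · -- B0 = 0
      have e1 := athLo_le hA0q hA0q1
      have e2 : ath (A0 : ℝ) ≤ ath A := ath_mono a0 a1 h.A_lt
      have e3 := F_ge hA hB.le h.ab h.A_lt
      have e4 : ath A ≤ (psi (A - B) - psi (A + B)) / (2 * B) := by
        rw [le_div_iff₀ (by positivity)]
        linarith
      have e5 : ath (A0 : ℝ) ≤ (psi (A - B) - psi (A + B)) / (2 * B) := e2.trans e4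
      have e6 : 0 ≤ (psi (A - B) - psi (A + B)) / (2 * B) := by positivity
      have := div_le_div_gen (e1.trans e5) e6 hlog le_ellHi
      refine le_trans (le_of_eq ?_) this
      push_cast
      rfl
    · -- B0 > 0
      have hB0q : (0 : ℚ) ≤ B0 := by exact_mod_cast b0'
      have hB0pos : 0 < B0 := lt_of_le_of_ne hB0q (Ne.symm h0)
      have hB0R : (0 : ℝ) < B0 := by exact_mod_cast hB0pos
      have hB1q : (B0 : ℝ) ≤ 1 := by linarith [h.b4]
      have hB1q' : B0 ≤ 1 := by exact_mod_cast hB1q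
      have hab0 : (A0 : ℝ) + B0 ≤ 1 := by linarith [h.ab]
      have hab0q : A0 + B0 ≤ 1 := by exact_mod_cast hab0
      have l1 := psiLo_le (z := A0 - B0) (by linarith) (by linarith)
      have l2 := le_psiHi (z := A0 + B0) (by linarith) hab0q
      push_cast at l1 l2
      have s1 : psi ((A0 : ℝ) - B0) - psi ((A0 : ℝ) + B0) ≤ psi (A0 - B0 : ℝ) - psi ((A0 : ℝ) + B0) := le_refl _
      have m1 := F_hat_mono (A := A0) a0 hB0R b1 (by linarith [h.ab])
      have m2 := psi_shift a0 a1 hB.le h.ab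
      have m3 : (psi ((A0 : ℝ) - B) - psi ((A0 : ℝ) + B)) / B ≤ (psi (A - B) - psi (A + B)) / B := by
        gcongr
      have m4 : (psi ((A0 : ℝ) - B0) - psi ((A0 : ℝ) + B0)) / (2 * B0) ≤
          (psi (A - B) - psi (A + B)) / (2 * B) := by
        have := m1.trans m3
        have e1 : (psi ((A0 : ℝ) - B0) - psi ((A0 : ℝ) + B0)) / (2 * B0) =
            (psi ((A0 : ℝ) - B0) - psi ((A0 : ℝ) + B0)) / B0 / 2 := by
          field_simp
        have e2 : (psi (A - B) - psi (A + B)) / (2 * B) = (psi (A - B) - psi (A + B)) / B / 2 := by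
          field_simp
        rw [e1, e2]
        linarith
      have m5 : ((psiLo (A0 - B0) : ℚ) : ℝ) - ((psiHi (A0 + B0) : ℚ) : ℝ) ≤
          psi ((A0 : ℝ) - B0) - psi ((A0 : ℝ) + B0) := by linarith
      have m6 := div_le_div_of_nonneg_right m5 (by positivity : (0 : ℝ) ≤ 2 * B0)
      have m7 : 0 ≤ (psi (A - B) - psi (A + B)) / (2 * B) := by positivity
      have := div_le_div_gen (m6.trans m4) m7 hlog le_ellHi
      refine le_trans (le_of_eq ?_) this
      push_cast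
      rfl

lemma xx_nonneg (h : InBox A0 A1 B0 B1 A B) : 0 ≤ xx A := by
  unfold xx
  have h1 := psi_nonneg (z := A) (by rw [abs_le]; constructor <;> linarith [h.A_nonneg, h.A_lt])
  have := log_two_pos'
  positivity

lemma xx_le_one (z : ℝ) : xx z ≤ 1 := by
  unfold xx
  rw [div_le_one log_two_pos']
  exact psi_le_log_two z

lemma xx_le_xHi (h : InBox A0 A1 B0 B1 A B) : xx A ≤ ((xHi A0 : ℚ) : ℝ) := by
  unfold xHi
  rw [Rat.cast_min]
  apply le_min
  · simpa using xx_le_one A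
  · have a0 := h.a0
    have a1 := h.a1
    have a3 := h.a3
    have h1 : psi A ≤ psi (A0 : ℝ) := psi_anti a0 a1 (by linarith [h.A_lt])
    have hq0 : (0 : ℚ) ≤ A0 := by exact_mod_cast a0
    have hq1 : A0 ≤ 1 := by
      have : (A0 : ℝ) ≤ 1 := by linarith [h.A_lt]
      exact_mod_cast this
    have h2 := le_psiHi (z := A0) (by linarith) hq1
    have h3 : 0 ≤ ((psiHi A0 : ℚ) : ℝ) := by
      have := psi_nonneg (z := (A0 : ℝ)) (by rw [abs_le]; constructor <;> linarith [h.A_lt])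
      linarith
    have h4 := psi_nonneg (z := A) (by rw [abs_le]; constructor <;> linarith [h.A_nonneg, h.A_lt])
    unfold xx
    push_cast
    exact div_le_div₀ h3 (h1.trans h2) ellLo_pos ellLo_le

lemma xLow_le_xx (h : InBox A0 A1 B0 B1 A B) : ((xLow A1 : ℚ) : ℝ) ≤ xx A := by
  unfold xLow xx
  have a2 := h.a2
  have a3 := h.a3
  have hA := h.A_nonneg
  have h1 : psi (A1 : ℝ) ≤ psi A := psi_anti hA a2 a3.le
  have hq0 : (0 : ℝ) ≤ A1 := by linarith
  have hq0' : (0 : ℚ) ≤ A1 := by exact_mod_cast hq0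
  have hq1 : A1 ≤ 1 := by exact_mod_cast a3.le
  have h2 := psiLo_le (z := A1) (by linarith) hq1
  have h4 := psi_nonneg (z := A) (by rw [abs_le]; constructor <;> linarith [h.A_lt])
  have := div_le_div_gen (h2.trans h1) h4 log_two_pos' le_ellHi
  refine le_trans (le_of_eq ?_) this
  push_cast
  rfl

lemma tt_le_tUp (h : InBox A0 A1 B0 B1 A B) : tt A B ≤ ((tUp A0 A1 B0 B1 : ℚ) : ℝ) := by
  unfold tUp
  rw [Rat.cast_max]
  refine le_trans ?_ (le_max_right _ _)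
  push_cast
  unfold tt
  have h1 := xx_nonneg h
  have h2 := dh_nonneg h
  have h3 := xx_le_xHi h
  have h4 := dh_le_dUp h
  have h5 : 2 * xx A * dh A B ≤ 2 * ((xHi A0 : ℚ) : ℝ) * ((dUp A0 A1 B1 : ℚ) : ℝ) := by
    have : xx A * dh A B ≤ ((xHi A0 : ℚ) : ℝ) * ((dUp A0 A1 B1 : ℚ) : ℝ) :=
      mul_le_mul h3 h4 h2 (h1.trans h3)
    linarith
  have d0 : (0 : ℝ) ≤ ((dLow A0 A1 B0 : ℚ) : ℝ) := dLow_nonneg
  have d1 := dLow_le h
  have g0 : (0 : ℝ) ≤ ((gLow A0 B0 : ℚ) : ℝ) := gLow_nonneg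
  have g1 := gLow_le h
  have h6 : (B0 : ℝ) * B0 * (((dLow A0 A1 B0 : ℚ) : ℝ) * ((dLow A0 A1 B0 : ℚ) : ℝ)) ≤
      B ^ 2 * dh A B ^ 2 := by
    have b0' := h.b0
    have b1 := h.b1
    have e1 : (B0 : ℝ) * B0 ≤ B ^ 2 := by nlinarith
    have e2 : ((dLow A0 A1 B0 : ℚ) : ℝ) * ((dLow A0 A1 B0 : ℚ) : ℝ) ≤ dh A B ^ 2 := by nlinarith
    exact mul_le_mul e1 e2 (by positivity) (by positivity)
  have h7 : ((gLow A0 B0 : ℚ) : ℝ) * ((gLow A0 B0 : ℚ) : ℝ) ≤ gh A B ^ 2 := by nlinarith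
  linarith

lemma nn_pos (h : InBox A0 A1 B0 B1 A B) : 0 < nn A := by
  unfold nn
  apply Real.log_pos
  have hA := h.A_nonneg
  rw [lt_div_iff₀ (by linarith)]
  linarith [h.A_lt]

lemma y2_lt (h : InBox A0 A1 B0 B1 A B) : B / (1 + A) < 1 := by
  have hA := h.A_nonneg
  rw [div_lt_one (by linarith)]
  linarith [h.b2, h.b4]

lemma etaLow_le (h : InBox A0 A1 B0 B1 A B) : ((etaLow A0 A1 B0 B1 : ℚ) : ℝ) ≤ eh A B := by
  have hA := h.A_nonneg
  have a0 := h.a0
  have a1 := h.a1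
  have a2 := h.a2
  have a3 := h.a3
  have b0' := h.b0
  have b1 := h.b1
  have b2 := h.b2
  have b4 := h.b4
  have hB := h.b3
  have hA1 : (0 : ℝ) < 1 + A := by linarith
  set y := B / (1 + A) with hy
  have hy0 : 0 < y := div_pos hB hA1
  have hy1 : y < 1 := y2_lt h
  have hn := nn_pos h
  have hnu : 0 ≤ nu y := nu_nonneg hy0.le hy1
  have e0 : eh A B = (nu y / y ^ 2 / ((1 + A) * (1 + A))) / (nn A + nu y) := by
    unfold eh
    rw [← hy]
    have : y ^ 2 = B ^ 2 / ((1 + A) * (1 + A)) := by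
      rw [hy]
      field_simp
    rw [this]
    have : B ^ 2 ≠ 0 := pow_ne_zero 2 hB.ne'
    field_simp
  rw [e0]
  unfold etaLow
  push_cast
  have hq0 : (0 : ℚ) ≤ B0 := by exact_mod_cast b0'
  have hA10 : (0 : ℝ) ≤ A1 := by linarith
  have hq1 : (0 : ℚ) < 1 + A1 := by
    have : (0 : ℚ) ≤ A1 := by exact_mod_cast hA10
    linarith
  have hnum : ((nuHatLo (B0 / (1 + A1)) : ℚ) : ℝ) ≤ nu y / y ^ 2 := by
    apply nuHatLo_le (div_nonneg hq0 hq1.le) _ hy0 hy1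
    push_cast
    rw [hy]
    exact div_le_div₀ hB.le b1 hA1 (by linarith)
  have hnumn : 0 ≤ nu y / y ^ 2 := by positivity
  have h1 : ((nuHatLo (B0 / (1 + A1)) : ℚ) : ℝ) / ((1 + (A1 : ℝ)) * (1 + (A1 : ℝ))) ≤
      nu y / y ^ 2 / ((1 + A) * (1 + A)) :=
    div_le_div_gen hnum hnumn (by positivity) (by nlinarith)
  -- denominator
  have hA0q : (0 : ℚ) ≤ A0 := by exact_mod_cast a0
  have hn1 : nn A ≤ Real.log (2 / (1 + (A0 : ℝ))) := by
    unfold nn
    apply Real.log_le_log (by positivity)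
    gcongr
  have hn2 := le_logHi (y := 2 / (1 + A0)) (by positivity)
  push_cast at hn2
  set Y : ℚ := min B1 (1 - A0) / (1 + A0) with hYdef
  have hB1q : (0 : ℝ) ≤ B1 := by linarith
  have hB1q' : (0 : ℚ) ≤ B1 := by exact_mod_cast hB1q
  have hA0lt : A0 < 1 := by
    have : (A0 : ℝ) < 1 := by linarith
    exact_mod_cast this
  have hB1lt : B1 < 1 := by exact_mod_cast b4
  have hY0 : 0 ≤ Y := by
    rw [hYdef]
    apply div_nonneg (le_min hB1q' (by linarith)) (by linarith)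
  have hY1 : Y < 1 := by
    rw [hYdef, div_lt_one (by linarith)]
    have : min B1 (1 - A0) ≤ B1 := min_le_left _ _
    linarith
  have hyY : y ≤ (Y : ℝ) := by
    rw [hy, hYdef]
    push_cast
    apply div_le_div₀ (le_min hB1q (by linarith)) _ (by linarith) (by linarith)
    exact le_min b2 (by linarith [h.ab])
  have hn3 : nu y ≤ nu (Y : ℝ) := nu_mono hy0.le hyY (by exact_mod_cast hY1)
  have hn4 := le_nuHi hY0 hY1
  have hden : nn A + nu y ≤ ((logHi (2 / (1 + A0)) : ℚ) : ℝ) + ((nuHi Y : ℚ) : ℝ) := by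
    linarith
  have hfinal := div_le_div_gen h1 (by positivity) (by linarith : 0 < nn A + nu y) hden
  exact hfinal

lemma ww_le_wUp {r0 : ℚ} {ρ : ℝ} (h0 : 0 ≤ r0) (h1 : (r0 : ℝ) ≤ ρ) (hρ : 0 < ρ) (hρ1 : ρ ≤ 1) :
    ww ρ ≤ ((wUp r0 : ℚ) : ℝ) := by
  unfold ww wUp
  have a := ELo_le h0 h1 hρ hρ1
  have b := half_le_EE hρ hρ1
  have c := div_le_div_gen a (by linarith) log_two_pos' le_ellHi
  push_cast
  linarith

lemma ww_nonneg {ρ : ℝ} (hρ : 0 < ρ) (hρ1 : ρ ≤ 1) : 0 ≤ ww ρ := by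
  unfold ww
  have := EE_le_log_two hρ hρ1
  have h2 := log_two_pos'
  have : EE ρ / Real.log 2 ≤ 1 := by
    rw [div_le_one h2]
    exact this
  linarith

lemma ww_le_half {ρ : ℝ} (hρ : 0 < ρ) (hρ1 : ρ ≤ 1) : ww ρ ≤ 1 / 2 := by
  unfold ww
  have h1 := half_le_EE hρ hρ1
  have h2 := log_two_pos'
  have h3 : Real.log 2 < 1 := by
    have := Real.log_two_lt_d9
    linarith
  have : 1 / 2 ≤ EE ρ / Real.log 2 := by
    rw [le_div_iff₀ h2]
    nlinarith
  linarith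

end Vale.Agent.P322N
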