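import Vale.Agent.P322N.Eval

/-! Soundness of the kernel-evaluated logarithm enclosures. -/

namespace Vale.Agent.P322N

open Real Finset

lemma sapp_eq {α : Type} (f : ℕ → α) (x : ℕ) : sapp f x = f x := by
  cases x <;> rfl

lemma sumLo_zero (t2 p d : ℕ) : sumLo t2 0 p d = 0 := rfl

lemma sumLo_succ (t2 n p d : ℕ) :
    sumLo t2 (n + 1) p d = p / d + sumLo t2 n (p * t2 / S) (d + 2) := by
  show sapp _ (sapp _ _) = _
  rw [sapp_eq, sapp_eq]
  rfl

lemma sumHi_zero (t2 p d : ℕ) : sumHi t2 0 p d = 0 := rfl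

lemma sumHi_succ (t2 n p d : ℕ) :
    sumHi t2 (n + 1) p d = p / d + 1 + sumHi t2 n (p * t2 / S + 1) (d + 2) := by
  show sapp _ (sapp _ _) = _
  rw [sapp_eq, sapp_eq]
  rfl

lemma S_pos : (0 : ℝ) < (S : ℝ) := by
  norm_num [S]

lemma lt_succ_div_mul (a : ℕ) {b : ℕ} (hb : 0 < b) : a < (a / b + 1) * b := by
  rw [Nat.mul_comm]
  exact Nat.lt_mul_div_succ a hb

lemma coreLo_eq (a b : ℕ) :
    coreLo a b = 2 * sumLo (((a - b) * S / (a + b)) * ((a - b) * S / (a + b)) / S) NN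
      ((a - b) * S / (a + b)) 1 := by
  unfold coreLo
  rw [sapp_eq]

lemma coreHi_eq (a b : ℕ) :
    coreHi a b = 2 * sumHi ((((a - b) * S / (a + b) + 1) * ((a - b) * S / (a + b) + 1)) / S + 1) NN
      ((a - b) * S / (a + b) + 1) 1 + 1 := by
  unfold coreHi
  rw [sapp_eq]

lemma term_shift (x τ : ℝ) (d i : ℕ) :
    x * τ * τ ^ i / (((d + 2 : ℕ) : ℝ) + 2 * (i : ℝ)) =
      x * τ ^ (i + 1) / ((d : ℝ) + 2 * ((i + 1 : ℕ) : ℝ)) := by
  push_cast
  rw [pow_succ]
  congr 1 <;> ring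

/-- partial sums from below -/
theorem sumLo_le (t2 : ℕ) (τ : ℝ) (hτ : 0 ≤ τ) (ht : (t2 : ℝ) / S ≤ τ) :
    ∀ (n p d : ℕ) (x : ℝ), 0 < d → (p : ℝ) / S ≤ x → 0 ≤ x →
      (sumLo t2 n p d : ℝ) / S ≤ ∑ i ∈ range n, x * τ ^ i / ((d : ℝ) + 2 * (i : ℝ)) := by
  intro n
  induction n with
  | zero =>
    intro p d x _ _ _
    simp [sumLo_zero]
  | succ n ih =>
    intro p d x hd hp hx
    rw [sumLo_succ, sum_range_succ']
    have hdR : (0 : ℝ) < d := by exact_mod_cast hd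
    have hS := S_pos
    have h1 : ((p / d : ℕ) : ℝ) / S ≤ x / d := by
      have h2 : ((p / d : ℕ) : ℝ) ≤ (p : ℝ) / d := Nat.cast_div_le
      calc ((p / d : ℕ) : ℝ) / S ≤ ((p : ℝ) / d) / S := by gcongr
        _ = ((p : ℝ) / S) / d := by field_simp
        _ ≤ x / d := by gcongr
    have h3 : ((p * t2 / S : ℕ) : ℝ) / S ≤ x * τ := by
      have h2 : ((p * t2 / S : ℕ) : ℝ) ≤ ((p * t2 : ℕ) : ℝ) / S := Nat.cast_div_le
      calc ((p * t2 / S : ℕ) : ℝ) / S ≤ (((p * t2 : ℕ) : ℝ) / S) / S := by gcongr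
        _ = ((p : ℝ) / S) * ((t2 : ℝ) / S) := by
            push_cast
            field_simp
        _ ≤ x * τ := by
            have : (0 : ℝ) ≤ (t2 : ℝ) / S := by positivity
            exact mul_le_mul hp ht this hx
    have h4 := ih (p * t2 / S) (d + 2) (x * τ) (by omega) h3 (mul_nonneg hx hτ)
    have h5 : ((sumLo t2 n (p * t2 / S) (d + 2) : ℕ) : ℝ) / S ≤
        ∑ i ∈ range n, x * τ ^ (i + 1) / ((d : ℝ) + 2 * ((i + 1 : ℕ) : ℝ)) := by
      refine h4.trans (le_of_eq ?_)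
      exact sum_congr rfl fun i _ => term_shift x τ d i
    have h6 : x * τ ^ 0 / ((d : ℝ) + 2 * ((0 : ℕ) : ℝ)) = x / d := by simp
    rw [h6, Nat.cast_add, add_div]
    linarith [h1, h5]

/-- partial sums from above -/
theorem le_sumHi (t2 : ℕ) (τ : ℝ) (hτ : 0 ≤ τ) (ht : τ ≤ (t2 : ℝ) / S) :
    ∀ (n p d : ℕ) (x : ℝ), 0 < d → x ≤ (p : ℝ) / S → 0 ≤ x →
      ∑ i ∈ range n, x * τ ^ i / ((d : ℝ) + 2 * (i : ℝ)) ≤ (sumHi t2 n p d : ℝ) / S := by
  intro n
  induction n with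
  | zero =>
    intro p d x _ _ _
    simp [sumHi_zero]
  | succ n ih =>
    intro p d x hd hp hx
    rw [sumHi_succ, sum_range_succ']
    have hdR : (0 : ℝ) < d := by exact_mod_cast hd
    have hS := S_pos
    have h1 : x / d ≤ (((p / d + 1 : ℕ) : ℝ)) / S := by
      have h2 : (p : ℝ) / d ≤ ((p / d + 1 : ℕ) : ℝ) := by
        rw [div_le_iff₀ hdR]
        have : p < (p / d + 1) * d := lt_succ_div_mul p hd
        exact_mod_cast this.le
      calc x / d ≤ ((p : ℝ) / S) / d := by gcongr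
        _ = ((p : ℝ) / d) / S := by field_simp
        _ ≤ ((p / d + 1 : ℕ) : ℝ) / S := by gcongr
    have h3 : x * τ ≤ ((p * t2 / S + 1 : ℕ) : ℝ) / S := by
      have h2 : ((p * t2 : ℕ) : ℝ) / S ≤ ((p * t2 / S + 1 : ℕ) : ℝ) := by
        have hS' : 0 < S := by norm_num [S]
        rw [div_le_iff₀ hS]
        have : p * t2 < (p * t2 / S + 1) * S := lt_succ_div_mul (p * t2) hS'
        exact_mod_cast this.le
      calc x * τ ≤ ((p : ℝ) / S) * ((t2 : ℝ) / S) := by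
            exact mul_le_mul hp ht hτ (by positivity)
        _ = (((p * t2 : ℕ) : ℝ) / S) / S := by
            push_cast
            field_simp
        _ ≤ ((p * t2 / S + 1 : ℕ) : ℝ) / S := by gcongr
    have h4 := ih (p * t2 / S + 1) (d + 2) (x * τ) (by omega) h3 (mul_nonneg hx hτ)
    have h5 : ∑ i ∈ range n, x * τ ^ (i + 1) / ((d : ℝ) + 2 * ((i + 1 : ℕ) : ℝ)) ≤
        ((sumHi t2 n (p * t2 / S + 1) (d + 2) : ℕ) : ℝ) / S := by
      refine le_trans (le_of_eq ?_) h4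
      exact (sum_congr rfl fun i _ => term_shift x τ d i).symm
    have h6 : x * τ ^ 0 / ((d : ℝ) + 2 * ((0 : ℕ) : ℝ)) = x / d := by simp
    rw [h6, Nat.cast_add, add_div]
    linarith [h1, h5]

/-- the two-sided atanh series, with `t ≥ 0` -/
lemma log_sub_log_ge {t : ℝ} (h0 : 0 ≤ t) (h1 : t < 1) (N : ℕ) :
    ∑ k ∈ range N, 2 * (t * (t ^ 2) ^ k / ((1 : ℝ) + 2 * (k : ℝ))) ≤
      Real.log (1 + t) - Real.log (1 - t) := by
  have hs := hasSum_log_sub_log_of_abs_lt_one (x := t) (by rw [abs_of_nonneg h0]; exact h1)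
  have h2 := sum_le_hasSum (range N) (fun k _ => by positivity) hs
  refine le_trans (le_of_eq ?_) h2
  refine sum_congr rfl fun k _ => ?_
  rw [pow_succ t (2 * k), pow_mul]
  have : (2 * (k : ℝ) + 1) ≠ 0 := by positivity
  have h3 : ((1 : ℝ) + 2 * (k : ℝ)) ≠ 0 := by positivity
  field_simp
  ring

lemma sum_two (x : ℝ) (N : ℕ) :
    ∑ i ∈ range (2 * N), (x ^ (i + 1) / ((i : ℝ) + 1) - (-x) ^ (i + 1) / ((i : ℝ) + 1)) =
      ∑ k ∈ range N, 2 * (x * (x ^ 2) ^ k / ((1 : ℝ) + 2 * (k : ℝ))) := by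
  induction N with
  | zero => simp
  | succ N ih =>
    rw [show 2 * (N + 1) = 2 * N + 1 + 1 by ring, sum_range_succ, sum_range_succ, ih,
      sum_range_succ]
    have e1 : (-x) ^ (2 * N + 1) = - x ^ (2 * N + 1) := Odd.neg_pow ⟨N, rfl⟩ x
    have e2 : (-x) ^ (2 * N + 1 + 1) = x ^ (2 * N + 1 + 1) := Even.neg_pow ⟨N + 1, by ring⟩ x
    rw [e1, e2]
    have e3 : x * (x ^ 2) ^ N = x ^ (2 * N + 1) := by
      rw [← pow_mul]; ring
    rw [e3]
    push_cast
    ring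

lemma log_sub_log_le {t : ℝ} (h0 : 0 ≤ t) (h1 : t < 1) (N : ℕ) :
    Real.log (1 + t) - Real.log (1 - t) ≤
      ∑ k ∈ range N, 2 * (t * (t ^ 2) ^ k / ((1 : ℝ) + 2 * (k : ℝ))) +
        2 * (t ^ (2 * N + 1) / (1 - t)) := by
  have h2 := abs_log_sub_add_sum_range_le (x := t) (by rw [abs_of_nonneg h0]; exact h1) (2 * N)
  have h3 := abs_log_sub_add_sum_range_le (x := -t)
    (by rw [abs_neg, abs_of_nonneg h0]; exact h1) (2 * N)
  rw [abs_of_nonneg h0] at h2
  rw [abs_neg, abs_of_nonneg h0, sub_neg_eq_add] at h3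
  have h4 := (abs_le.1 h2).1
  have h5 := (abs_le.1 h3).2
  have h6 := sum_two t N
  have h7 : ∑ i ∈ range (2 * N), (t ^ (i + 1) / ((i : ℝ) + 1) - (-t) ^ (i + 1) / ((i : ℝ) + 1)) =
      ∑ i ∈ range (2 * N), t ^ (i + 1) / ((i : ℝ) + 1) -
        ∑ i ∈ range (2 * N), (-t) ^ (i + 1) / ((i : ℝ) + 1) := sum_sub_distrib _ _
  rw [h7] at h6
  linarith

/-- the core enclosure of `log (a/b)` -/
theorem core_bounds {a b : ℕ} (hb : 0 < b) (h1 : b ≤ a) (h2 : a ≤ 2 * b) :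
    ((coreLo a b : ℕ) : ℝ) / S ≤ Real.log ((a : ℝ) / b) ∧
      Real.log ((a : ℝ) / b) ≤ ((coreHi a b : ℕ) : ℝ) / S := by
  have hS := S_pos
  have hbR : (0 : ℝ) < b := by exact_mod_cast hb
  have habR : (0 : ℝ) < (a : ℝ) + b := by positivity
  have habN : 0 < a + b := by omega
  set t : ℝ := ((a : ℝ) - b) / ((a : ℝ) + b) with ht
  have h1R : (b : ℝ) ≤ a := by exact_mod_cast h1
  have h2R : (a : ℝ) ≤ 2 * b := by exact_mod_cast h2
  have ht0 : 0 ≤ t := div_nonneg (by linarith) habR.le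
  have ht3 : t ≤ 1 / 3 := by
    rw [ht, div_le_iff₀ habR]
    linarith
  have ht1 : t < 1 := by linarith
  have hlog : Real.log ((a : ℝ) / b) = Real.log (1 + t) - Real.log (1 - t) := by
    have e1 : 1 + t = 2 * a / ((a : ℝ) + b) := by
      rw [ht]; field_simp; ring
    have e2 : 1 - t = 2 * b / ((a : ℝ) + b) := by
      rw [ht]; field_simp; ring
    have haR : (0 : ℝ) < a := by linarith
    rw [← Real.log_div (by linarith) (by linarith), e1, e2]
    congr 1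
    field_simp
  have hcast : (((a - b) * S / (a + b) : ℕ) : ℝ) / S ≤ t := by
    have h3 : (((a - b) * S / (a + b) : ℕ) : ℝ) ≤ (((a - b) * S : ℕ) : ℝ) / ((a + b : ℕ) : ℝ) :=
      Nat.cast_div_le
    have h4 : (((a - b) * S : ℕ) : ℝ) = ((a : ℝ) - b) * S := by
      rw [Nat.cast_mul, Nat.cast_sub h1]
    rw [h4] at h3
    push_cast at h3
    calc (((a - b) * S / (a + b) : ℕ) : ℝ) / S ≤ (((a : ℝ) - b) * S / ((a : ℝ) + b)) / S := by
          gcongr
      _ = t := by rw [ht]; field_simp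
  have hcast2 : t ≤ (((a - b) * S / (a + b) + 1 : ℕ) : ℝ) / S := by
    have h3 : (a - b) * S < ((a - b) * S / (a + b) + 1) * (a + b) :=
      lt_succ_div_mul ((a - b) * S) habN
    have h4 : (((a - b) * S : ℕ) : ℝ) = ((a : ℝ) - b) * S := by
      rw [Nat.cast_mul, Nat.cast_sub h1]
    have h5 : (((a - b) * S : ℕ) : ℝ) ≤ ((((a - b) * S / (a + b) + 1) * (a + b) : ℕ) : ℝ) := by
      exact_mod_cast h3.le
    rw [h4, Nat.cast_mul] at h5
    rw [ht, div_le_div_iff₀ habR hS]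
    push_cast at h5 ⊢
    linarith
  constructor
  · -- lower bound
    rw [hlog]
    set p := (a - b) * S / (a + b) with hp
    have hp2 : ((p * p / S : ℕ) : ℝ) / S ≤ t ^ 2 := by
      have h3 : ((p * p / S : ℕ) : ℝ) ≤ ((p * p : ℕ) : ℝ) / S := Nat.cast_div_le
      calc ((p * p / S : ℕ) : ℝ) / S ≤ (((p * p : ℕ) : ℝ) / S) / S := by gcongr
        _ = ((p : ℝ) / S) ^ 2 := by push_cast; field_simp
        _ ≤ t ^ 2 := by
            have : (0 : ℝ) ≤ (p : ℝ) / S := by positivity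
            gcongr
    have h6 := sumLo_le (p * p / S) (t ^ 2) (by positivity) hp2 NN p 1 t (by norm_num) hcast ht0
    rw [coreLo_eq, ← hp]
    have h7 := log_sub_log_ge ht0 ht1 NN
    have h8 : ∑ k ∈ range NN, 2 * (t * (t ^ 2) ^ k / ((1 : ℝ) + 2 * (k : ℝ))) =
        2 * ∑ i ∈ range NN, t * (t ^ 2) ^ i / (((1 : ℕ) : ℝ) + 2 * (i : ℝ)) := by
      rw [mul_sum]
      refine sum_congr rfl fun k _ => ?_
      push_cast
      ring
    rw [h8] at h7
    push_cast at h6 h7 ⊢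
    calc (2 * (sumLo (p * p / S) NN p 1 : ℝ)) / S = 2 * ((sumLo (p * p / S) NN p 1 : ℝ) / S) := by ring
      _ ≤ 2 * ∑ i ∈ range NN, t * (t ^ 2) ^ i / ((1 : ℝ) + 2 * (i : ℝ)) := by
          gcongr
      _ ≤ _ := h7
  · -- upper bound
    rw [hlog]
    set p := (a - b) * S / (a + b) + 1 with hp
    have hp2 : t ^ 2 ≤ ((p * p / S + 1 : ℕ) : ℝ) / S := by
      have hS' : 0 < S := by norm_num [S]
      have h3 : ((p * p : ℕ) : ℝ) / S ≤ ((p * p / S + 1 : ℕ) : ℝ) := by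
        rw [div_le_iff₀ hS]
        have : p * p < (p * p / S + 1) * S := lt_succ_div_mul (p * p) hS'
        exact_mod_cast this.le
      calc t ^ 2 ≤ ((p : ℝ) / S) ^ 2 := by gcongr
        _ = (((p * p : ℕ) : ℝ) / S) / S := by push_cast; field_simp
        _ ≤ _ := by gcongr
    have h6 := le_sumHi (p * p / S + 1) (t ^ 2) (by positivity) hp2 NN p 1 t (by norm_num) hcast2 ht0
    rw [coreHi_eq, ← hp]
    have h7 := log_sub_log_le ht0 ht1 NN
    have h8 : ∑ k ∈ range NN, 2 * (t * (t ^ 2) ^ k / ((1 : ℝ) + 2 * (k : ℝ))) =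
        2 * ∑ i ∈ range NN, t * (t ^ 2) ^ i / (((1 : ℕ) : ℝ) + 2 * (i : ℝ)) := by
      rw [mul_sum]
      refine sum_congr rfl fun k _ => ?_
      push_cast
      ring
    rw [h8] at h7
    have h9 : 2 * (t ^ (2 * NN + 1) / (1 - t)) ≤ 1 / (S : ℝ) := by
      have h10 : t ^ (2 * NN + 1) ≤ (1 / 3 : ℝ) ^ (2 * NN + 1) := by gcongr
      have h11 : (2 : ℝ) / 3 ≤ 1 - t := by linarith
      have h12 : t ^ (2 * NN + 1) / (1 - t) ≤ (1 / 3 : ℝ) ^ (2 * NN + 1) / (2 / 3) := by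
        gcongr
      have h13 : 2 * ((1 / 3 : ℝ) ^ (2 * NN + 1) / (2 / 3)) ≤ 1 / (S : ℝ) := by
        norm_num [NN, S]
      linarith
    push_cast at h6 ⊢
    have h14 : (2 * ((sumHi (p * p / S + 1) NN p 1 : ℝ)) + 1) / S =
        2 * ((sumHi (p * p / S + 1) NN p 1 : ℝ) / S) + 1 / S := by ring
    rw [h14]
    have h15 : 2 * ∑ i ∈ range NN, t * (t ^ 2) ^ i / ((1 : ℝ) + 2 * (i : ℝ)) ≤
        2 * ((sumHi (p * p / S + 1) NN p 1 : ℝ) / S) := by
      gcongr
    push_cast at h7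
    linarith

lemma coreLo_two : coreLo 2 1 = 12786308645202655646 := by decide +kernel
lemma coreHi_two : coreHi 2 1 = 12786308645202655693 := by decide +kernel

theorem ell_bounds : ((ellLo : ℚ) : ℝ) ≤ Real.log 2 ∧ Real.log 2 ≤ ((ellHi : ℚ) : ℝ) := by
  have h := core_bounds (a := 2) (b := 1) (by norm_num) (by norm_num) (by norm_num)
  rw [coreLo_two, coreHi_two] at h
  have e : (((2 : ℕ) : ℝ) / ((1 : ℕ) : ℝ)) = 2 := by norm_num
  rw [e] at h
  constructor
  · refine le_trans (le_of_eq ?_) h.1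
    norm_num [ellLo, S]
  · refine le_trans h.2 (le_of_eq ?_)
    norm_num [ellHi, S]

lemma ellLo_le : ((ellLo : ℚ) : ℝ) ≤ Real.log 2 := ell_bounds.1
lemma le_ellHi : Real.log 2 ≤ ((ellHi : ℚ) : ℝ) := ell_bounds.2
lemma ellLo_pos : (0 : ℝ) < ((ellLo : ℚ) : ℝ) := by
  norm_num [ellLo]
lemma ellHi_pos : (0 : ℝ) < ((ellHi : ℚ) : ℝ) := by
  norm_num [ellHi]

lemma log_div_shift {a b e : ℕ} (ha : 0 < a) (hb : 0 < b) :
    Real.log ((a : ℝ) / b) = Real.log ((a : ℝ) / ((b * 2 ^ e : ℕ) : ℝ)) + e * Real.log 2 := by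
  have haR : (a : ℝ) ≠ 0 := by exact_mod_cast ha.ne'
  have hbR : (b : ℝ) ≠ 0 := by exact_mod_cast hb.ne'
  have h2 : ((2 : ℝ) ^ e) ≠ 0 := by positivity
  push_cast
  rw [← Real.log_pow, ← Real.log_mul (by positivity) h2]
  congr 1
  field_simp

theorem logLo1_le {a b : ℕ} (hb : 0 < b) (h : b ≤ a) :
    ((logLo1 a b : ℚ) : ℝ) ≤ Real.log ((a : ℝ) / b) := by
  unfold logLo1
  rw [sapp_eq, sapp_eq]
  have ha : 0 < a := by omega
  have hbR : (0 : ℝ) < b := by exact_mod_cast hb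
  have hR : (b : ℝ) ≤ a := by exact_mod_cast h
  set e := Nat.log2 (a / b)
  split_ifs with hc
  · rw [log_div_shift (e := e) ha hb]
    have hb' : 0 < b * 2 ^ e := by positivity
    have hc' := core_bounds hb' hc.1 hc.2
    have h1 : (e : ℝ) * ((ellLo : ℚ) : ℝ) ≤ e * Real.log 2 := by
      gcongr
      exact ellLo_le
    push_cast at hc' ⊢
    linarith [hc'.1]
  · have : (1 : ℝ) ≤ (a : ℝ) / b := by
      rw [le_div_iff₀ hbR]
      linarith
    simpa using Real.log_nonneg this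

theorem le_logHi1 {a b : ℕ} (hb : 0 < b) (h : b ≤ a) :
    Real.log ((a : ℝ) / b) ≤ ((logHi1 a b : ℚ) : ℝ) := by
  unfold logHi1
  rw [sapp_eq, sapp_eq]
  have ha : 0 < a := by omega
  have hbR : (0 : ℝ) < b := by exact_mod_cast hb
  have haR : (0 : ℝ) < a := by exact_mod_cast ha
  set e := Nat.log2 (a / b)
  split_ifs with hc
  · rw [log_div_shift (e := e) ha hb]
    have hb' : 0 < b * 2 ^ e := by positivity
    have hc' := core_bounds hb' hc.1 hc.2
    have h1 : (e : ℝ) * Real.log 2 ≤ (e : ℝ) * ((ellHi : ℚ) : ℝ) := by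
      gcongr
      exact le_ellHi
    push_cast at hc' ⊢
    linarith [hc'.2]
  · have := Real.log_le_sub_one_of_pos (div_pos haR hbR)
    push_cast
    exact this

lemma rat_num_den {y : ℚ} (hy : 0 < y) :
    (y : ℝ) = ((y.num.toNat : ℕ) : ℝ) / ((y.den : ℕ) : ℝ) := by
  have h1 : 0 < y.num := Rat.num_pos.2 hy
  have h2 : ((y.num.toNat : ℕ) : ℤ) = y.num := Int.toNat_of_nonneg h1.le
  have h3 : ((y.num.toNat : ℕ) : ℝ) = (y.num : ℝ) := by
    exact_mod_cast h2
  rw [h3]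
  exact Rat.cast_def y

theorem logLo_le {y : ℚ} (hy : 0 < y) : ((logLo y : ℚ) : ℝ) ≤ Real.log (y : ℝ) := by
  have hnum : 0 < y.num := Rat.num_pos.2 hy
  have hn : 0 < y.num.toNat := by omega
  have hd : 0 < y.den := y.den_pos
  have hdR : (0 : ℝ) < y.den := by exact_mod_cast hd
  have hnR : (0 : ℝ) < y.num.toNat := by exact_mod_cast hn
  have hyR := rat_num_den hy
  unfold logLo
  split_ifs with h
  · have h1 : y.den ≤ y.num.toNat := by
      have : (1 : ℝ) ≤ (y : ℝ) := by exact_mod_cast h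
      rw [hyR, le_div_iff₀ hdR] at this
      have h2 : (y.den : ℝ) ≤ y.num.toNat := by linarith
      exact_mod_cast h2
    rw [hyR]
    exact logLo1_le hd h1
  · have h1 : y.num.toNat ≤ y.den := by
      have : (y : ℝ) < 1 := by
        have : y < 1 := not_le.1 h
        exact_mod_cast this
      rw [hyR, div_lt_one hdR] at this
      exact_mod_cast this.le
    have h2 := le_logHi1 hn h1
    have e : Real.log (y : ℝ) = - Real.log ((y.den : ℝ) / y.num.toNat) := by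
      rw [hyR, Real.log_div hnR.ne' hdR.ne', Real.log_div hdR.ne' hnR.ne']
      ring
    rw [e]
    push_cast
    linarith

theorem le_logHi {y : ℚ} (hy : 0 < y) : Real.log (y : ℝ) ≤ ((logHi y : ℚ) : ℝ) := by
  have hnum : 0 < y.num := Rat.num_pos.2 hy
  have hn : 0 < y.num.toNat := by omega
  have hd : 0 < y.den := y.den_pos
  have hdR : (0 : ℝ) < y.den := by exact_mod_cast hd
  have hnR : (0 : ℝ) < y.num.toNat := by exact_mod_cast hn
  have hyR := rat_num_den hy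
  unfold logHi
  split_ifs with h
  · have h1 : y.den ≤ y.num.toNat := by
      have : (1 : ℝ) ≤ (y : ℝ) := by exact_mod_cast h
      rw [hyR, le_div_iff₀ hdR] at this
      have h2 : (y.den : ℝ) ≤ y.num.toNat := by linarith
      exact_mod_cast h2
    rw [hyR]
    exact le_logHi1 hd h1
  · have h1 : y.num.toNat ≤ y.den := by
      have : (y : ℝ) < 1 := by
        have : y < 1 := not_le.1 h
        exact_mod_cast this
      rw [hyR, div_lt_one hdR] at this
      exact_mod_cast this.le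
    have h2 := logLo1_le hn h1
    have e : Real.log (y : ℝ) = - Real.log ((y.den : ℝ) / y.num.toNat) := by
      rw [hyR, Real.log_div hnR.ne' hdR.ne', Real.log_div hdR.ne' hnR.ne']
      ring
    rw [e]
    push_cast
    linarith

end Vale.Agent.P322N
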