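import Vale.Agent.P322N.Target
import Vale.Agent.P322N.LogEval

/-! Real-analysis facts for the numeric Bellman step. -/

namespace Vale.Agent.P322N

open Real Vale.Agent.P322V Set

/-- `D p = log 2 - psi p` -/
noncomputable def DD (p : ℝ) : ℝ := Real.log 2 - psi p

/-- `E y = D y / y^2` -/
noncomputable def EE (y : ℝ) : ℝ := DD y / y ^ 2

lemma log_two_pos' : 0 < Real.log 2 := Real.log_pos (by norm_num)

lemma hd_sq (x : ℝ) : HasDerivAt (fun y : ℝ => y ^ 2) (2 * x) x := by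
  simpa using hasDerivAt_pow 2 x

lemma DD_formula {p : ℝ} (h0 : 0 ≤ p) (h1 : p ≤ 1) :
    DD p = (1 + p) / 2 * Real.log (1 + p) + (1 - p) / 2 * Real.log (1 - p) := by
  unfold DD
  rcases eq_or_lt_of_le h1 with rfl | h2
  · rw [psi_one]
    norm_num
  · rw [psi_eq_logs (by rw [abs_lt]; constructor <;> linarith)]
    ring

lemma DD_formula_neg {p : ℝ} (h0 : -1 ≤ p) (h1 : p ≤ 1) :
    DD p = (1 + p) / 2 * Real.log (1 + p) + (1 - p) / 2 * Real.log (1 - p) := by
  rcases le_total 0 p with h | h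
  · exact DD_formula h h1
  · have h2 := DD_formula (p := -p) (by linarith) (by linarith)
    have h3 : DD (-p) = DD p := by
      unfold DD
      rw [psi_neg]
    rw [h3] at h2
    rw [h2]
    have e1 : 1 + -p = 1 - p := by ring
    have e2 : 1 - -p = 1 + p := by ring
    rw [e1, e2]
    ring

lemma hasDerivAt_DD {z : ℝ} (hz : |z| < 1) : HasDerivAt DD (ath z) z := by
  have h := (hasDerivAt_psi hz).const_sub (Real.log 2)
  rw [neg_neg] at h
  exact h

lemma abs_lt_of_Ico {y : ℝ} (h : y ∈ Ico (0 : ℝ) 1) : |y| < 1 := by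
  rw [abs_lt]
  constructor <;> linarith [h.1, h.2]

/-- monotonicity from a derivative on `[0,b)`. -/
lemma mono_Ico {f f' : ℝ → ℝ} {b : ℝ}
    (hf : ∀ x ∈ Ico (0 : ℝ) b, HasDerivAt f (f' x) x)
    (hf' : ∀ x ∈ Ioo (0 : ℝ) b, 0 ≤ f' x) : MonotoneOn f (Ico 0 b) := by
  apply monotoneOn_of_deriv_nonneg (convex_Ico 0 b)
  · exact fun x hx => (hf x hx).continuousAt.continuousWithinAt
  · rw [interior_Ico]
    exact fun x hx => (hf x ⟨hx.1.le, hx.2⟩).differentiableAt.differentiableWithinAt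
  · rw [interior_Ico]
    intro x hx
    rw [(hf x ⟨hx.1.le, hx.2⟩).deriv]
    exact hf' x hx

lemma one_sub_sq_pos {y : ℝ} (h0 : 0 ≤ y) (h1 : y < 1) : 0 < 1 - y ^ 2 := by
  nlinarith

lemma ath_zero : ath 0 = 0 := by
  simp [ath]

lemma ath_nonneg {y : ℝ} (h0 : 0 ≤ y) (h1 : y < 1) : 0 ≤ ath y := by
  unfold ath
  apply mul_nonneg (by norm_num)
  apply Real.log_nonneg
  rw [le_div_iff₀ (by linarith)]
  linarith

/-- `y ≤ ath y` on `[0,1)`. -/
lemma self_le_ath {y : ℝ} (h0 : 0 ≤ y) (h1 : y < 1) : y ≤ ath y := by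
  have hm : MonotoneOn (fun x => ath x - x) (Ico 0 1) := by
    apply mono_Ico (f' := fun x => 1 / (1 - x ^ 2) - 1)
    · intro x hx
      exact (hasDerivAt_ath (abs_lt_of_Ico hx)).sub (hasDerivAt_id x)
    · intro x hx
      have h2 := one_sub_sq_pos hx.1.le hx.2
      have h3 : 1 - x ^ 2 ≤ 1 := by nlinarith
      have h4 : 1 ≤ 1 / (1 - x ^ 2) := by
        rw [le_div_iff₀ h2]
        linarith
      linarith
  have := hm (left_mem_Ico.2 one_pos) ⟨h0, h1⟩ h0
  simp only [ath_zero] at this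
  linarith

/-- `ath y ≤ y / (1 - y^2)` on `[0,1)`. -/
lemma ath_le {y : ℝ} (h0 : 0 ≤ y) (h1 : y < 1) : ath y ≤ y / (1 - y ^ 2) := by
  have hm : MonotoneOn (fun x => x / (1 - x ^ 2) - ath x) (Ico 0 1) := by
    apply mono_Ico (f' := fun x => (1 * (1 - x ^ 2) - x * (-(2 * x))) / (1 - x ^ 2) ^ 2 - 1 / (1 - x ^ 2))
    · intro x hx
      have h2 := one_sub_sq_pos hx.1 hx.2
      have h3 : HasDerivAt (fun x : ℝ => 1 - x ^ 2) (-(2 * x)) x := (hd_sq x).const_sub 1
      exact ((hasDerivAt_id x).div h3 h2.ne').sub (hasDerivAt_ath (abs_lt_of_Ico hx))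
    · intro x hx
      have h2 := one_sub_sq_pos hx.1.le hx.2
      have e : (1 * (1 - x ^ 2) - x * (-(2 * x))) / (1 - x ^ 2) ^ 2 - 1 / (1 - x ^ 2) =
          2 * x ^ 2 / (1 - x ^ 2) ^ 2 := by
        field_simp
        ring
      rw [e]
      positivity
  have := hm (left_mem_Ico.2 one_pos) ⟨h0, h1⟩ h0
  simp only [ath_zero] at this
  norm_num at this
  linarith

/-- `2 D y ≤ y ath y` on `[0,1)`. -/
lemma two_DD_le {y : ℝ} (h0 : 0 ≤ y) (h1 : y < 1) : 2 * DD y ≤ y * ath y := by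
  have hm : MonotoneOn (fun x => x * ath x - 2 * DD x) (Ico 0 1) := by
    apply mono_Ico (f' := fun x => 1 * ath x + x * (1 / (1 - x ^ 2)) - 2 * ath x)
    · intro x hx
      have := ((hasDerivAt_id x).mul (hasDerivAt_ath (abs_lt_of_Ico hx))).sub
        ((hasDerivAt_DD (abs_lt_of_Ico hx)).const_mul 2)
      exact this
    · intro x hx
      have h3 := ath_le hx.1.le hx.2
      have e : x * (1 / (1 - x ^ 2)) = x / (1 - x ^ 2) := by ring
      rw [e]
      linarith
  have := hm (left_mem_Ico.2 one_pos) ⟨h0, h1⟩ h0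
  have e0 : DD 0 = 0 := by simp [DD, psi_zero]
  simp only [e0, ath_zero] at this
  norm_num at this
  linarith

/-- `y^2/2 ≤ D y` on `[0,1)`. -/
lemma half_sq_le_DD {y : ℝ} (h0 : 0 ≤ y) (h1 : y < 1) : y ^ 2 / 2 ≤ DD y := by
  have hm : MonotoneOn (fun x => DD x - x ^ 2 / 2) (Ico 0 1) := by
    apply mono_Ico (f' := fun x => ath x - x)
    · intro x hx
      have h3 := (hd_sq x).div_const 2
      have := (hasDerivAt_DD (abs_lt_of_Ico hx)).sub h3
      have e : ath x - x = ath x - 2 * x / 2 := by ring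
      rw [e]
      exact this
    · intro x hx
      have := self_le_ath hx.1.le hx.2
      linarith
  have := hm (left_mem_Ico.2 one_pos) ⟨h0, h1⟩ h0
  have e0 : DD 0 = 0 := by simp [DD, psi_zero]
  simp only [e0] at this
  norm_num at this
  linarith

lemma DD_one : DD 1 = Real.log 2 := by
  simp [DD, psi_one]

lemma continuous_DD : Continuous DD := by
  unfold DD
  exact continuous_const.sub continuous_psi

/-- `E` is monotone on `(0,1]`. -/
lemma EE_mono : MonotoneOn EE (Ioc 0 1) := by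
  apply monotoneOn_of_deriv_nonneg (convex_Ioc 0 1)
  · intro x hx
    apply ContinuousAt.continuousWithinAt
    unfold EE
    apply ContinuousAt.div continuous_DD.continuousAt (by fun_prop)
    exact pow_ne_zero 2 hx.1.ne'
  · rw [interior_Ioc]
    intro x hx
    have h1 : HasDerivAt EE ((ath x * x ^ 2 - DD x * (2 * x)) / (x ^ 2) ^ 2) x := by
      have h2 := (hasDerivAt_DD (abs_lt_of_Ico ⟨hx.1.le, hx.2⟩)).div
        (hd_sq x)
        (pow_ne_zero 2 hx.1.ne')
      exact h2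
    exact h1.differentiableAt.differentiableWithinAt
  · rw [interior_Ioc]
    intro x hx
    have h1 : HasDerivAt EE ((ath x * x ^ 2 - DD x * (2 * x)) / (x ^ 2) ^ 2) x := by
      have h2 := (hasDerivAt_DD (abs_lt_of_Ico ⟨hx.1.le, hx.2⟩)).div
        (hd_sq x)
        (pow_ne_zero 2 hx.1.ne')
      exact h2
    rw [h1.deriv]
    apply div_nonneg _ (by positivity)
    have h3 := two_DD_le hx.1.le hx.2
    nlinarith [hx.1]

lemma EE_one : EE 1 = Real.log 2 := by
  simp [EE, DD_one]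

lemma EE_le_log_two {y : ℝ} (h0 : 0 < y) (h1 : y ≤ 1) : EE y ≤ Real.log 2 := by
  have := EE_mono ⟨h0, h1⟩ ⟨one_pos, le_refl (1 : ℝ)⟩ h1
  rwa [EE_one] at this

lemma half_le_EE {y : ℝ} (h0 : 0 < y) (h1 : y ≤ 1) : 1 / 2 ≤ EE y := by
  unfold EE
  rw [le_div_iff₀ (by positivity)]
  rcases eq_or_lt_of_le h1 with rfl | h2
  · rw [DD_one]
    have := Real.log_two_gt_d9
    norm_num
    linarith
  · have := half_sq_le_DD h0.le h2
    linarith

lemma DD_eq_sq_mul_EE {y : ℝ} (h0 : y ≠ 0) : DD y = y ^ 2 * EE y := by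
  unfold EE
  field_simp

lemma mul_log_div' {x y : ℝ} (hx : 0 ≤ x) (hy : 0 < y) :
    x * Real.log (x / y) = x * Real.log x - x * Real.log y := by
  rcases eq_or_lt_of_le hx with rfl | h
  · simp
  · rw [Real.log_div h.ne' hy.ne']
    ring

/-- The chain-rule identity behind the defect formula. -/
lemma defect_eq {A B : ℝ} (hA0 : 0 ≤ A) (hA1 : A < 1) (hB : 0 < B) (hAB : A + B ≤ 1) :
    psi A - (psi (A + B) + psi (A - B)) / 2 =
      B ^ 2 * (EE (B / (1 - A)) / (2 * (1 - A)) + EE (B / (1 + A)) / (2 * (1 + A))) := by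
  have h1A : 0 < 1 - A := by linarith
  have h2A : 0 < 1 + A := by linarith
  have hy1 : B / (1 - A) ≠ 0 := (div_pos hB h1A).ne'
  have hy2 : B / (1 + A) ≠ 0 := (div_pos hB h2A).ne'
  have e1 : B ^ 2 * (EE (B / (1 - A)) / (2 * (1 - A))) = (1 - A) / 2 * DD (B / (1 - A)) := by
    rw [DD_eq_sq_mul_EE hy1]
    field_simp
  have e2 : B ^ 2 * (EE (B / (1 + A)) / (2 * (1 + A))) = (1 + A) / 2 * DD (B / (1 + A)) := by
    rw [DD_eq_sq_mul_EE hy2]
    field_simp
  rw [mul_add, e1, e2]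
  have hy10 : 0 ≤ B / (1 - A) := (div_pos hB h1A).le
  have hy11 : B / (1 - A) ≤ 1 := by
    rw [div_le_one h1A]
    linarith
  have hy20 : 0 ≤ B / (1 + A) := (div_pos hB h2A).le
  have hy21 : B / (1 + A) ≤ 1 := by
    rw [div_le_one h2A]
    linarith
  rw [DD_formula hy10 hy11, DD_formula hy20 hy21]
  have p1 : 1 + B / (1 - A) = (1 - (A - B)) / (1 - A) := by field_simp; ring
  have p2 : 1 - B / (1 - A) = (1 - (A + B)) / (1 - A) := by field_simp; ring
  have p3 : 1 + B / (1 + A) = (1 + (A + B)) / (1 + A) := by field_simp; ring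
  have p4 : 1 - B / (1 + A) = (1 + (A - B)) / (1 + A) := by field_simp; ring
  rw [p1, p2, p3, p4]
  have hs0 : 0 ≤ 1 - (A + B) := by linarith
  have hs1 : 0 ≤ 1 - (A - B) := by linarith
  have hs2 : 0 ≤ 1 + (A + B) := by linarith
  have hs3 : 0 ≤ 1 + (A - B) := by linarith
  have m1 := mul_log_div' hs1 h1A
  have m2 := mul_log_div' hs0 h1A
  have m3 := mul_log_div' hs2 h2A
  have m4 := mul_log_div' hs3 h2A
  have t1 : (1 - A) / 2 * ((1 - (A - B)) / (1 - A) / 2 * Real.log ((1 - (A - B)) / (1 - A)) +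
      (1 - (A + B)) / (1 - A) / 2 * Real.log ((1 - (A + B)) / (1 - A))) =
      (1 / 4) * ((1 - (A - B)) * Real.log ((1 - (A - B)) / (1 - A)) +
        (1 - (A + B)) * Real.log ((1 - (A + B)) / (1 - A))) := by
    field_simp
    ring
  have t2 : (1 + A) / 2 * ((1 + (A + B)) / (1 + A) / 2 * Real.log ((1 + (A + B)) / (1 + A)) +
      (1 + (A - B)) / (1 + A) / 2 * Real.log ((1 + (A - B)) / (1 + A))) =
      (1 / 4) * ((1 + (A + B)) * Real.log ((1 + (A + B)) / (1 + A)) +
        (1 + (A - B)) * Real.log ((1 + (A - B)) / (1 + A))) := by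
    field_simp
    ring
  rw [t1, t2, m1, m2, m3, m4]
  have q1 : psi A = Real.log 2 - DD A := by simp [DD]
  have q2 : psi (A + B) = Real.log 2 - DD (A + B) := by simp [DD]
  have q3 : psi (A - B) = Real.log 2 - DD (A - B) := by simp [DD]
  rw [q1, q2, q3, DD_formula_neg (by linarith) hA1.le, DD_formula_neg (by linarith) hAB,
    DD_formula_neg (by linarith) (by linarith)]
  ring

end Vale.Agent.P322N
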