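import Vale.Agent.P322N.Reals

/-! More monotonicity facts, and the enclosures of `D`, `psi`, `E`, `ν`, `ath`. -/

namespace Vale.Agent.P322N

open Real Vale.Agent.P322V Set

lemma nu_nonneg {y : ℝ} (h0 : 0 ≤ y) (h1 : y < 1) : 0 ≤ nu y := by
  unfold nu
  have h2 := one_sub_sq_pos h0 h1
  have h3 : Real.log (1 - y ^ 2) ≤ 0 := Real.log_nonpos h2.le (by nlinarith)
  linarith

lemma nu_mono {y y' : ℝ} (h0 : 0 ≤ y) (h : y ≤ y') (h1 : y' < 1) : nu y ≤ nu y' := by
  unfold nu
  have h2 := one_sub_sq_pos (h0.trans h) h1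
  have h3 : 1 - y' ^ 2 ≤ 1 - y ^ 2 := by nlinarith
  have := Real.log_le_log h2 h3
  linarith

lemma half_le_nu_hat {y : ℝ} (h0 : 0 < y) (h1 : y < 1) : 1 / 2 ≤ nu y / y ^ 2 := by
  rw [le_div_iff₀ (by positivity)]
  unfold nu
  have h2 := one_sub_sq_pos h0.le h1
  have := Real.log_le_sub_one_of_pos h2
  linarith

lemma nu_hat_mono {y0 y1 : ℝ} (h0 : 0 < y0) (h : y0 ≤ y1) (h1 : y1 < 1) :
    nu y0 / y0 ^ 2 ≤ nu y1 / y1 ^ 2 := by
  have hy1 : 0 < y1 := h0.trans_le h
  have h2 := one_sub_sq_pos hy1.le h1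
  have hu0 : 0 < y0 ^ 2 := by positivity
  have hu1 : 0 < y1 ^ 2 := by positivity
  have hle : y0 ^ 2 ≤ y1 ^ 2 := by gcongr
  have hc := strictConcaveOn_log_Ioi.concaveOn
  set a := y0 ^ 2 / y1 ^ 2 with ha
  have ha0 : 0 ≤ a := by positivity
  have ha1 : a ≤ 1 := by
    rw [ha, div_le_one hu1]
    exact hle
  have h3 := hc.2 (x := 1 - y1 ^ 2) (y := 1) h2 (by norm_num) ha0 (by linarith : 0 ≤ 1 - a)
    (by ring)
  simp only [smul_eq_mul, Real.log_one, mul_zero, add_zero, mul_one] at h3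
  have e : a * (1 - y1 ^ 2) + (1 - a) = 1 - y0 ^ 2 := by
    rw [ha]
    field_simp
    ring
  rw [e] at h3
  rw [div_le_div_iff₀ hu0 hu1]
  unfold nu
  have h4 : a * y1 ^ 2 = y0 ^ 2 := by
    rw [ha]
    field_simp
  have h5 : y1 ^ 2 * (a * Real.log (1 - y1 ^ 2)) = y0 ^ 2 * Real.log (1 - y1 ^ 2) := by
    rw [← h4]
    ring
  have h6 := mul_le_mul_of_nonneg_left h3 hu1.le
  rw [h5] at h6
  nlinarith [h6]

lemma ath_hat_mono {p0 p1 : ℝ} (h0 : 0 < p0) (h : p0 ≤ p1) (h1 : p1 < 1) :
    ath p0 / p0 ≤ ath p1 / p1 := by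
  have hm : MonotoneOn (fun x => ath x / x) (Ioo 0 1) := by
    have hd : ∀ x ∈ Ioo (0 : ℝ) 1, HasDerivAt (fun x => ath x / x)
        ((1 / (1 - x ^ 2) * x - ath x * 1) / x ^ 2) x := by
      intro x hx
      exact (hasDerivAt_ath (abs_lt_of_Ico ⟨hx.1.le, hx.2⟩)).div (hasDerivAt_id x) hx.1.ne'
    apply monotoneOn_of_deriv_nonneg (convex_Ioo 0 1)
    · exact fun x hx => (hd x hx).continuousAt.continuousWithinAt
    · rw [interior_Ioo]
      exact fun x hx => (hd x hx).differentiableAt.differentiableWithinAt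
    · rw [interior_Ioo]
      intro x hx
      rw [(hd x hx).deriv]
      apply div_nonneg _ (by positivity)
      have h3 := ath_le hx.1.le hx.2
      have e : 1 / (1 - x ^ 2) * x = x / (1 - x ^ 2) := by ring
      rw [e]
      linarith
  exact hm ⟨h0, h.trans_lt h1⟩ ⟨h0.trans_le h, h1⟩ h

lemma one_le_ath_hat {p : ℝ} (h0 : 0 < p) (h1 : p < 1) : 1 ≤ ath p / p := by
  rw [le_div_iff₀ h0]
  have := self_le_ath h0.le h1
  linarith

lemma ath_mono {a b : ℝ} (h0 : 0 ≤ a) (h : a ≤ b) (h1 : b < 1) : ath a ≤ ath b := by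
  have hm : MonotoneOn ath (Ico 0 1) := by
    apply mono_Ico (f' := fun x => 1 / (1 - x ^ 2))
    · intro x hx
      exact hasDerivAt_ath (abs_lt_of_Ico hx)
    · intro x hx
      have h2 := one_sub_sq_pos hx.1.le hx.2
      positivity
  exact hm ⟨h0, h.trans_lt h1⟩ ⟨h0.trans h, h1⟩ h

/-- concave swap -/
lemma concave_swap {f : ℝ → ℝ} {s : Set ℝ} (hf : ConcaveOn ℝ s f) {u v w z : ℝ}
    (hu : u ∈ s) (hz : z ∈ s) (huv : u ≤ v) (hvz : v ≤ z) (huw : u ≤ w) (hwz : w ≤ z)
    (hsum : v + w = u + z) : f u + f z ≤ f v + f w := by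
  rcases eq_or_lt_of_le (huv.trans hvz) with h | h
  · have hv : v = u := le_antisymm (by linarith) huv
    have hw : w = u := le_antisymm (by linarith) huw
    subst hv
    subst hw
    subst h
    exact le_refl _
  · have hd : 0 < z - u := by linarith
    set a := (z - v) / (z - u) with ha
    have ha0 : 0 ≤ a := div_nonneg (by linarith) hd.le
    have ha1 : a ≤ 1 := by
      rw [ha, div_le_one hd]
      linarith
    have e1 : a * u + (1 - a) * z = v := by
      rw [ha]
      field_simp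
      ring
    have e2 : (1 - a) * u + a * z = w := by
      have hw : w = u + z - v := by linarith
      rw [ha, hw]
      field_simp
      ring
    have h1 := hf.2 hu hz ha0 (by linarith : 0 ≤ 1 - a) (by ring)
    have h2 := hf.2 hu hz (by linarith : 0 ≤ 1 - a) ha0 (by ring)
    simp only [smul_eq_mul] at h1 h2
    rw [e1] at h1
    rw [e2] at h2
    nlinarith

/-- `ψ(A₀-B) - ψ(A₀+B) ≤ ψ(A-B) - ψ(A+B)` -/
lemma psi_shift {A0 A B : ℝ} (h0 : 0 ≤ A0) (h : A0 ≤ A) (hB : 0 ≤ B) (hAB : A + B ≤ 1) :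
    psi (A0 - B) - psi (A0 + B) ≤ psi (A - B) - psi (A + B) := by
  have := concave_swap concaveOn_psi (u := A0 - B) (z := A + B) (v := A - B) (w := A0 + B)
    ⟨by linarith, by linarith⟩ ⟨by linarith, hAB⟩ (by linarith) (by linarith) (by linarith)
    (by linarith) (by ring)
  linarith

section F

variable {A : ℝ}

lemma F_hasDeriv (hA : 0 ≤ A) {t : ℝ} (ht0 : 0 ≤ t) (ht : A + t < 1) :
    HasDerivAt (fun t => psi (A - t) - psi (A + t)) (ath (A - t) + ath (A + t)) t := by
  have h1 : |A + t| < 1 := by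
    rw [abs_lt]; constructor <;> linarith
  have h2 : |A - t| < 1 := by
    rw [abs_lt]; constructor <;> linarith
  have i1 : HasDerivAt (fun t => A + t) 1 t := by
    simpa using (hasDerivAt_id t).const_add A
  have i2 : HasDerivAt (fun t => A - t) (-1) t := by
    simpa using (hasDerivAt_id t).const_sub A
  have d1 := (hasDerivAt_psi h1).comp t i1
  have d2 := (hasDerivAt_psi h2).comp t i2
  have := d2.sub d1
  exact this.congr_deriv (by ring)

lemma v_hasDeriv (hA : 0 ≤ A) {t : ℝ} (ht0 : 0 ≤ t) (ht : A + t < 1) :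
    HasDerivAt (fun t => ath (A - t) + ath (A + t))
      (1 / (1 - (A + t) ^ 2) - 1 / (1 - (A - t) ^ 2)) t := by
  have h1 : |A + t| < 1 := by
    rw [abs_lt]; constructor <;> linarith
  have h2 : |A - t| < 1 := by
    rw [abs_lt]; constructor <;> linarith
  have i1 : HasDerivAt (fun t => A + t) 1 t := by
    simpa using (hasDerivAt_id t).const_add A
  have i2 : HasDerivAt (fun t => A - t) (-1) t := by
    simpa using (hasDerivAt_id t).const_sub A
  have d1 := (hasDerivAt_ath h1).comp t i1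
  have d2 := (hasDerivAt_ath h2).comp t i2
  have := d2.add d1
  exact this.congr_deriv (by ring)

lemma vp_nonneg (hA : 0 ≤ A) {t : ℝ} (ht0 : 0 ≤ t) (ht : A + t < 1) :
    0 ≤ 1 / (1 - (A + t) ^ 2) - 1 / (1 - (A - t) ^ 2) := by
  have h1 : 0 < 1 - (A + t) ^ 2 := one_sub_sq_pos (by linarith) ht
  have h2 : 1 - (A + t) ^ 2 ≤ 1 - (A - t) ^ 2 := by nlinarith [mul_nonneg hA ht0]
  have := one_div_le_one_div_of_le h1 h2
  linarith

/-- `F(t) / t` is nondecreasing -/
lemma F_hat_mono (hA : 0 ≤ A) {t0 t : ℝ} (h0 : 0 < t0) (h : t0 ≤ t) (ht : A + t ≤ 1) :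
    (psi (A - t0) - psi (A + t0)) / t0 ≤ (psi (A - t) - psi (A + t)) / t := by
  have hR : ∀ x, 0 ≤ x → A + x < 1 →
      psi (A - x) - psi (A + x) ≤ x * (ath (A - x) + ath (A + x)) := by
    intro x hx hx1
    have hm : MonotoneOn (fun t => t * (ath (A - t) + ath (A + t)) - (psi (A - t) - psi (A + t)))
        (Ico 0 (1 - A)) := by
      apply mono_Ico (f' := fun t => 1 * (ath (A - t) + ath (A + t)) +
        t * (1 / (1 - (A + t) ^ 2) - 1 / (1 - (A - t) ^ 2)) - (ath (A - t) + ath (A + t)))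
      · intro y hy
        have hy1 : A + y < 1 := by linarith [hy.2]
        exact ((hasDerivAt_id y).mul (v_hasDeriv hA hy.1 hy1)).sub (F_hasDeriv hA hy.1 hy1)
      · intro y hy
        have hy1 : A + y < 1 := by linarith [hy.2]
        have := mul_nonneg hy.1.le (vp_nonneg hA hy.1.le hy1)
        linarith
    have h1 := hm (left_mem_Ico.2 (by linarith)) ⟨hx, by linarith⟩ hx
    simp only [zero_mul, sub_zero, add_zero] at h1
    linarith
  have hA1 : A + t0 < 1 ∨ A + t0 = 1 := lt_or_eq_of_le (by linarith)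
  have hQ : MonotoneOn (fun t => (psi (A - t) - psi (A + t)) / t) (Ioc 0 (1 - A)) := by
    have hd : ∀ x ∈ Ioo (0 : ℝ) (1 - A), HasDerivAt (fun t => (psi (A - t) - psi (A + t)) / t)
        (((ath (A - x) + ath (A + x)) * x - (psi (A - x) - psi (A + x)) * 1) / x ^ 2) x := by
      intro x hx
      exact (F_hasDeriv hA hx.1.le (by linarith [hx.2])).div (hasDerivAt_id x) hx.1.ne'
    apply monotoneOn_of_deriv_nonneg (convex_Ioc 0 (1 - A))
    · intro x hx
      apply ContinuousAt.continuousWithinAt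
      apply ContinuousAt.div _ continuousAt_id hx.1.ne'
      exact (continuous_psi.comp (by fun_prop)).continuousAt.sub
        (continuous_psi.comp (by fun_prop)).continuousAt
    · rw [interior_Ioc]
      exact fun x hx => (hd x hx).differentiableAt.differentiableWithinAt
    · rw [interior_Ioc]
      intro x hx
      rw [(hd x hx).deriv]
      apply div_nonneg _ (by positivity)
      have := hR x hx.1.le (by linarith [hx.2])
      nlinarith
  exact hQ ⟨h0, by linarith⟩ ⟨h0.trans_le h, by linarith⟩ h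

/-- tangent bound: `2 t ath A ≤ F t` -/
lemma F_ge (hA : 0 ≤ A) {t : ℝ} (ht0 : 0 ≤ t) (ht : A + t ≤ 1) (hA1 : A < 1) :
    2 * t * ath A ≤ psi (A - t) - psi (A + t) := by
  have hv : MonotoneOn (fun t => ath (A - t) + ath (A + t)) (Ico 0 (1 - A)) := by
    apply mono_Ico (f' := fun t => 1 / (1 - (A + t) ^ 2) - 1 / (1 - (A - t) ^ 2))
    · intro y hy
      exact v_hasDeriv hA hy.1 (by linarith [hy.2])
    · intro y hy
      exact vp_nonneg hA hy.1.le (by linarith [hy.2])
  have hm : MonotoneOn (fun t => (psi (A - t) - psi (A + t)) - t * (2 * ath A)) (Icc 0 (1 - A)) := by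
    have hd : ∀ x ∈ Ioo (0 : ℝ) (1 - A), HasDerivAt
        (fun t => (psi (A - t) - psi (A + t)) - t * (2 * ath A))
        ((ath (A - x) + ath (A + x)) - 1 * (2 * ath A)) x := by
      intro x hx
      exact (F_hasDeriv hA hx.1.le (by linarith [hx.2])).sub ((hasDerivAt_id x).mul_const _)
    apply monotoneOn_of_deriv_nonneg (convex_Icc 0 (1 - A))
    · apply Continuous.continuousOn
      exact ((continuous_psi.comp (by fun_prop)).sub (continuous_psi.comp (by fun_prop))).sub
        (by fun_prop)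
    · rw [interior_Icc]
      exact fun x hx => (hd x hx).differentiableAt.differentiableWithinAt
    · rw [interior_Icc]
      intro x hx
      rw [(hd x hx).deriv]
      have h1 := hv (left_mem_Ico.2 (by linarith)) ⟨hx.1.le, hx.2⟩ hx.1.le
      simp only [sub_zero, add_zero] at h1
      linarith
  have h1 := hm (left_mem_Icc.2 (by linarith)) ⟨ht0, by linarith⟩ ht0
  simp only [sub_zero, add_zero, zero_mul, sub_self] at h1
  linarith

end F

end Vale.Agent.P322N
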