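import Vale.Agent.P322N.Reals2

/-! Enclosures of `D`, `psi`, `E`, `ν`, `ath` by the kernel-evaluated rationals. -/

namespace Vale.Agent.P322N

open Real Vale.Agent.P322V Set

/-- a general step: `a ≤ b`, `0 ≤ b`, `0 < c ≤ c'` gives `a / c' ≤ b / c`. -/
lemma div_le_div_gen {a b c c' : ℝ} (hab : a ≤ b) (hb : 0 ≤ b) (hc : 0 < c) (hcc : c ≤ c') :
    a / c' ≤ b / c := by
  have hc' : 0 < c' := hc.trans_le hcc
  calc a / c' ≤ b / c' := by gcongr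
    _ ≤ b / c := by gcongr

lemma DLo_le {p : ℚ} (h0 : 0 ≤ p) (h1 : p ≤ 1) : ((DLo p : ℚ) : ℝ) ≤ DD (p : ℝ) := by
  have h0R : (0 : ℝ) ≤ p := by exact_mod_cast h0
  have h1R : (p : ℝ) ≤ 1 := by exact_mod_cast h1
  unfold DLo
  split_ifs with h
  · subst h
    simp only [Rat.cast_one, DD_one]
    exact ellLo_le
  · have hlt : p < 1 := lt_of_le_of_ne h1 h
    have hltR : (p : ℝ) < 1 := by exact_mod_cast hlt
    rw [DD_formula h0R h1R]
    have a1 := logLo_le (y := 1 + p) (by linarith)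
    have a2 := logLo_le (y := 1 - p) (by linarith)
    push_cast at a1 a2 ⊢
    have c1 : (0 : ℝ) ≤ (1 + (p : ℝ)) / 2 := by linarith
    have c2 : (0 : ℝ) ≤ (1 - (p : ℝ)) / 2 := by linarith
    exact add_le_add (mul_le_mul_of_nonneg_left a1 c1) (mul_le_mul_of_nonneg_left a2 c2)

lemma le_DHi {p : ℚ} (h0 : 0 ≤ p) (h1 : p ≤ 1) : DD (p : ℝ) ≤ ((DHi p : ℚ) : ℝ) := by
  have h0R : (0 : ℝ) ≤ p := by exact_mod_cast h0
  have h1R : (p : ℝ) ≤ 1 := by exact_mod_cast h1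
  unfold DHi
  split_ifs with h
  · subst h
    simp only [Rat.cast_one, DD_one]
    exact le_ellHi
  · have hlt : p < 1 := lt_of_le_of_ne h1 h
    have hltR : (p : ℝ) < 1 := by exact_mod_cast hlt
    rw [DD_formula h0R h1R]
    have a1 := le_logHi (y := 1 + p) (by linarith)
    have a2 := le_logHi (y := 1 - p) (by linarith)
    push_cast at a1 a2 ⊢
    have c1 : (0 : ℝ) ≤ (1 + (p : ℝ)) / 2 := by linarith
    have c2 : (0 : ℝ) ≤ (1 - (p : ℝ)) / 2 := by linarith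
    exact add_le_add (mul_le_mul_of_nonneg_left a1 c1) (mul_le_mul_of_nonneg_left a2 c2)

lemma absQ_nonneg (z : ℚ) : 0 ≤ absQ z := by
  unfold absQ
  split_ifs with h
  · exact h
  · linarith [not_le.1 h]

lemma absQ_le {z : ℚ} (h0 : -1 ≤ z) (h1 : z ≤ 1) : absQ z ≤ 1 := by
  unfold absQ
  split_ifs with h
  · exact h1
  · linarith

lemma psi_absQ (z : ℚ) : psi ((absQ z : ℚ) : ℝ) = psi (z : ℝ) := by
  unfold absQ
  split_ifs with h
  · rfl
  · push_cast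
    exact psi_neg _

lemma psiLo_le {z : ℚ} (h0 : -1 ≤ z) (h1 : z ≤ 1) : ((psiLo z : ℚ) : ℝ) ≤ psi (z : ℝ) := by
  have a := le_DHi (absQ_nonneg z) (absQ_le h0 h1)
  unfold DD at a
  rw [psi_absQ] at a
  unfold psiLo
  push_cast
  linarith [ellLo_le]

lemma le_psiHi {z : ℚ} (h0 : -1 ≤ z) (h1 : z ≤ 1) : psi (z : ℝ) ≤ ((psiHi z : ℚ) : ℝ) := by
  have a := DLo_le (absQ_nonneg z) (absQ_le h0 h1)
  unfold DD at a
  rw [psi_absQ] at a
  unfold psiHi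
  push_cast
  linarith [le_ellHi]

/-- lower bound of `E y` for any `y ≥ y0`. -/
lemma ELo_le {y0 : ℚ} {y : ℝ} (h0 : 0 ≤ y0) (hle : (y0 : ℝ) ≤ y) (hy0 : 0 < y) (hy1 : y ≤ 1) :
    ((ELo y0 : ℚ) : ℝ) ≤ EE y := by
  unfold ELo
  split_ifs with h
  · push_cast
    exact half_le_EE hy0 hy1
  · have hpos : 0 < y0 := lt_of_le_of_ne h0 (Ne.symm h)
    have hposR : (0 : ℝ) < y0 := by exact_mod_cast hpos
    have h1R : (y0 : ℝ) ≤ 1 := hle.trans hy1
    have h1 : y0 ≤ 1 := by exact_mod_cast h1R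
    have a := DLo_le h0 h1
    have b := EE_mono ⟨hposR, h1R⟩ ⟨hy0, hy1⟩ hle
    refine le_trans ?_ b
    unfold EE
    push_cast
    rw [← pow_two]
    gcongr

/-- upper bound of `E y` for any `y ≤ y1`. -/
lemma le_EHi {y1 : ℚ} {y : ℝ} (hle : y ≤ (y1 : ℝ)) (hy0 : 0 < y) (hy1 : y ≤ 1) :
    EE y ≤ ((EHi y1 : ℚ) : ℝ) := by
  unfold EHi
  split_ifs with h
  · exact (EE_le_log_two hy0 hy1).trans le_ellHi
  · have hlt : y1 < 1 := not_le.1 h
    have hltR : (y1 : ℝ) < 1 := by exact_mod_cast hlt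
    have hposR : (0 : ℝ) < y1 := hy0.trans_le hle
    have hpos : 0 < y1 := by exact_mod_cast hposR
    have a := le_DHi hpos.le hlt.le
    have b := EE_mono ⟨hy0, hy1⟩ ⟨hposR, hltR.le⟩ hle
    refine le_trans b ?_
    unfold EE
    push_cast
    rw [← pow_two]
    gcongr

lemma one_sub_sq_rat_pos {y : ℚ} (h0 : 0 ≤ y) (h1 : y < 1) : 0 < 1 - y * y := by
  nlinarith

lemma nuLo_le {y : ℚ} (h0 : 0 ≤ y) (h1 : y < 1) : ((nuLo y : ℚ) : ℝ) ≤ nu (y : ℝ) := by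
  have a := le_logHi (one_sub_sq_rat_pos h0 h1)
  unfold nuLo nu
  push_cast at a ⊢
  rw [pow_two]
  linarith

lemma le_nuHi {y : ℚ} (h0 : 0 ≤ y) (h1 : y < 1) : nu (y : ℝ) ≤ ((nuHi y : ℚ) : ℝ) := by
  have a := logLo_le (one_sub_sq_rat_pos h0 h1)
  unfold nuHi nu
  push_cast at a ⊢
  rw [pow_two]
  linarith

lemma nuHatLo_le {y0 : ℚ} {y : ℝ} (h0 : 0 ≤ y0) (hle : (y0 : ℝ) ≤ y) (hy0 : 0 < y) (hy1 : y < 1) :
    ((nuHatLo y0 : ℚ) : ℝ) ≤ nu y / y ^ 2 := by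
  unfold nuHatLo
  split_ifs with h
  · push_cast
    exact half_le_nu_hat hy0 hy1
  · have hpos : 0 < y0 := lt_of_le_of_ne h0 (Ne.symm h)
    have hposR : (0 : ℝ) < y0 := by exact_mod_cast hpos
    have h1R : (y0 : ℝ) < 1 := hle.trans_lt hy1
    have h1 : y0 < 1 := by exact_mod_cast h1R
    have a := nuLo_le h0 h1
    refine le_trans ?_ (nu_hat_mono hposR hle hy1)
    push_cast
    rw [← pow_two]
    gcongr

lemma le_nuHatHi {y1 : ℚ} {y : ℝ} (hle : y ≤ (y1 : ℝ)) (hy0 : 0 < y) (h1 : y1 < 1) :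
    nu y / y ^ 2 ≤ ((nuHatHi y1 : ℚ) : ℝ) := by
  have h1R : (y1 : ℝ) < 1 := by exact_mod_cast h1
  have hposR : (0 : ℝ) < y1 := hy0.trans_le hle
  have hpos : 0 < y1 := by exact_mod_cast hposR
  have a := le_nuHi hpos.le h1
  refine (nu_hat_mono hy0 hle h1R).trans ?_
  unfold nuHatHi
  push_cast
  rw [← pow_two]
  gcongr

lemma athLo_le {y : ℚ} (h0 : 0 ≤ y) (h1 : y < 1) : ((athLo y : ℚ) : ℝ) ≤ ath (y : ℝ) := by
  have h0R : (0 : ℝ) ≤ y := by exact_mod_cast h0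
  have h1R : (y : ℝ) < 1 := by exact_mod_cast h1
  have a := logLo_le (y := 1 + y) (by linarith)
  have b := le_logHi (y := 1 - y) (by linarith)
  unfold athLo
  rw [ath_eq (by rw [abs_lt]; constructor <;> linarith)]
  push_cast at a b ⊢
  linarith

lemma athHatLo_le {p0 : ℚ} {p : ℝ} (h0 : 0 ≤ p0) (hle : (p0 : ℝ) ≤ p) (hp0 : 0 < p) (hp1 : p < 1) :
    ((athHatLo p0 : ℚ) : ℝ) ≤ ath p / p := by
  unfold athHatLo
  split_ifs with h
  · push_cast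
    exact one_le_ath_hat hp0 hp1
  · have hpos : 0 < p0 := lt_of_le_of_ne h0 (Ne.symm h)
    have hposR : (0 : ℝ) < p0 := by exact_mod_cast hpos
    have h1R : (p0 : ℝ) < 1 := hle.trans_lt hp1
    have h1 : p0 < 1 := by exact_mod_cast h1R
    have a := athLo_le h0 h1
    refine le_trans ?_ (ath_hat_mono hposR hle hp1)
    push_cast
    gcongr

end Vale.Agent.P322N
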