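import Vale.Agent.P322N.Leaf

/-! Algebra of the two steps; soundness of the box leaves. -/

namespace Vale.Agent.P322N

open Real Vale.Agent.P322V Set

lemma psi_rho_eq {ρ : ℝ} (h0 : 0 < ρ) :
    psi ρ - (1 - ρ ^ 2) * Real.log 2 = ρ ^ 2 * Real.log 2 * ww ρ := by
  have h1 := log_two_pos'
  have h2 : psi ρ = Real.log 2 - ρ ^ 2 * EE ρ := by
    have := DD_eq_sq_mul_EE h0.ne'
    unfold DD at this
    linarith
  unfold ww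
  rw [h2]
  field_simp
  ring

lemma UQ_eq {ρ : ℝ} (h0 : 0 < ρ) (z : ℝ) :
    UQ ρ z = Real.log 2 * ((1 - ρ ^ 2) * xx z + ρ ^ 2 * ww ρ * xx z ^ 2) := by
  unfold UQ
  rw [psi_rho_eq h0]
  unfold xx
  have h1 := log_two_pos'
  field_simp

lemma xx_plus (A : ℝ) {B : ℝ} (hB : B ≠ 0) :
    xx (A + B) = xx A - B ^ 2 * dh A B - B * gh A B := by
  unfold xx dh gh
  have h1 := log_two_pos'
  field_simp
  ring

lemma xx_minus (A : ℝ) {B : ℝ} (hB : B ≠ 0) :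
    xx (A - B) = xx A - B ^ 2 * dh A B + B * gh A B := by
  unfold xx dh gh
  have h1 := log_two_pos'
  field_simp
  ring

lemma betaT_eq {A B : ℝ} (hB : B ≠ 0) (hn : nn A + nu (B / (1 + A)) ≠ 0) :
    betaT A B = 1 - B ^ 2 * eh A B := by
  unfold betaT eh
  change nn A / (nn A + nu (B / (1 + A))) = _
  field_simp
  ring

/-- Normalised form of step S1. -/
theorem stepS1_of_norm {ρ A B : ℝ} (hρ : 0 < ρ) (hB : 0 < B)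
    (hn : nn A + nu (B / (1 + A)) ≠ 0)
    (H : ww ρ * (1 - (1 - ρ ^ 2) * (B ^ 2 * eh A B)) * tt A B ≤
      (1 - ρ ^ 2) * eh A B * (xx A - ww ρ * xx A ^ 2 - B ^ 2 * dh A B)) :
    StepS1 ρ A B := by
  have hB' := hB.ne'
  have hl := log_two_pos'
  unfold StepS1 Ubar phi
  rw [betaT_eq hB' hn, UQ_eq hρ, UQ_eq hρ, UQ_eq hρ, xx_plus A hB', xx_minus A hB']
  have e1 : psi A = Real.log 2 * xx A := by
    unfold xx; field_simp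
  have e2 : psi (A + B) = Real.log 2 * (xx A - B ^ 2 * dh A B - B * gh A B) := by
    rw [← xx_plus A hB']; unfold xx; field_simp
  have e3 : psi (A - B) = Real.log 2 * (xx A - B ^ 2 * dh A B + B * gh A B) := by
    rw [← xx_minus A hB']; unfold xx; field_simp
  rw [e1, e2, e3]
  set x := xx A
  set d := dh A B
  set g := gh A B
  set w := ww ρ
  set η := eh A B
  set ℓ := Real.log 2
  have H' : 0 ≤ (1 - ρ ^ 2) * η * (x - w * x ^ 2 - B ^ 2 * d) -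
      w * (1 - (1 - ρ ^ 2) * (B ^ 2 * η)) * (2 * x * d - B ^ 2 * d ^ 2 - g ^ 2) := by
    have : tt A B = 2 * x * d - B ^ 2 * d ^ 2 - g ^ 2 := rfl
    rw [this] at H
    linarith
  have key := mul_nonneg (by positivity : 0 ≤ ρ ^ 2 * ℓ * B ^ 2) H'
  nlinarith [key]

/-- Normalised form of step S3. -/
theorem stepS3_of_norm {ρ A B p : ℝ} (hρ : 0 < ρ) (hρ1 : ρ < 1) (hB : 0 < B) (hp0 : 0 < p) (hp1 : p < 1)
    (H : Real.log 2 * (B ^ 2 * (dh A B + ρ ^ 2 * ww ρ / (1 - ρ ^ 2) * tt A B)) +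
      nu p * ((1 - ρ ^ 2) * xx A + ρ ^ 2 * ww ρ * xx A ^ 2 +
        ρ ^ 2 * (B ^ 2 * (dh A B + ρ ^ 2 * ww ρ / (1 - ρ ^ 2) * tt A B))) ≤ B * ath p) :
    StepS3 ρ A B p := by
  refine ⟨hp0, hp1, ?_⟩
  have hB' := hB.ne'
  have hl := log_two_pos'
  have hν := nu_nonneg hp0.le hp1
  have he : 0 < 1 - ρ ^ 2 := one_sub_sq_pos hρ.le hρ1
  unfold Ubar
  rw [UQ_eq hρ, UQ_eq hρ, UQ_eq hρ, xx_plus A hB', xx_minus A hB']
  unfold betaP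
  have hden : 0 < Real.log 2 + nu p := by linarith
  set x := xx A
  set d := dh A B
  set g := gh A B
  set w := ww ρ
  set ν := nu p
  set a := ath p
  set ℓ := Real.log 2
  have H2 : 0 ≤ B * a - (ℓ * (B ^ 2 * (d + ρ ^ 2 * w / (1 - ρ ^ 2) * (2 * x * d - B ^ 2 * d ^ 2 - g ^ 2))) +
      ν * ((1 - ρ ^ 2) * x + ρ ^ 2 * w * x ^ 2 +
        ρ ^ 2 * (B ^ 2 * (d + ρ ^ 2 * w / (1 - ρ ^ 2) * (2 * x * d - B ^ 2 * d ^ 2 - g ^ 2))))) := by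
    have : tt A B = 2 * x * d - B ^ 2 * d ^ 2 - g ^ 2 := rfl
    rw [this] at H
    linarith
  have key : ρ ^ 2 * ((ℓ * ((1 - ρ ^ 2) * (x - B ^ 2 * d - B * g) + ρ ^ 2 * w * (x - B ^ 2 * d - B * g) ^ 2) +
        ℓ * ((1 - ρ ^ 2) * (x - B ^ 2 * d + B * g) + ρ ^ 2 * w * (x - B ^ 2 * d + B * g) ^ 2)) / 2) +
      (1 - ρ ^ 2) * (ℓ / (ℓ + ν) * a * B + ℓ / (ℓ + ν) *
        ((ℓ * ((1 - ρ ^ 2) * (x - B ^ 2 * d - B * g) + ρ ^ 2 * w * (x - B ^ 2 * d - B * g) ^ 2) +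
        ℓ * ((1 - ρ ^ 2) * (x - B ^ 2 * d + B * g) + ρ ^ 2 * w * (x - B ^ 2 * d + B * g) ^ 2)) / 2)) -
      ℓ * ((1 - ρ ^ 2) * x + ρ ^ 2 * w * x ^ 2) =
      (1 - ρ ^ 2) * (ℓ / (ℓ + ν)) * (B * a - (ℓ * (B ^ 2 * (d + ρ ^ 2 * w / (1 - ρ ^ 2) * (2 * x * d - B ^ 2 * d ^ 2 - g ^ 2))) +
      ν * ((1 - ρ ^ 2) * x + ρ ^ 2 * w * x ^ 2 +
        ρ ^ 2 * (B ^ 2 * (d + ρ ^ 2 * w / (1 - ρ ^ 2) * (2 * x * d - B ^ 2 * d ^ 2 - g ^ 2)))))) := by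
    field_simp
    ring
  have hnn : 0 ≤ (1 - ρ ^ 2) * (ℓ / (ℓ + ν)) * (B * a - (ℓ * (B ^ 2 * (d + ρ ^ 2 * w / (1 - ρ ^ 2) * (2 * x * d - B ^ 2 * d ^ 2 - g ^ 2))) +
      ν * ((1 - ρ ^ 2) * x + ρ ^ 2 * w * x ^ 2 +
        ρ ^ 2 * (B ^ 2 * (d + ρ ^ 2 * w / (1 - ρ ^ 2) * (2 * x * d - B ^ 2 * d ^ 2 - g ^ 2)))))) :=
    mul_nonneg (by positivity) H2
  rw [← key] at hnn
  linarith

end Vale.Agent.P322N
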