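import Vale.Agent.P322N.Sound

/-! Soundness of the box leaves and of the certificate tree. -/

namespace Vale.Agent.P322N

open Real Vale.Agent.P322V Set

variable {A0 A1 B0 B1 : ℚ} {A B : ℝ}

lemma eh_nonneg (h : InBox A0 A1 B0 B1 A B) : 0 ≤ eh A B := by
  unfold eh
  have h1 := nn_pos h
  have hA := h.A_nonneg
  have hy0 : 0 < B / (1 + A) := div_pos h.b3 (by linarith)
  have hy1 := y2_lt h
  have h2 := nu_nonneg hy0.le hy1
  have h3 := h.b3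
  positivity

lemma eta_le_one (h : InBox A0 A1 B0 B1 A B) : B ^ 2 * eh A B ≤ 1 := by
  unfold eh
  have h1 := nn_pos h
  have hA := h.A_nonneg
  have hy0 : 0 < B / (1 + A) := div_pos h.b3 (by linarith)
  have hy1 := y2_lt h
  have h2 := nu_nonneg hy0.le hy1
  have h3 := h.b3
  have e : B ^ 2 * (nu (B / (1 + A)) / (nn A + nu (B / (1 + A))) / B ^ 2) =
      nu (B / (1 + A)) / (nn A + nu (B / (1 + A))) := by
    field_simp
  rw [e, div_le_one (by linarith)]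
  linarith

lemma hn_ne (h : InBox A0 A1 B0 B1 A B) : nn A + nu (B / (1 + A)) ≠ 0 := by
  have h1 := nn_pos h
  have hA := h.A_nonneg
  have hy0 : 0 < B / (1 + A) := div_pos h.b3 (by linarith)
  have h2 := nu_nonneg hy0.le (y2_lt h)
  linarith

lemma tUp_nonneg : (0 : ℝ) ≤ ((tUp A0 A1 B0 B1 : ℚ) : ℝ) := by
  unfold tUp
  rw [Rat.cast_max]
  simp

/-- the real-variable core of leaf S1 -/
lemma S1_real {e ee w wb x xb d db T tb η ηb B2 B02 B12 : ℝ}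
    (hw0 : 0 ≤ w) (hw1 : w ≤ 1 / 2) (hw2 : w ≤ wb) (hx0 : 0 ≤ xb) (hx1 : xb ≤ x) (hx2 : x ≤ 1)
    (hd0 : 0 ≤ d) (hd1 : d ≤ db) (ht1 : T ≤ tb) (ht0 : 0 ≤ tb)
    (hη : ηb ≤ η) (hηb : 0 ≤ ηb) (hη1 : B2 * η ≤ 1) (he0 : 0 ≤ ee) (hee : ee ≤ e) (he1 : e ≤ 1)
    (hB02 : 0 ≤ B02) (hB2 : B02 ≤ B2) (hB3 : B2 ≤ B12)
    (hXb : 0 ≤ xb - wb * (xb * xb) - B12 * db)
    (hfin : wb * (1 - ee * (B02 * ηb)) * tb ≤ ee * ηb * (xb - wb * (xb * xb) - B12 * db)) :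
    w * (1 - e * (B2 * η)) * T ≤ e * η * (x - w * x ^ 2 - B2 * d) := by
  have hη0 : 0 ≤ η := hηb.trans hη
  have hB20 : 0 ≤ B2 := hB02.trans hB2
  have hB120 : 0 ≤ B12 := hB20.trans hB3
  have he00 : 0 ≤ e := he0.trans hee
  have hX : xb - wb * (xb * xb) - B12 * db ≤ x - w * x ^ 2 - B2 * d := by
    have s1 : xb - wb * (xb * xb) ≤ xb - w * (xb * xb) := by
      have : w * (xb * xb) ≤ wb * (xb * xb) :=
        mul_le_mul_of_nonneg_right hw2 (by positivity)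
      linarith
    have s2 : xb - w * (xb * xb) ≤ x - w * x ^ 2 := by
      have : 0 ≤ (x - xb) * (1 - w * (x + xb)) := by
        apply mul_nonneg (by linarith)
        have : w * (x + xb) ≤ (1 / 2) * 2 := by
          apply mul_le_mul hw1 (by linarith) (by linarith) (by norm_num)
        linarith
      nlinarith
    have s3 : B2 * d ≤ B12 * db :=
      mul_le_mul hB3 hd1 hd0 hB120
    linarith
  have hXr0 : 0 ≤ x - w * x ^ 2 - B2 * d := hXb.trans hX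
  have h1 : w * (1 - e * (B2 * η)) * T ≤ wb * (1 - ee * (B02 * ηb)) * tb := by
    have a0 : 0 ≤ 1 - e * (B2 * η) := by
      have : e * (B2 * η) ≤ 1 * 1 :=
        mul_le_mul he1 hη1 (by positivity) (by norm_num)
      linarith
    have a1 : 1 - e * (B2 * η) ≤ 1 - ee * (B02 * ηb) := by
      have : ee * (B02 * ηb) ≤ e * (B2 * η) := by
        apply mul_le_mul hee _ (by positivity) he00
        exact mul_le_mul hB2 hη hηb hB20
      linarith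
    calc w * (1 - e * (B2 * η)) * T
        ≤ w * (1 - e * (B2 * η)) * tb :=
          mul_le_mul_of_nonneg_left ht1 (mul_nonneg hw0 a0)
      _ ≤ wb * (1 - ee * (B02 * ηb)) * tb := by
          apply mul_le_mul_of_nonneg_right _ ht0
          exact mul_le_mul hw2 a1 a0 (hw0.trans hw2)
  have h2 : ee * ηb * (xb - wb * (xb * xb) - B12 * db) ≤ e * η * (x - w * x ^ 2 - B2 * d) := by
    apply mul_le_mul _ hX hXb (mul_nonneg he00 hη0)
    exact mul_le_mul hee hη hηb he00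
  linarith

/-- S1 on a box -/
theorem leafS1_sound {r0 r1 : ℚ} (hl : leafS1 r0 r1 A0 A1 B0 B1 = true) {ρ : ℝ}
    (hr0 : (r0 : ℝ) ≤ ρ) (hr1 : ρ ≤ r1) (hρ : 0 < ρ) (ha1 : (A0 : ℝ) ≤ A) (ha2 : A ≤ A1)
    (hb1 : (B0 : ℝ) ≤ B) (hb2 : B ≤ B1) (hB : 0 < B) (hab : A + B ≤ 1) :
    StepS1 ρ A B := by
  simp only [leafS1, Bool.and_eq_true, decide_eq_true_eq] at hl
  obtain ⟨⟨⟨⟨⟨⟨⟨⟨⟨⟨⟨c1, c2⟩, c3⟩, c4⟩, c5⟩, c6⟩, c7⟩, c8⟩, c9⟩, c10⟩, c11⟩, c12⟩ := hl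
  have q1 : (0 : ℝ) ≤ r0 := by exact_mod_cast c1
  have q3 : (r1 : ℝ) < 1 := by exact_mod_cast c3
  have q4 : (0 : ℝ) ≤ A0 := by exact_mod_cast c4
  have q5 : (A1 : ℝ) < 1 := by exact_mod_cast c5
  have q6 : (0 : ℝ) ≤ B0 := by exact_mod_cast c6
  have q7 : (B1 : ℝ) < 1 := by exact_mod_cast c7
  have hbox : InBox A0 A1 B0 B1 A B := ⟨q4, ha1, ha2, q5, q6, hb1, hb2, hB, q7, hab⟩
  have hρ1 : ρ < 1 := hr1.trans_lt q3
  apply stepS1_of_norm hρ hB (hn_ne hbox)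
  have hx0 : (0 : ℝ) ≤ ((xLow A1 : ℚ) : ℝ) := by exact_mod_cast c9
  have hXb : (0 : ℝ) ≤ (((xLow A1 - wUp r0 * (xLow A1 * xLow A1) - B1 * B1 * dUp A0 A1 B1 : ℚ)) : ℝ) := by
    exact_mod_cast c10
  have heb : (0 : ℝ) ≤ ((etaLow A0 A1 B0 B1 : ℚ) : ℝ) := by exact_mod_cast c11
  have hfin : (((wUp r0 * (1 - (1 - r1 * r1) * (B0 * B0 * etaLow A0 A1 B0 B1)) * tUp A0 A1 B0 B1 : ℚ)) : ℝ) ≤
      (((1 - r1 * r1) * etaLow A0 A1 B0 B1 *
        (xLow A1 - wUp r0 * (xLow A1 * xLow A1) - B1 * B1 * dUp A0 A1 B1) : ℚ) : ℝ) := by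
    exact_mod_cast c12
  push_cast at hXb hfin
  have hr1p : (0 : ℝ) ≤ r1 := by linarith
  refine S1_real (ww_nonneg hρ hρ1.le) (ww_le_half hρ hρ1.le)
    (ww_le_wUp (by exact_mod_cast c1) hr0 hρ hρ1.le) hx0 (xLow_le_xx hbox) (xx_le_one A)
    (dh_nonneg hbox) (dh_le_dUp hbox) (tt_le_tUp hbox) tUp_nonneg (etaLow_le hbox) heb
    (eta_le_one hbox) (ee := 1 - (r1 : ℝ) * r1) (by nlinarith) (by nlinarith) (by nlinarith)
    (B02 := (B0 : ℝ) * B0) (by positivity) (by nlinarith) (B12 := (B1 : ℝ) * B1) (by nlinarith)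
    hXb hfin

/-- the real-variable core of leaf S3 -/
lemma S3_real {ℓ ellH τ t0 t1 w wb x xh d db T tb Dl B B12 ν a pp N Abar : ℝ}
    (hl0 : 0 < ℓ) (hl1 : ℓ ≤ ellH) (hw0 : 0 ≤ w) (hw2 : w ≤ wb) (hx0 : 0 ≤ x) (hx1 : x ≤ xh)
    (hxh : xh ≤ 1) (hd0 : 0 ≤ d) (hd1 : d ≤ db) (ht1 : T ≤ tb) (ht0 : 0 ≤ tb)
    (hτ0 : t0 ≤ τ) (hτ00 : 0 ≤ t0) (hτ1 : τ ≤ t1) (ht1' : t1 < 1)
    (hDl : Dl / ellH ≤ τ * (1 - w)) (hB2 : 0 ≤ B ^ 2) (hB3 : B ^ 2 ≤ B12)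
    (hν0 : 0 ≤ ν) (hν : ν ≤ pp * pp * B ^ 2 * N) (ha : pp * B ^ 2 * Abar ≤ B * a)
    (hQ : 0 ≤ xh - t0 * (xh * (1 - xh)) - xh * xh * Dl / ellH +
      t1 * B12 * (db + t1 * wb / (1 - t1) * tb))
    (hfin : ellH * (db + t1 * wb / (1 - t1) * tb) +
      (xh - t0 * (xh * (1 - xh)) - xh * xh * Dl / ellH +
        t1 * B12 * (db + t1 * wb / (1 - t1) * tb)) * (pp * pp) * N ≤ pp * Abar) :
    ℓ * (B ^ 2 * (d + τ * w / (1 - τ) * T)) +
      ν * ((1 - τ) * x + τ * w * x ^ 2 + τ * (B ^ 2 * (d + τ * w / (1 - τ) * T))) ≤ B * a := by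
  have he : 0 < 1 - τ := by linarith
  have he1 : 0 < 1 - t1 := by linarith
  have hτp : 0 ≤ τ := hτ00.trans hτ0
  have ht1p : 0 ≤ t1 := hτp.trans hτ1
  have hwb : 0 ≤ wb := hw0.trans hw2
  have hxh0 : 0 ≤ xh := hx0.trans hx1
  set Lu := db + t1 * wb / (1 - t1) * tb with hLu
  set Qu := xh - t0 * (xh * (1 - xh)) - xh * xh * Dl / ellH + t1 * B12 * Lu with hQu
  have hc : τ * w / (1 - τ) ≤ t1 * wb / (1 - t1) :=
    div_le_div₀ (by positivity) (mul_le_mul hτ1 hw2 hw0 ht1p) he1 (by linarith)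
  have hc0 : 0 ≤ τ * w / (1 - τ) := by positivity
  have hL : d + τ * w / (1 - τ) * T ≤ Lu := by
    have h1 : τ * w / (1 - τ) * T ≤ τ * w / (1 - τ) * tb := mul_le_mul_of_nonneg_left ht1 hc0
    have h2 : τ * w / (1 - τ) * tb ≤ t1 * wb / (1 - t1) * tb := mul_le_mul_of_nonneg_right hc ht0
    linarith
  have hLu0 : 0 ≤ Lu := by
    have : 0 ≤ t1 * wb / (1 - t1) * tb := by positivity
    linarith [hd0.trans hd1]
  have hW : (1 - τ) * x + τ * w * x ^ 2 ≤ xh - t0 * (xh * (1 - xh)) - xh * xh * Dl / ellH := by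
    have s1 : (1 - τ) * x + τ * w * x ^ 2 ≤ (1 - τ) * xh + τ * w * xh ^ 2 := by
      have a1 : (1 - τ) * x ≤ (1 - τ) * xh := mul_le_mul_of_nonneg_left hx1 he.le
      have a2 : τ * w * x ^ 2 ≤ τ * w * xh ^ 2 := by
        apply mul_le_mul_of_nonneg_left _ (by positivity)
        gcongr
      linarith
    have s2 : xh * xh * Dl / ellH = xh * xh * (Dl / ellH) := by ring
    have s3 : xh * xh * (Dl / ellH) ≤ xh * xh * (τ * (1 - w)) :=
      mul_le_mul_of_nonneg_left hDl (by positivity)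
    have s4 : t0 * (xh * (1 - xh)) ≤ τ * (xh * (1 - xh)) :=
      mul_le_mul_of_nonneg_right hτ0 (mul_nonneg hxh0 (by linarith))
    rw [s2]
    nlinarith
  have hQ2 : (1 - τ) * x + τ * w * x ^ 2 + τ * (B ^ 2 * (d + τ * w / (1 - τ) * T)) ≤ Qu := by
    have s1 : τ * (B ^ 2 * (d + τ * w / (1 - τ) * T)) ≤ t1 * B12 * Lu := by
      calc τ * (B ^ 2 * (d + τ * w / (1 - τ) * T)) ≤ τ * (B ^ 2 * Lu) := by
            apply mul_le_mul_of_nonneg_left _ hτp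
            exact mul_le_mul_of_nonneg_left hL hB2
        _ = τ * B ^ 2 * Lu := by ring
        _ ≤ t1 * B12 * Lu := by
            apply mul_le_mul_of_nonneg_right _ hLu0
            exact mul_le_mul hτ1 hB3 hB2 ht1p
    rw [hQu]
    linarith
  have h1 : ℓ * (B ^ 2 * (d + τ * w / (1 - τ) * T)) ≤ ellH * (B ^ 2 * Lu) := by
    calc ℓ * (B ^ 2 * (d + τ * w / (1 - τ) * T)) ≤ ℓ * (B ^ 2 * Lu) :=
          mul_le_mul_of_nonneg_left (mul_le_mul_of_nonneg_left hL hB2) hl0.le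
      _ ≤ ellH * (B ^ 2 * Lu) := mul_le_mul_of_nonneg_right hl1 (mul_nonneg hB2 hLu0)
  have h2 : ν * ((1 - τ) * x + τ * w * x ^ 2 + τ * (B ^ 2 * (d + τ * w / (1 - τ) * T))) ≤
      pp * pp * B ^ 2 * N * Qu := by
    calc ν * ((1 - τ) * x + τ * w * x ^ 2 + τ * (B ^ 2 * (d + τ * w / (1 - τ) * T)))
        ≤ ν * Qu := mul_le_mul_of_nonneg_left hQ2 hν0
      _ ≤ pp * pp * B ^ 2 * N * Qu := mul_le_mul_of_nonneg_right hν hQ
  have h3 : B ^ 2 * (ellH * Lu + Qu * (pp * pp) * N) ≤ B ^ 2 * (pp * Abar) :=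
    mul_le_mul_of_nonneg_left hfin hB2
  nlinarith

lemma Dl_le {r0 : ℚ} {ρ : ℝ} (h0 : 0 ≤ r0) (h1 : (r0 : ℝ) ≤ ρ) (hρ : 0 < ρ) (hρ1 : ρ ≤ 1) :
    ((DLz r0 : ℚ) : ℝ) / ((ellHi : ℚ) : ℝ) ≤ ρ ^ 2 * (1 - ww ρ) := by
  have hl := log_two_pos'
  have e1 : ρ ^ 2 * (1 - ww ρ) = DD ρ / Real.log 2 := by
    unfold ww
    rw [DD_eq_sq_mul_EE hρ.ne']
    field_simp
    ring
  rw [e1]
  have h0R : (0 : ℝ) ≤ r0 := by exact_mod_cast h0
  have hDD : 0 ≤ DD ρ := by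
    unfold DD
    linarith [psi_le_log_two ρ]
  unfold DLz
  split_ifs with h
  · simp only [Rat.cast_zero, zero_div]
    positivity
  · have h1R : (r0 : ℝ) ≤ 1 := h1.trans hρ1
    have h1q : r0 ≤ 1 := by exact_mod_cast h1R
    have a := DLo_le h0 h1q
    have b : DD (r0 : ℝ) ≤ DD ρ := by
      unfold DD
      have := psi_anti h0R h1 hρ1
      linarith
    exact div_le_div_gen (a.trans b) hDD hl le_ellHi

lemma luQ_cast (r0 r1 : ℚ) : ((luQ r0 r1 A0 A1 B0 B1 : ℚ) : ℝ) =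
    ((dUp A0 A1 B1 : ℚ) : ℝ) + (r1 : ℝ) * r1 * ((wUp r0 : ℚ) : ℝ) / (1 - (r1 : ℝ) * r1) *
      ((tUp A0 A1 B0 B1 : ℚ) : ℝ) := by
  unfold luQ
  push_cast
  rfl

lemma quQ_cast (r0 r1 : ℚ) : ((quQ r0 r1 A0 A1 B0 B1 : ℚ) : ℝ) =
    ((xHi A0 : ℚ) : ℝ) - (r0 : ℝ) * r0 * (((xHi A0 : ℚ) : ℝ) * (1 - ((xHi A0 : ℚ) : ℝ))) -
      ((xHi A0 : ℚ) : ℝ) * ((xHi A0 : ℚ) : ℝ) * ((DLz r0 : ℚ) : ℝ) / ((ellHi : ℚ) : ℝ) +
      (r1 : ℝ) * r1 * ((B1 : ℝ) * B1) * ((luQ r0 r1 A0 A1 B0 B1 : ℚ) : ℝ) := by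
  unfold quQ
  push_cast
  rfl

/-- S3 on a box -/
theorem leafS3_sound {k : ℕ} {r0 r1 : ℚ} (hl : leafS3 k r0 r1 A0 A1 B0 B1 = true) {ρ : ℝ}
    (hr0 : (r0 : ℝ) ≤ ρ) (hr1 : ρ ≤ r1) (hρ : 0 < ρ) (ha1 : (A0 : ℝ) ≤ A) (ha2 : A ≤ A1)
    (hb1 : (B0 : ℝ) ≤ B) (hb2 : B ≤ B1) (hB : 0 < B) (hab : A + B ≤ 1) :
    ∃ p, StepS3 ρ A B p := by
  simp only [leafS3, Bool.and_eq_true, decide_eq_true_eq] at hl
  obtain ⟨⟨⟨⟨⟨⟨⟨⟨⟨⟨⟨⟨c1, c2⟩, c3⟩, c4⟩, c5⟩, c6⟩, c7⟩, c8⟩, c9⟩, c10⟩, c11⟩, c12⟩, c13⟩ := hl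
  have q1 : (0 : ℝ) ≤ r0 := by exact_mod_cast c1
  have q3 : (r1 : ℝ) < 1 := by exact_mod_cast c3
  have q4 : (0 : ℝ) ≤ A0 := by exact_mod_cast c4
  have q5 : (A1 : ℝ) < 1 := by exact_mod_cast c5
  have q6 : (0 : ℝ) ≤ B0 := by exact_mod_cast c6
  have q7 : (B1 : ℝ) < 1 := by exact_mod_cast c7
  have hbox : InBox A0 A1 B0 B1 A B := ⟨q4, ha1, ha2, q5, q6, hb1, hb2, hB, q7, hab⟩
  have hρ1 : ρ < 1 := hr1.trans_lt q3
  have hr1p : (0 : ℝ) ≤ r1 := by linarith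
  have hkq : (0 : ℚ) < (k : ℚ) / 256 := by
    have : (0 : ℚ) < (k : ℚ) := by exact_mod_cast c10
    positivity
  set pq : ℚ := (k : ℚ) / 256 with hpq
  have hppR : (0 : ℝ) < (pq : ℝ) := by exact_mod_cast hkq
  have hp1q : pq * B1 < 1 := c11
  have hp1R : (pq : ℝ) * B1 < 1 := by exact_mod_cast hp1q
  set p : ℝ := (pq : ℝ) * B with hp
  have hp0 : 0 < p := mul_pos hppR hB
  have hple : p ≤ ((pq * B1 : ℚ) : ℝ) := by
    push_cast
    exact mul_le_mul_of_nonneg_left hb2 hppR.le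
  have hpge : ((pq * B0 : ℚ) : ℝ) ≤ p := by
    push_cast
    exact mul_le_mul_of_nonneg_left hb1 hppR.le
  have hp1 : p < 1 := by
    have : ((pq * B1 : ℚ) : ℝ) < 1 := by
      push_cast
      exact hp1R
    linarith
  refine ⟨p, stepS3_of_norm hρ hρ1 hB hp0 hp1 ?_⟩
  have hν0 := nu_nonneg hp0.le hp1
  have hB0q : (0 : ℚ) ≤ B0 := c6
  have hν : nu p ≤ (pq : ℝ) * pq * B ^ 2 * ((nuHatHi (pq * B1) : ℚ) : ℝ) := by
    have h1 := le_nuHatHi (y1 := pq * B1) hple hp0 hp1q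
    rw [div_le_iff₀ (by positivity)] at h1
    have e : p ^ 2 = (pq : ℝ) * pq * B ^ 2 := by
      rw [hp]
      ring
    rw [e] at h1
    linarith
  have ha : (pq : ℝ) * B ^ 2 * ((athHatLo (pq * B0) : ℚ) : ℝ) ≤ B * ath p := by
    have h1 := athHatLo_le (p0 := pq * B0) (mul_nonneg hkq.le hB0q) hpge hp0 hp1
    rw [le_div_iff₀ hp0] at h1
    have h2 := mul_le_mul_of_nonneg_left h1 hB.le
    refine le_trans (le_of_eq ?_) h2
    rw [hp]
    ring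
  have hQ : (0 : ℝ) ≤ ((quQ r0 r1 A0 A1 B0 B1 : ℚ) : ℝ) := by exact_mod_cast c9
  have hfin : ((ellHi * luQ r0 r1 A0 A1 B0 B1 + quQ r0 r1 A0 A1 B0 B1 * (pq * pq)
          * nuHatHi (pq * B1) : ℚ) : ℝ) ≤ ((pq * athHatLo (pq * B0) : ℚ) : ℝ) := by
    exact_mod_cast c13
  push_cast at hfin
  rw [quQ_cast, luQ_cast] at hfin hQ
  have hDl := Dl_le (r0 := r0) c1 hr0 hρ hρ1.le
  have hτ0 : (r0 : ℝ) * r0 ≤ ρ ^ 2 := by
    rw [pow_two]
    exact mul_self_le_mul_self q1 hr0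
  have hτ1 : ρ ^ 2 ≤ (r1 : ℝ) * r1 := by
    rw [pow_two]
    exact mul_self_le_mul_self hρ.le hr1
  have ht1' : (r1 : ℝ) * r1 < 1 := by
    have := mul_self_lt_mul_self hr1p q3
    simpa using this
  have hB3 : B ^ 2 ≤ (B1 : ℝ) * B1 := by
    rw [pow_two]
    exact mul_self_le_mul_self hB.le hb2
  exact S3_real (ℓ := Real.log 2) (ellH := ((ellHi : ℚ) : ℝ)) log_two_pos' le_ellHi
    (ww_nonneg hρ hρ1.le) (ww_le_wUp c1 hr0 hρ hρ1.le) (xx_nonneg hbox) (xx_le_xHi hbox)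
    (by
      unfold xHi
      rw [Rat.cast_min]
      simp)
    (dh_nonneg hbox) (dh_le_dUp hbox) (tt_le_tUp hbox) tUp_nonneg hτ0 (by positivity) hτ1 ht1'
    hDl (by positivity) hB3 hν0 hν ha hQ hfin

/-- the convexity needed near `A = 1` -/
lemma ath_sq_ge {z : ℝ} (h0 : 3 / 4 ≤ z) (h1 : z < 1) :
    psi z / (1 - z ^ 2) ≤ ath z ^ 2 := by
  have h1z : 0 < 1 - z := by linarith
  have h2z : 0 < 1 + z := by linarith
  have habs : |z| < 1 := by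
    rw [abs_lt]; constructor <;> linarith
  have e1 : psi z = (1 - z) * ath z + Real.log (2 / (1 + z)) := by
    rw [psi_eq_logs habs, ath_eq habs, Real.log_div (by norm_num) h2z.ne']
    ring
  have e2 : Real.log (2 / (1 + z)) ≤ (1 - z) / (1 + z) := by
    have := Real.log_le_sub_one_of_pos (by positivity : 0 < 2 / (1 + z))
    have e : 2 / (1 + z) - 1 = (1 - z) / (1 + z) := by
      field_simp
      ring
    linarith
  have ha : 1.9 / 2 ≤ ath z := by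
    unfold ath
    have e3 : (7 : ℝ) ≤ (1 + z) / (1 - z) := by
      rw [le_div_iff₀ h1z]
      linarith
    have e4 : Real.log 7 ≤ Real.log ((1 + z) / (1 - z)) := Real.log_le_log (by norm_num) e3
    have e5 : (1.9 : ℝ) ≤ Real.log 7 := by
      have e6 : Real.log 8 = 3 * Real.log 2 := by
        rw [show (8 : ℝ) = 2 ^ 3 by norm_num, Real.log_pow]
        norm_num
      have e7 : Real.log (8 / 7) ≤ 8 / 7 - 1 := Real.log_le_sub_one_of_pos (by norm_num)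
      have e8 : Real.log (8 / 7) = Real.log 8 - Real.log 7 := Real.log_div (by norm_num) (by norm_num)
      have e9 := Real.log_two_gt_d9
      rw [e8, e6] at e7
      norm_num at e7 ⊢
      linarith
    linarith
  have hsq : 1 - z ^ 2 = (1 - z) * (1 + z) := by ring
  rw [hsq, div_le_iff₀ (by positivity)]
  rw [e1]
  have hu : 1 / (1 + z) ≤ 4 / 7 := by
    rw [div_le_div_iff₀ h2z (by norm_num)]
    linarith
  -- psi ≤ (1-z) (a + (1/(1+z)))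
  have h3 : (1 - z) * ath z + Real.log (2 / (1 + z)) ≤ (1 - z) * (ath z + 1 / (1 + z)) := by
    have : (1 - z) * (1 / (1 + z)) = (1 - z) / (1 + z) := by ring
    nlinarith
  have h4 : ath z + 1 / (1 + z) ≤ ath z ^ 2 * (1 + z) := by
    have h5 : 1 / (1 + z) ≤ 4 / 7 := hu
    have h6 : (7 : ℝ) / 4 ≤ 1 + z := by linarith
    nlinarith
  have h7 : (1 - z) * (ath z + 1 / (1 + z)) ≤ (1 - z) * (ath z ^ 2 * (1 + z)) :=
    mul_le_mul_of_nonneg_left h4 h1z.le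
  nlinarith

lemma psi_sq_convex : ConvexOn ℝ (Icc (3 / 4 : ℝ) 1) (fun z => psi z ^ 2) := by
  have hd : ∀ z ∈ Ioo (3 / 4 : ℝ) 1, HasDerivAt (fun z => psi z ^ 2) (2 * psi z * (-(ath z))) z := by
    intro z hz
    have habs : |z| < 1 := by
      rw [abs_lt]; constructor <;> linarith [hz.1, hz.2]
    have := (hasDerivAt_psi habs).pow 2
    exact this.congr_deriv (by simp)
  have hg : ∀ z ∈ Ioo (3 / 4 : ℝ) 1, HasDerivAt (fun z => 2 * psi z * (-(ath z)))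
      (2 * (-(ath z)) * (-(ath z)) + 2 * psi z * (-(1 / (1 - z ^ 2)))) z := by
    intro z hz
    have habs : |z| < 1 := by
      rw [abs_lt]; constructor <;> linarith [hz.1, hz.2]
    exact ((hasDerivAt_psi habs).const_mul 2).mul (hasDerivAt_ath habs).neg
  apply MonotoneOn.convexOn_of_deriv (convex_Icc _ _)
  · exact (continuous_psi.pow 2).continuousOn
  · rw [interior_Icc]
    exact fun z hz => (hd z hz).differentiableAt.differentiableWithinAt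
  · rw [interior_Icc]
    have hm : MonotoneOn (fun z => 2 * psi z * (-(ath z))) (Ioo (3 / 4 : ℝ) 1) := by
      apply monotoneOn_of_deriv_nonneg (convex_Ioo _ _)
      · exact fun z hz => (hg z hz).continuousAt.continuousWithinAt
      · rw [interior_Ioo]
        exact fun z hz => (hg z hz).differentiableAt.differentiableWithinAt
      · rw [interior_Ioo]
        intro z hz
        rw [(hg z hz).deriv]
        have := ath_sq_ge hz.1.le hz.2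
        have e : 2 * psi z * (-(1 / (1 - z ^ 2))) = - (2 * (psi z / (1 - z ^ 2))) := by ring
        rw [e]
        nlinarith
    intro a ha b hb hab
    rw [(hd a ha).deriv, (hd b hb).deriv]
    exact hm ha hb hab

/-- For `A ≥ 7/8` the step holds because `tt A B ≤ 0`. -/
lemma step_high {ρ A B : ℝ} (hρ : 0 < ρ) (hρ1 : ρ < 1) (hA : 7 / 8 ≤ A) (hB : 0 < B)
    (hab : A + B ≤ 1) : StepS1 ρ A B := by
  have hA1 : A < 1 := by linarith
  obtain ⟨A1q, hA1q, hA1q'⟩ := exists_rat_btwn hA1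
  have hbox : InBox (0 : ℚ) A1q 0 (1 / 2) A B :=
    ⟨by simp, by simpa using (by linarith : (0 : ℝ) ≤ A), hA1q.le, by exact_mod_cast hA1q', by simp,
      by simpa using hB.le, by push_cast; linarith, hB, by norm_num, hab⟩
  apply stepS1_of_norm hρ hB (hn_ne hbox)
  have hB8 : B ≤ 1 / 8 := by linarith
  have hconv := psi_sq_convex.2 (show A + B ∈ Icc (3 / 4 : ℝ) 1 from ⟨by linarith, hab⟩)
    (show A - B ∈ Icc (3 / 4 : ℝ) 1 from ⟨by linarith, by linarith⟩)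
    (show (0 : ℝ) ≤ 1 / 2 by norm_num) (show (0 : ℝ) ≤ 1 / 2 by norm_num) (by norm_num)
  simp only [smul_eq_mul] at hconv
  have e1 : 1 / 2 * (A + B) + 1 / 2 * (A - B) = A := by ring
  rw [e1] at hconv
  have hl := log_two_pos'
  have hp1 := xx_plus A hB.ne'
  have hp2 := xx_minus A hB.ne'
  have hxsq : xx A ^ 2 ≤ (xx (A + B) ^ 2 + xx (A - B) ^ 2) / 2 := by
    unfold xx
    rw [div_pow, div_pow, div_pow, ← add_div, div_div]
    rw [div_le_div_iff₀ (by positivity) (by positivity)]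
    nlinarith [mul_pos hl hl]
  have h0p : 0 ≤ xx (A + B) := by
    unfold xx
    have := psi_nonneg (z := A + B) (by rw [abs_le]; constructor <;> linarith)
    positivity
  have h0m : 0 ≤ xx (A - B) := by
    unfold xx
    have := psi_nonneg (z := A - B) (by rw [abs_le]; constructor <;> linarith)
    positivity
  have h1p := xx_le_one (A + B)
  have h1m := xx_le_one (A - B)
  have hT : tt A B ≤ 0 := by
    have e : B ^ 2 * tt A B = xx A ^ 2 - (xx (A + B) ^ 2 + xx (A - B) ^ 2) / 2 := by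
      rw [hp1, hp2]
      unfold tt
      ring
    have h2 : B ^ 2 * tt A B ≤ 0 := by
      rw [e]
      linarith
    by_contra hc
    have : 0 < B ^ 2 * tt A B := mul_pos (by positivity) (not_le.1 hc)
    linarith
  have hw0 := ww_nonneg hρ hρ1.le
  have hw1 := ww_le_half hρ hρ1.le
  have hX : 0 ≤ xx A - ww ρ * xx A ^ 2 - B ^ 2 * dh A B := by
    have e : xx A - B ^ 2 * dh A B = (xx (A + B) + xx (A - B)) / 2 := by
      rw [hp1, hp2]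
      ring
    have h3 : xx (A + B) ^ 2 ≤ xx (A + B) := by nlinarith
    have h4 : xx (A - B) ^ 2 ≤ xx (A - B) := by nlinarith
    have h5 : ww ρ * xx A ^ 2 ≤ 1 * xx A ^ 2 :=
      mul_le_mul_of_nonneg_right (by linarith) (by positivity)
    linarith
  have he : 0 < 1 - ρ ^ 2 := one_sub_sq_pos hρ.le hρ1
  have heta0 := eh_nonneg hbox
  have heta1 := eta_le_one hbox
  have ha0 : 0 ≤ 1 - (1 - ρ ^ 2) * (B ^ 2 * eh A B) := by
    have h6 : (1 - ρ ^ 2) * (B ^ 2 * eh A B) ≤ 1 * 1 :=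
      mul_le_mul (by nlinarith [sq_nonneg ρ]) heta1 (by positivity) (by norm_num)
    linarith
  have hL : ww ρ * (1 - (1 - ρ ^ 2) * (B ^ 2 * eh A B)) * tt A B ≤ 0 :=
    mul_nonpos_of_nonneg_of_nonpos (mul_nonneg hw0 ha0) hT
  have hR : 0 ≤ (1 - ρ ^ 2) * eh A B * (xx A - ww ρ * xx A ^ 2 - B ^ 2 * dh A B) :=
    mul_nonneg (mul_nonneg he.le heta0) hX
  linarith

/-- what the numerical step provides -/
def Good (ρ A B : ℝ) : Prop := StepS1 ρ A B ∨ ∃ p, StepS3 ρ A B p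

theorem verify_sound : ∀ (T : Tr) (r0 r1 A0 A1 B0 B1 : ℚ), verify T r0 r1 A0 A1 B0 B1 = true →
    ∀ {ρ A B : ℝ}, (r0 : ℝ) ≤ ρ → ρ ≤ r1 → 0 < ρ → ρ < 1 → 0 ≤ A → (A0 : ℝ) ≤ A → A ≤ A1 →
      (B0 : ℝ) ≤ B → B ≤ B1 → 0 < B → A + B ≤ 1 → Good ρ A B := by
  intro T
  induction T with
  | hi =>
    intro r0 r1 A0 A1 B0 B1 h ρ A B _ _ hρ hρ1 _ ha1 _ _ _ hB hab
    simp only [verify, decide_eq_true_eq] at h
    have h7 : (((7 / 8 : ℚ)) : ℝ) ≤ (A0 : ℝ) := Rat.cast_le.mpr h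
    have h8 : (7 / 8 : ℝ) ≤ (A0 : ℝ) := by
      refine le_trans (le_of_eq ?_) h7
      norm_num
    exact Or.inl (step_high hρ hρ1 (h8.trans ha1) hB hab)
  | em =>
    intro r0 r1 A0 A1 B0 B1 h ρ A B _ _ hρ hρ1 _ ha1 _ hb1 _ hB hab
    simp only [verify, decide_eq_true_eq] at h
    have : (1 : ℝ) < (A0 : ℝ) + B0 := by exact_mod_cast h
    exfalso
    linarith
  | s1 =>
    intro r0 r1 A0 A1 B0 B1 h ρ A B hr0 hr1 hρ hρ1 _ ha1 ha2 hb1 hb2 hB hab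
    simp only [verify] at h
    exact Or.inl (leafS1_sound h hr0 hr1 hρ ha1 ha2 hb1 hb2 hB hab)
  | s3 k =>
    intro r0 r1 A0 A1 B0 B1 h ρ A B hr0 hr1 hρ hρ1 _ ha1 ha2 hb1 hb2 hB hab
    simp only [verify] at h
    exact Or.inr (leafS3_sound h hr0 hr1 hρ ha1 ha2 hb1 hb2 hB hab)
  | rr l r ihl ihr =>
    intro r0 r1 A0 A1 B0 B1 h ρ A B hr0 hr1 hρ hρ1 hA ha1 ha2 hb1 hb2 hB hab
    simp only [verify, Bool.and_eq_true] at h
    rcases le_total ρ (((r0 + r1) / 2 : ℚ) : ℝ) with hm | hm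
    · exact ihl _ _ _ _ _ _ h.1 hr0 hm hρ hρ1 hA ha1 ha2 hb1 hb2 hB hab
    · exact ihr _ _ _ _ _ _ h.2 hm hr1 hρ hρ1 hA ha1 ha2 hb1 hb2 hB hab
  | aa l r ihl ihr =>
    intro r0 r1 A0 A1 B0 B1 h ρ A B hr0 hr1 hρ hρ1 hA ha1 ha2 hb1 hb2 hB hab
    simp only [verify, Bool.and_eq_true] at h
    rcases le_total A (((A0 + A1) / 2 : ℚ) : ℝ) with hm | hm
    · exact ihl _ _ _ _ _ _ h.1 hr0 hr1 hρ hρ1 hA ha1 hm hb1 hb2 hB hab
    · exact ihr _ _ _ _ _ _ h.2 hr0 hr1 hρ hρ1 hA hm ha2 hb1 hb2 hB hab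
  | bb l r ihl ihr =>
    intro r0 r1 A0 A1 B0 B1 h ρ A B hr0 hr1 hρ hρ1 hA ha1 ha2 hb1 hb2 hB hab
    simp only [verify, Bool.and_eq_true] at h
    rcases le_total B (((B0 + B1) / 2 : ℚ) : ℝ) with hm | hm
    · exact ihl _ _ _ _ _ _ h.1 hr0 hr1 hρ hρ1 hA ha1 ha2 hb1 hm hB hab
    · exact ihr _ _ _ _ _ _ h.2 hr0 hr1 hρ hρ1 hA ha1 ha2 hm hb2 hB hab

end Vale.Agent.P322N
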