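import Vale.Agent.P322V.Defs

/-! Target function and the two forms of the Bellman step for Courtade-Kumar at all noise levels.
`numeric_step` in `P322N/Check.lean` proves `StepS1 ∨ ∃ p, StepS3` on the whole range. -/

namespace Vale.Agent.P322N

open Real Vale.Agent.P322V

/-- The target function: `W_Q(m) = log2 * (e x + q x^2)`, `x = psi m / log 2`, `e = 1 - ρ^2`,
`q log 2 = psi ρ - e log 2`.  `W_Q (±1) = 0`, `W_Q 0 = psi ρ`. -/
noncomputable def UQ (ρ m : ℝ) : ℝ :=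
  (1 - ρ ^ 2) * psi m + (psi ρ - (1 - ρ ^ 2) * Real.log 2) * (psi m / Real.log 2) ^ 2

/-- average of the target at `A ± B` -/
noncomputable def Ubar (ρ A B : ℝ) : ℝ := (UQ ρ (A + B) + UQ ρ (A - B)) / 2

/-- `φ(c,d) = (psi (c+d) + psi (c-d)) / 2` -/
noncomputable def phi (c d : ℝ) : ℝ := (psi (c + d) + psi (c - d)) / 2

/-- `ν(y) = -(1/2) log (1 - y^2)` -/
noncomputable def nu (y : ℝ) : ℝ := -(1 / 2) * Real.log (1 - y ^ 2)

/-- `β` of the certificate touching at `(A,B)`: `n(A) / (n(A) + ν(B/(1+A)))`, `n(A) = log (2/(1+A))` -/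
noncomputable def betaT (A B : ℝ) : ℝ :=
  Real.log (2 / (1 + A)) / (Real.log (2 / (1 + A)) + nu (B / (1 + A)))

/-- `β` of the certificate touching at `(0,p)` -/
noncomputable def betaP (p : ℝ) : ℝ := Real.log 2 / (Real.log 2 + nu p)

/-- Bellman step with the certificate touching at `(A,B)` -/
def StepS1 (ρ A B : ℝ) : Prop :=
  UQ ρ A ≤ ρ ^ 2 * Ubar ρ A B
    + (1 - ρ ^ 2) * (psi A - betaT A B * phi A B + betaT A B * Ubar ρ A B)

/-- Bellman step with the certificate touching at `(0,p)` -/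
def StepS3 (ρ A B p : ℝ) : Prop :=
  0 < p ∧ p < 1 ∧
  UQ ρ A ≤ ρ ^ 2 * Ubar ρ A B + (1 - ρ ^ 2) * (betaP p * ath p * B + betaP p * Ubar ρ A B)

end Vale.Agent.P322N
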